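import Vale.Agent.P277.H371.TXFin
import Vale.Agent.P277.H884.MinF
import Vale.Agent.P277.H884.Pui
import Vale.Agent.P277.H29.Alg4
import Vale.Agent.P277.H335.COV5
import Vale.Agent.P277.H19.Thin
import Vale.Agent.P277.H19.Br3
import Vale.Agent.P277.H19.Push
import Vale.Agent.P277.H762.CoreX

/-!
# P277: `StTX False`
-/

namespace Vale.Agent.P277.H371

/-- Task TX (arbitrary normal `X'`). -/
theorem stTX_false : StTX False :=
  stTX_false_of TX.stMin_final H29.stAlg H335.stCovRes H335.stDet TX.stPui H19.stThin H19.stBr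
    H19.stPush TD.stCoreX

end Vale.Agent.P277.H371
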