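import Vale.Agent.P277.H371.Sing2
import Vale.Agent.P277.H762.L1

/-!
# P277, REG: the singular points in a surface
-/

open scoped Manifold ContDiff Topology
open Vale.Agent.P272.K Vale.Agent.P285.H281.FD Set Metric Filter

noncomputable section

namespace Vale.Agent.P277.H371

open Vale.Agent.P277.TX Vale.Agent.P277.H335

/-- a set which is mapped onto an open subset of `ℂ²` does not have dimension `≤ 1` -/
theorem not_dimLe_of_image {X : CSp} {W : Set (Cm 2)} (hW : IsOpen W) (hWn : W.Nonempty)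
    {T N₀ : Set X.pt} (hN₀ : IsOpen N₀) {u : X.pt → Cm 2}
    (hu : ∀ y ∈ N₀, ∀ i, X.Hol (fun y => u y i) y) (hT : T ⊆ N₀) (hWT : W ⊆ u '' T) :
    ¬ DimLe X 1 T := by
  intro hS
  obtain ⟨κ, hκ, c, r, g, i, hr, hg, hgU, hcov⟩ := hS.refine (U := fun _ : Unit => N₀)
    (fun _ => hN₀) (fun y hy => mem_iUnion.2 ⟨(), hT hy⟩)
  have h1 : W ⊆ ⋃ k, (u ∘ g k) '' Metric.ball (c k) (r k) := by
    intro w hw
    obtain ⟨y, hy, rfl⟩ := hWT hw
    obtain ⟨k, p, hp, rfl⟩ := mem_iUnion.1 (hcov hy)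
    exact mem_iUnion.2 ⟨k, p, hp, rfl⟩
  have h2 : dimH W ≤ (2 * 1 : ℕ) := by
    refine (dimH_mono h1).trans ?_
    rw [dimH_iUnion]
    refine iSup_le fun k => dimH_image_ball ?_
    intro p hp
    have hp' := Metric.ball_subset_closedBall hp
    have h3 : AnalyticAt ℂ (u ∘ g k) p := by
      have h4 : ∀ a, AnalyticAt ℂ (fun q => u (g k q) a) p := fun a =>
        (hg k p hp').analyticAt (hu _ (hgU k p hp') a)
      exact AnalyticAt.pi h4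
    exact (h3.restrictScalars (𝕜 := ℝ)).contDiffAt.contDiffWithinAt
  have h3 : Dense Wᶜ := by
    refine dense_compl_of_dimH_lt_finrank (h2.trans_lt ?_)
    rw [finrank_Cm]
    norm_num
  obtain ⟨z, hz1, hz2⟩ := h3.inter_open_nonempty _ hW hWn
  exact hz2 hz1

/-- The singular points in a two-dimensional analytic set, if the generic points are regular. -/
theorem sing_global {Y : Type} [TopologicalSpace Y] [T2Space Y] [CompactSpace Y]
    [ChartedSpace (Cm 4) Y] [IsManifold 𝓘(ℂ, Cm 4) ω Y] {X : CSp}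
    (hX : IsNormal 4 X) {O : Set Y} {v : Y → X.pt} (hv : IsOpenEmb X O v)
    (hdim : DimLe X 2 (v '' O)ᶜ) {S : Set X.pt} (hSan : IsAn X univ S) (hS2 : DimLe X 2 S)
    (hreg : ∀ U₀ : Set X.pt, IsOpen U₀ → ¬ DimLe X 1 (S ∩ U₀) → ∃ x ∈ S ∩ U₀, IsReg 4 X x) :
    DimLe X 1 {x | x ∈ S ∧ ¬ IsReg 4 X x} := by
  classical
  have hne : Nonempty X.pt := hS2.nonempty
  have hloc : ∀ x ∈ {x | x ∈ S ∧ IsSurfX X S x}, ∃ N : Set X.pt, IsOpen N ∧ x ∈ N ∧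
      DimLe X 1 {y | y ∈ S ∧ y ∈ N ∧ ¬ IsReg 4 X y} := by
    rintro x ⟨hxS, Ω, g, u, hΩ, hg, hxg, hu, hug, hS⟩
    obtain ⟨N₀, hN₀s, hN₀, hxN₀⟩ := _root_.mem_nhds_iff.1
      ((eventually_all.2 hu).and hS)
    have hu' : ∀ y ∈ N₀, ∀ i, X.Hol (fun y => u y i) y := fun y hy => (hN₀s hy).1
    have hcu : ∀ y ∈ N₀, ContinuousAt u y := fun y hy =>
      continuousAt_pi.2 fun i => hol_continuousAt (hu' y hy i)
    obtain ⟨p, hp, hpx⟩ := hxg
    have hup : u x = p := by rw [← hpx, hug p hp]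
    have h1 : ∀ᶠ q in 𝓝 p, q ∈ Ω ∧ g q ∈ N₀ := (hΩ.eventually_mem hp).and
      ((hg p hp).1.eventually_mem (hN₀.mem_nhds (by rw [hpx]; exact hxN₀)))
    obtain ⟨ρ, hρ, hρs⟩ := Metric.eventually_nhds_iff_ball.1 h1
    have hopen : ∀ W : Set (Cm 2), IsOpen W → IsOpen {y | y ∈ N₀ ∧ u y ∈ W} := by
      intro W hW
      have : ContinuousOn u N₀ := fun y hy => (hcu y hy).continuousWithinAt
      exact this.isOpen_inter_preimage hN₀ hW
    have hdense : ∀ W ⊆ ball p ρ, IsOpen W → W.Nonempty → ∃ q ∈ W, IsReg 4 X (g q) := by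
      intro W hWs hW hWn
      have hT : ¬ DimLe X 1 (S ∩ {y | y ∈ N₀ ∧ u y ∈ W}) := by
        refine not_dimLe_of_image hW hWn hN₀ hu' (fun y hy => hy.2.1) ?_
        intro q hq
        have hq' := hρs q (hWs hq)
        have hgq := hug q hq'.1
        refine ⟨g q, ⟨(hN₀s hq'.2).2.2 ⟨by rw [hgq]; exact hq'.1, by rw [hgq]⟩, hq'.2,
          by rw [hgq]; exact hq⟩, hgq⟩
      obtain ⟨y, ⟨hyS, hyN, hyW⟩, hyr⟩ := hreg _ (hopen W hW) hT
      exact ⟨u y, hyW, by rw [((hN₀s hyN).2.1 hyS).2]; exact hyr⟩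
    obtain ⟨ρ', hρ', hρ'ρ, hD⟩ := sing_local hX hv hdim hρ
      (fun q hq => hg q (hρs q hq).1) hdense
    have hxb : u x ∈ ball p ρ' := by
      rw [hup]
      exact mem_ball_self hρ'
    refine ⟨{y | y ∈ N₀ ∧ u y ∈ ball p ρ'}, hopen _ isOpen_ball, ⟨hxN₀, hxb⟩, hD.mono ?_⟩
    rintro y ⟨hyS, ⟨hyN, hyu⟩, hyr⟩
    exact ⟨⟨u y, hyu, ((hN₀s hyN).2.1 hyS).2⟩, hyr⟩
  choose! N hN hxN hDN using hloc
  obtain ⟨t, hts, htc, htU⟩ := TopologicalSpace.isOpen_biUnion_countable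
    {x | x ∈ S ∧ IsSurfX X S x} N hN
  have h2 : DimLe X 1 (⋃ x ∈ t, {y | y ∈ S ∧ y ∈ N x ∧ ¬ IsReg 4 X y}) :=
    dimLe_biUnion htc fun x hx => hDN x (hts hx)
  refine (h2.union (H762.stL1 X S hSan hS2)).mono ?_
  rintro x ⟨hxS, hxr⟩
  by_cases hx : IsSurfX X S x
  · refine Or.inl ?_
    have h3 : x ∈ ⋃ y ∈ {x | x ∈ S ∧ IsSurfX X S x}, N y := mem_biUnion ⟨hxS, hx⟩ (hxN x ⟨hxS, hx⟩)
    rw [← htU] at h3
    obtain ⟨y, hy, hxy⟩ := mem_iUnion₂.1 h3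
    exact mem_iUnion₂.2 ⟨y, hy, hxS, hxy, hxr⟩
  · exact Or.inr ⟨hxS, hx⟩

end Vale.Agent.P277.H371
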