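import Vale.Agent.P277.H371.Sharp
import Vale.Agent.P277.H371.Sing3
import Vale.Agent.P277.H371.TXFinal
import Vale.Agent.P277.H615.Tower
import Vale.Agent.P277.H615.T2Fin
import Vale.Agent.P277.H615.P7
import Vale.Agent.P277.H884.L0
import Vale.Agent.P277.H619.Rinf

/-!
# P277, REG: the spaces obtained by flips from a generalized terminal pair are smooth in
codimension two
-/

open scoped Manifold ContDiff Topology
open Vale.Agent.P272.K Vale.Agent.P285.H281.FD Vale.Agent.P267.H175 Set Metric Filter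

noncomputable section

namespace Vale.Agent.P277.H371

open Vale.Agent.P277 Vale.Agent.P277.T2 Vale.Agent.P277.TX Vale.Agent.P277.H335

section
variable {Y : Type} [TopologicalSpace Y] [T2Space Y] [CompactSpace Y] [ChartedSpace (Cm 4) Y]
  [IsManifold 𝓘(ℂ, Cm 4) ω Y] {X : CSp} {O : Set Y} {v : Y → X.pt} {L : Bd X.pt} {M : Bd Y}
  {m P Q : ℕ} {T : L.ι → (((Bd.can 4 Y).pow m).mul M).ι → Y → ℂ}

omit [T2Space Y] [CompactSpace Y] in
theorem hasLiftF_of_chain (hch : H615.Chain2 (((Bd.can 4 Y).pow m).mul M) X L O v T)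
    (hlb : IsLBx X (L.pow P)) {S : Set X.pt} (hSO : S ⊆ (v '' O)ᶜ) {W : Set (Cm 4)} {w₀ : Cm 4}
    {φ : Cm 4 → X.pt} (hW : IsOpen W) (hw₀ : w₀ ∈ W) (h0 : w₀ 0 = 0)
    (hφ : ∀ w ∈ W, HolAt X φ w) (hS : ∀ w ∈ W, w 0 = 0 → φ w ∈ S)
    (hcl : W ⊆ closure {w | w ∈ W ∧ φ w ∈ v '' O}) :
    ∃ w₁ ∈ W, w₁ 0 = 0 ∧ HasLiftF O v (L.pow P) M m Q T φ w₁ := by
  obtain ⟨i, hi⟩ := hlb.cover (φ w₀)
  set W' : Set (Cm 4) := {w | w ∈ W ∧ φ w ∈ (L.pow P).U i} with hW'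
  have hW'o : IsOpen W' := by
    have h1 : ContinuousOn φ W := fun w hw => (hφ w hw).1.continuousWithinAt
    exact h1.isOpen_inter_preimage hW (hlb.isOpen i)
  have hcl' : W' ⊆ closure {w | w ∈ W' ∧ φ w ∈ v '' O} := by
    intro w hw
    rw [_root_.mem_closure_iff]
    intro U hU hwU
    obtain ⟨w', hw', hw'2⟩ := _root_.mem_closure_iff.1 (hcl hw.1) _ (hU.inter hW'o) ⟨hwU, hw⟩
    exact ⟨w', hw'.1, hw'.2, hw'2.2⟩
  obtain ⟨w₁, hw₁, hw₁0, W₁, γ, e, cc, F, K, hW₁, hw₁W, hW₁W, hK, h1, h2, h3, h4, h5⟩ :=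
    hch W' w₀ φ i hW'o ⟨hw₀, hi⟩ h0 (fun w hw => hφ w hw.1) hcl' (fun w hw => hw.2)
  have h5' := h5 fun w hw hw0 => hSO (hS w hw.1 hw0)
  obtain ⟨e', μ⟩ := cc
  obtain ⟨g1, g2, g3, g4, g5⟩ := h1 w₁ hw₁W
  have hW₁n := hW₁.mem_nhds hw₁W
  refine ⟨w₁, hw₁.1, hw₁0, γ, e', μ, i, F, K, hK, g1, g4.1, g4.2,
    H19.analyticAt_change g1 g2 g4.1 g3, ?_, hw₁.2, g5, ?_, ?_⟩
  · filter_upwards [hW₁n] with w hw hwO
    have h6 := h2 w hw hwO
    exact ⟨h6, h3 w hw h6⟩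
  · filter_upwards [hW₁n] with w hw hwO
    exact h4 w hw hwO
  · filter_upwards [hW₁n] with w hw hw0
    exact h5' w hw hw0

/-- the singular points in an analytic set outside the manifold part -/
theorem dimLe_sing {χ : Chart 4 Y → Cm 4 → Matrix (Fin 4) (Fin 4) ℂ} (hX : IsNormal 4 X)
    (hχ : IsKahler χ) (hM : IsLB 4 M) (hNef : Nef χ M) (hm : 1 ≤ m) {V : CSp} {vV : Y → V.pt}
    {D : Set Y} (hTw : H615.Tw2 vV D (((Bd.can 4 Y).pow m).mul M) X L O v P Q T) {S : Set X.pt}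
    (hSan : IsAn X univ S) (hSO : S ⊆ (v '' O)ᶜ) : DimLe X 1 {x | x ∈ S ∧ ¬ IsReg 4 X x} := by
  have hS2 : DimLe X 2 S := hTw.dim.mono hSO
  refine sing_global hX hTw.emb hTw.dim hSan hS2 fun U₀ hU₀ hS1 => ?_
  obtain ⟨V', G, c, r, d, lam, θ, n, ζ, hVU, hg, hζ⟩ := TX.stMinLoc_final Y X hX O v hTw.emb
    hTw.dim S hSan U₀ hU₀ (fun x hx => hSO hx.1) hS1
  have hd : d = 1 := sharp (L := L.pow P) (Q := Q) (T := T) H29.stAlg H335.stCovRes H335.stDet H19.stThin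
    H19.stBr H19.stPush TD.stCoreX hX hχ hM hNef hm hTw.emb hTw.dim hSan hS2 hTw.lb hTw.hQ hTw.iso
    hg hζ fun W w₀ φ hW hw₀ h0 hφ hS hcl _ =>
      hasLiftF_of_chain hTw.chain hTw.lb hSO hW hw₀ h0 hφ hS hcl
  subst hd
  have hc := hg.toIsCov
  obtain ⟨x, hxV, hxc⟩ := (hc.finite c (mem_ball_self hc.pos)).2
  have hxS : x ∈ S := (hg.memS x hxV).2 (by rw [hxc]; exact ⟨hg.c0, hg.c1⟩)
  obtain ⟨s, hs1, hs2⟩ := (IsCov.toPre hc).sec_of_one (fun a ha b hb hab hθ => by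
    obtain ⟨y, hy⟩ := hc.enum (G a) (hc.maps a ha) hθ
    obtain ⟨k, hk⟩ := (hy.2 a).2 ⟨ha, rfl⟩
    obtain ⟨l, hl⟩ := (hy.2 b).2 ⟨hb, hab.symm⟩
    rw [← hk, ← hl, Subsingleton.elim k l]) ⟨x, hxV⟩ hζ
  exact ⟨x, ⟨hxS, hVU hxV⟩, isReg_of_sec hc.holo ⟨V', s, hc.isOpen, hxV, Subset.rfl,
    hc.openMap _ Subset.rfl hc.isOpen, fun y hy => ⟨hs2 y hy, (hs1 _ (hc.maps y hy)).2.2⟩⟩⟩

end

/-- (REG) In a sequence of flips which starts with a generalized terminal pair all spaces are smooth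
in codimension two. -/
theorem reg_all {Y : Type} [TopologicalSpace Y] [T2Space Y] [CompactSpace Y]
    [ChartedSpace (Cm 4) Y] [IsManifold 𝓘(ℂ, Cm 4) ω Y]
    (χ : Chart 4 Y → Cm 4 → Matrix (Fin 4) (Fin 4) ℂ)
    (hχ : IsKahler χ) (M : Bd Y) (hM : IsLB 4 M) (hnef : Nef χ M) (m : ℕ) (hm : 1 ≤ m)
    (W : CSp) (X Z : ℕ → CSp) (r : ℕ) (v : Y → W.pt)
    (p : W.pt → (X 0).pt) (P : Bd W.pt) (G : Fin r → Set Y) (hR : T2.IsRes v p P G)
    (f : ∀ j, (X j).pt → (Z j).pt) (f' : ∀ j, (X (j + 1)).pt → (Z j).pt)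
    (A : ∀ j, Set (Z j).pt) (L : ∀ j, Bd (X j).pt)
    (hL : ∃ c : ℕ, 1 ≤ c ∧ ∃ t, IsCmp (fun y => p (v y)) (L 0)
      ((((Bd.can 4 Y).pow m).mul M).pow c) (⋃ l, G l) t)
    (hflip : ∀ j, ∃ p q : ℕ, 1 ≤ p ∧ 1 ≤ q ∧
      IsFlip (X j) (Z j) (X (j + 1)) (f j) (f' j) (A j) ((L j).pow p) ((L (j + 1)).pow q)) :
    ∀ j, DimLe (X j) 1 {x | ¬ IsReg 4 (X j) x} := by
  have hN := H615.ctBd hM m
  have hch : ∀ j, ∃ p q : ℕ, 1 ≤ p ∧ 1 ≤ q ∧ IsFlip (X j) (Z j) (X (j + 1)) (f j) (f' j)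
      (Amin (f j)) ((L j).pow p) ((L (j + 1)).pow q) := by
    intro j
    obtain ⟨p, q, hp, hq, h⟩ := hflip j
    exact ⟨p, q, hp, hq, (H615.stD0 _ _ _ _ _ _ _ _ h).1⟩
  have hX0 : IsNormal 4 (X 0) := by
    obtain ⟨p, q, -, -, h⟩ := hflip 0
    exact h.normal
  have hT := fun j => H615.exists_tower H884.stL0 hN.isOpen hN.cover (j + 1) (by omega) W X Z hX0
    r v p P G hR f f' A L hL fun i _ => hflip i
  intro j
  induction j with
  | zero =>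
    obtain ⟨⟨P', Q', T, hTw⟩, -⟩ := hT 0
    have hcompl := H615.isRes_compl hR
    refine (dimLe_sing hX0 hχ hM hnef hm hTw hR.an (by rw [hcompl])).mono fun x hx => ⟨?_, hx⟩
    by_contra hxS
    rw [← hcompl] at hxS
    simp only [mem_compl_iff, not_not] at hxS
    obtain ⟨y, hy, rfl⟩ := hxS
    exact hx (hTw.emb.isReg hy)
  | succ j ih =>
    obtain ⟨-, hT'⟩ := hT j
    obtain ⟨O, v', P', Q', T, hTw, hsub⟩ := hT' j (by omega)
    obtain ⟨pp, qq, hpp, hqq, hf⟩ := hch j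
    have h1 := dimLe_sing hf.normal' hχ hM hnef hm hTw
      (IsAn.preimage (fun x => hf.small'.holMap x) hf.small'.an) hsub
    have h2 : DimLe (X (j + 1)) 1 ((fun x => hf.small'.sec (f j x)) ''
        {x | ¬ IsReg 4 (X j) x ∧ f j x ∉ Amin (f j)}) := by
      refine (ih.mono fun x hx => hx.1).image fun x hx => ?_
      have g1 := hf.small'.holMap_sec hx.2
      have g2 := hf.small.holMap x
      exact ⟨ContinuousAt.comp (g := hf.small'.sec) (f := f j) g1.1 g2.1,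
        fun g hg => g2.2 _ (g1.2 g hg)⟩
    refine (h1.union h2).mono fun x hx => ?_
    by_cases hxA : f' j x ∈ Amin (f j)
    · exact Or.inl ⟨hxA, hx⟩
    · refine Or.inr ⟨hf.small.sec (f' j x), ⟨fun hreg => hx ?_, ?_⟩, ?_⟩
      · have h3 := H619.isReg_flip hf.small hf.small' ⟨hf.small.sec (f' j x), hreg⟩ (by
          show f j (hf.small.sec (f' j x)) ∉ Amin (f j)
          rw [hf.small.sec_eq]; exact hxA)
        have h4 : hf.small'.sec (f j (hf.small.sec (f' j x))) = x := by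
          rw [hf.small.sec_eq, hf.small'.sec_apply hxA]
        rw [← h4]
        exact h3
      · rw [hf.small.sec_eq]; exact hxA
      · show hf.small'.sec (f j (hf.small.sec (f' j x))) = x
        rw [hf.small.sec_eq, hf.small'.sec_apply hxA]

/-- Theorem T2 without the hypothesis of smoothness in codimension two. -/
theorem stT2_false (hRinf : StRinf) (hP7 : StP7) : StT2 False := by
  intro Y _ _ _ _ _ χ hχ M hM hnef m hm W X Z r v p P G hR f f' A L hL hflip _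
  exact H615.stT2_core hRinf hP7 χ hχ M hM hnef m hm W X Z r v p P G hR f f' A L hL hflip
    (reg_all χ hχ M hM hnef m hm W X Z r v p P G hR f f' A L hL hflip)

end Vale.Agent.P277.H371
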