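import Vale.Agent.P277.H371.Low

/-!
# P277, TX: the functions `φ` are locally bounded above
-/

open scoped Manifold ContDiff ComplexOrder Topology
open Vale.Agent.P272.K Vale.Agent.P285.H281.FD Vale.Agent.P267.H175 Set Metric Filter

noncomputable section

namespace Vale.Agent.P277.H371

open Vale.Agent.P277.TX Vale.Agent.P277.H19

section
variable {Y : Type} [TopologicalSpace Y] [T2Space Y] [CompactSpace Y] [ChartedSpace (Cm 4) Y]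
  [IsManifold 𝓘(ℂ, Cm 4) ω Y] {X : CSp} {O : Set Y}
  {v : Y → X.pt} {V : Set X.pt} {G : X.pt → Cm 4} {c : Cm 4} {r : ℝ} {d : ℕ} {lam : X.pt → ℂ}
  {θ : Cm 4 → ℂ} {L : Bd X.pt} {M : Bd Y} {m Q K : ℕ}
  {T : L.ι → ((((Bd.can 4 Y).pow m).mul M).pow Q).ι → Y → ℂ} {i₀ : L.ι}

/-- the function `J` -/
def Jf (hv : IsOpenEmb X O v) (y₀ : Y) (G : X.pt → Cm 4) (Λ : Y → ℝ) (A : ℝ) (x : X.pt) : ℝ := by
  classical
  exact if x ∈ v '' O ∧ (jacG v G (chartAt (Cm 4) (hv.inv y₀ x)) (hv.inv y₀ x)).det ≠ 0 then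
    Real.exp (Λ (hv.inv y₀ x) / (2 * A)) else 0

omit [T2Space Y] [CompactSpace Y] [IsManifold 𝓘(ℂ, Cm 4) ω Y] in
theorem Jf_nonneg (hv : IsOpenEmb X O v) (y₀ : Y) (G : X.pt → Cm 4) (Λ : Y → ℝ) (A : ℝ)
    (x : X.pt) : 0 ≤ Jf hv y₀ G Λ A x := by
  unfold Jf
  split_ifs
  · exact (Real.exp_pos _).le
  · exact le_rfl

omit [T2Space Y] [CompactSpace Y] [IsManifold 𝓘(ℂ, Cm 4) ω Y] in
theorem Jf_eq (hv : IsOpenEmb X O v) (y₀ : Y) (G : X.pt → Cm 4) (Λ : Y → ℝ) (A : ℝ) {y : Y}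
    (hy : y ∈ O) (h0 : (jacG v G (chartAt (Cm 4) y) y).det ≠ 0) :
    Jf hv y₀ G Λ A (v y) = Real.exp (Λ y / (2 * A)) := by
  unfold Jf
  rw [hv.inv_apply y₀ hy, if_pos ⟨⟨y, hy, rfl⟩, h0⟩]

omit [T2Space Y] [CompactSpace Y] [IsManifold 𝓘(ℂ, Cm 4) ω Y] in
theorem Jf_eq_zero (hv : IsOpenEmb X O v) (y₀ : Y) (G : X.pt → Cm 4) (Λ : Y → ℝ) (A : ℝ) {y : Y}
    (hy : y ∈ O) (h0 : (jacG v G (chartAt (Cm 4) y) y).det = 0) :
    Jf hv y₀ G Λ A (v y) = 0 := by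
  unfold Jf
  rw [hv.inv_apply y₀ hy, if_neg fun h => h.2 h0]

omit [T2Space Y] [CompactSpace Y] in
theorem Jf_le (hM : IsLB 4 M) (hv : IsOpenEmb X O v) (hVo : IsOpen V)
    (hG : ∀ x ∈ V, ∀ i, X.Hol (fun y => G y i) x)
    (hL : IsLBx X L) (hT : IsIsoY O v L ((((Bd.can 4 Y).pow m).mul M).pow Q) T)
    (hVL : V ⊆ L.U i₀) (hA : 1 ≤ m * Q * K) {ψ : M.ι → Y → ℝ} (hψ : IsMet 4 M ψ)
    {idx : Y → M.ι} (hidx : ∀ y, y ∈ M.U (idx y)) (y₀ : Y) {y : Y} (hy : y ∈ O) (hyV : v y ∈ V) :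
    ∃ e : Chart 4 Y, At e y ∧ ∃ C : ℝ, ∀ᶠ y' in 𝓝 y,
      Jf hv y₀ G (Lam T v G i₀ K ψ idx) ((m * Q * K : ℕ) : ℝ) (v y') ≤
        C * ‖(fderiv ℂ (fun z => G (v (e.symm z))) (e y')).det‖ := by
  set e : Chart 4 Y := chartAt (Cm 4) y with he'
  have he : At e y := at_chartAt _
  set μ : M.ι := idx y with hμ'
  have hμ : y ∈ M.U μ := hidx y
  set A : ℝ := ((m * Q * K : ℕ) : ℝ) with hAdef
  have hA0 : 0 < A := by
    rw [hAdef]; exact_mod_cast (by omega : 0 < m * Q * K)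
  have hecont : ContinuousAt e y := e.continuousAt he.2
  have hTc : ContinuousAt (T i₀ (e, μ)) y := by
    have h1 := (hT.holo y hy i₀ (e, μ) e he (hVL hyV) ⟨he, hμ⟩).1.continuousAt
    have h2 : ContinuousAt (fun y' => T i₀ (e, μ) (e.symm (e y'))) y :=
      ContinuousAt.comp (g := fun z => T i₀ (e, μ) (e.symm z)) (f := e) h1 hecont
    refine h2.congr ?_
    filter_upwards [e.open_source.mem_nhds he.2] with y' hy'
    rw [e.left_inv hy']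
  have hT0 : T i₀ (e, μ) y ≠ 0 := (hT.holo y hy i₀ (e, μ) e he (hVL hyV) ⟨he, hμ⟩).2
  have hψc : ContinuousAt (ψ μ) y := by
    have h1 := (hψ.smooth μ e y he hμ).continuousAt
    have h2 : ContinuousAt (fun y' => ψ μ (e.symm (e y'))) y :=
      ContinuousAt.comp (g := fun z => ψ μ (e.symm z)) (f := e) h1 hecont
    refine h2.congr ?_
    filter_upwards [e.open_source.mem_nhds he.2] with y' hy'
    rw [e.left_inv hy']
  set h : Y → ℝ := fun y' => Real.exp ((((Q * K : ℕ) : ℝ) * ψ μ y' -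
    2 * K * Real.log ‖T i₀ (e, μ) y'‖) / (2 * A)) with hh
  have hhc : ContinuousAt h y := by
    refine Real.continuous_exp.continuousAt.comp ?_
    refine ContinuousAt.div_const (ContinuousAt.sub (continuousAt_const.mul hψc)
      (continuousAt_const.mul ?_)) _
    exact hTc.norm.log (norm_ne_zero_iff.2 hT0)
  refine ⟨e, he, h y + 1, ?_⟩
  filter_upwards [hv.isOpen.mem_nhds hy, (hv.continuousAt hy).eventually_mem (hVo.mem_nhds hyV),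
    e.open_source.mem_nhds he.2, (hM.isOpen μ).mem_nhds hμ,
    hhc.eventually_lt_const (lt_add_one _)] with y' h1 h2 h3 h4 h5
  have he1 : At e y' := ⟨he.1, h3⟩
  have hGa := an_G hv hG h1 h2 he1
  have hpos : 0 < h y' := Real.exp_pos _
  rw [← det_jacG hGa.differentiableAt]
  by_cases h0 : (jacG v G (chartAt (Cm 4) y') y').det = 0
  · rw [Jf_eq_zero hv y₀ G _ A h1 h0]
    exact mul_nonneg (hpos.le.trans h5.le) (norm_nonneg _)
  · rw [Jf_eq hv y₀ G _ A h1 h0]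
    have h0' : (jacG v G e y').det ≠ 0 := by
      intro h0'
      have h6 := congrArg Matrix.det (jacG_change (v := v) (G := G) he1 (at_chartAt y') hGa)
      rw [Matrix.det_mul, h0', zero_mul] at h6
      exact h0 h6
    have hT0' : T i₀ (e, μ) y' ≠ 0 := (hT.holo y' h1 i₀ (e, μ) e he1 (hVL h2) ⟨he1, h4⟩).2
    have hdi : ‖(jacG v G e y').det‖ ≠ 0 := norm_ne_zero_iff.2 h0'
    have hlog : Real.log (‖T i₀ (e, μ) y' ^ K * ((jacG v G e y').det⁻¹) ^ (m * Q * K)‖ ^ 2) =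
        2 * (K * Real.log ‖T i₀ (e, μ) y'‖ - A * Real.log ‖(jacG v G e y').det‖) := by
      rw [norm_mul, norm_pow, norm_pow, norm_inv, Real.log_pow, Real.log_mul
        (pow_ne_zero _ (norm_ne_zero_iff.2 hT0')) (pow_ne_zero _ (inv_ne_zero hdi)),
        Real.log_pow, Real.log_pow, Real.log_inv]
      rw [← hAdef]
      push_cast
      ring
    have hexp : Lam T v G i₀ K ψ idx y' / (2 * A) = (((Q * K : ℕ) : ℝ) * ψ μ y' -
        2 * K * Real.log ‖T i₀ (e, μ) y'‖) / (2 * A) + Real.log ‖(jacG v G e y').det‖ := by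
      rw [Lam_eq hM hv hG hL hT hψ hidx h1 h2 (hVL h2) he1 h0' h4,
        nY_eq hM hv hG hL hT h1 h2 (hVL h2) he1 h4, hlog]
      field_simp
      ring
    rw [hexp, Real.exp_add, Real.exp_log (norm_pos_iff.2 h0')]
    exact mul_le_mul_of_nonneg_right h5.le (norm_nonneg _)

theorem locBd (hBR : StBr) (hM : IsLB 4 M) (hv : IsOpenEmb X O v)
    (hc : IsCov X V G c r d lam θ)
    (hL : IsLBx X L) (hT : IsIsoY O v L ((((Bd.can 4 Y).pow m).mul M).pow Q) T)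
    (hVL : V ⊆ L.U i₀) (hA : 1 ≤ m * Q * K) {n : ℕ} {ζ : Fin n → X.pt → ℂ} (hζ : IsCoord X V ζ)
    {a : Fin d → X.pt → ℂ} {b : Cm 4 → ℂ} (hb : ∀ z ∈ ball c r, ContinuousAt b z ∧ b z ≠ 0)
    (hgen : ∀ l : Fin d, ∀ f : Fin (l : ℕ) → Fin n, Gen V G c r a b (fun x => ∏ t, ζ (f t) x))
    {κ : Cm 4 → ℂ} (hκ : ∀ z ∈ ball c r, θ z ≠ 0 → ∀ x : Fin d → X.pt, Enum V G z x →
      κ z = (Matrix.of fun i k => a i (x k)).det ^ 2)
    {ψ : M.ι → Y → ℝ} (hψ : IsMet 4 M ψ)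
    {idx : Y → M.ι} (hidx : ∀ y, y ∈ M.U (idx y)) :
    LocBdAbove c r θ (G '' {x | x ∈ V ∧ ¬ ∃ y ∈ O, v y = x ∧ RankGe3 v G y})
      (phi O v V G (Lam T v G i₀ K ψ idx) ((m * Q * K : ℕ) : ℝ) κ) := by
  rintro z₀ ⟨hz₀, hz₀E⟩
  have hO : ∀ x ∈ V, G x = z₀ → ∃ y ∈ O, v y = x ∧ RankGe3 v G y := by
    intro x hx hxz
    by_contra hcon
    exact hz₀E ⟨x, ⟨hx, hcon⟩, hxz⟩
  obtain ⟨y₀⟩ : Nonempty Y := by
    obtain ⟨-, p, hpV, hpG⟩ := hc.finite z₀ hz₀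
    obtain ⟨y, -, -⟩ := hO p hpV hpG
    exact ⟨y⟩
  set Λ : Y → ℝ := Lam T v G i₀ K ψ idx with hΛ
  set A : ℝ := ((m * Q * K : ℕ) : ℝ) with hAdef
  have hA0 : 0 < A := by
    rw [hAdef]; exact_mod_cast (by omega : 0 < m * Q * K)
  obtain ⟨w, C₁, h1⟩ := hBR Y X O v hv V G c r d lam θ hc n ζ hζ z₀ hz₀ hO (Jf hv y₀ G Λ A)
    (Jf_nonneg hv y₀ G Λ A) (fun x hx hxz => by
      obtain ⟨y, hy, hyx, -⟩ := hO x hx hxz
      obtain ⟨e, he, C, hC⟩ := Jf_le hM hv hc.isOpen hc.holo hL hT hVL hA hψ hidx y₀ hy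
        (by rw [hyx]; exact hx)
      exact ⟨y, hy, hyx, e, he, C, hC⟩)
  obtain ⟨C₂, hC₂, h2⟩ := vand_le (h := fun x => ∑ j, w j * ζ j x)
    (fun l => gen_pow (hgen l) w) hκ hz₀ (hb z₀ hz₀).1 (hb z₀ hz₀).2
  set C₃ : ℝ := (|C₁| + 1) * C₂ with hC₃
  have hC₃0 : 0 < C₃ := by positivity
  refine ⟨2 * A * Real.log C₃, ?_⟩
  filter_upwards [h1, h2, isOpen_ball.mem_nhds hz₀] with z d1 d2 hz hzE
  obtain ⟨hzE, hθ⟩ := hzE
  have hOz : ∀ x ∈ V, G x = z → x ∈ v '' O := by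
    intro x hx hxz
    by_contra hcon
    refine hzE ⟨x, ⟨hx, ?_⟩, hxz⟩
    rintro ⟨y, hy, hyx, -⟩
    exact hcon ⟨y, hy, hyx⟩
  obtain ⟨D, ρ, hzD, hDs, hbr⟩ := exists_br hv hc hz hθ hOz
  have hE := hbr.enum hv hzD
  have h3 := (d1 hθ _ hE).trans (mul_le_mul_of_nonneg_right (le_abs_self C₁) (sq_nonneg _))
  have h4 := d2 hθ _ hE
  have h5 : ∏ k, Jf hv y₀ G Λ A (v (ρ k z)) = Real.exp ((∑ k, Λ (ρ k z)) / (2 * A)) := by
    rw [Finset.sum_div, Real.exp_sum]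
    exact Finset.prod_congr rfl fun k _ => Jf_eq hv y₀ G Λ A (hbr.mem z hzD k).1
      (hbr.det_ne_zero hv hc.holo hzD (at_chartAt _))
  rw [h5] at h3
  have h6 : Real.exp ((∑ k, Λ (ρ k z)) / (2 * A)) ≤ C₃ * ‖κ z‖ := by
    refine h3.trans ?_
    calc |C₁| * ‖(Matrix.vandermonde fun k => ∑ j, w j * ζ j (v (ρ k z))).det‖ ^ 2 ≤
          |C₁| * (C₂ * ‖κ z‖) := mul_le_mul_of_nonneg_left h4 (abs_nonneg _)
      _ ≤ (|C₁| + 1) * (C₂ * ‖κ z‖) := by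
        refine mul_le_mul_of_nonneg_right (by linarith) (by positivity)
      _ = C₃ * ‖κ z‖ := by rw [hC₃]; ring
  have hκ0 : 0 < ‖κ z‖ := by
    have h7 := (Real.exp_pos _).trans_le h6
    exact pos_of_mul_pos_right h7 hC₃0.le
  have h7 := Real.log_le_log (Real.exp_pos _) h6
  rw [Real.log_exp, Real.log_mul hC₃0.ne' hκ0.ne', div_le_iff₀ (by positivity)] at h7
  rw [phi, hbr.finsum hv hzD, Real.log_pow]
  push_cast
  linarith

end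

end Vale.Agent.P277.H371
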