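import Vale.Agent.P277.Stmts4
import Vale.Agent.P277.A.Emb
import Vale.Agent.P277.H19.Pull2

/-!
# P277, TX: local branches of a branched covering with values in `Y`
-/

open scoped Manifold ContDiff ComplexOrder Topology
open Vale.Agent.P272.K Vale.Agent.P285.H281.FD Vale.Agent.P267.H175 Set Metric Filter

noncomputable section

namespace Vale.Agent.P277.H371

open Vale.Agent.P277.TX

variable {Y : Type} [TopologicalSpace Y] [ChartedSpace (Cm 4) Y] {X : CSp} {O : Set Y}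
  {v : Y → X.pt} {V : Set X.pt} {G : X.pt → Cm 4} {c : Cm 4} {r : ℝ} {d : ℕ} {lam : X.pt → ℂ}
  {θ : Cm 4 → ℂ}

/-- The maps `ρ k` are the branches of the inverse of `G ∘ v` over the open set `D`. -/
structure IsBr (O : Set Y) (v : Y → X.pt) (V : Set X.pt) (G : X.pt → Cm 4) (D : Set (Cm 4))
    {d : ℕ} (ρ : Fin d → Cm 4 → Y) : Prop where
  isOpen : IsOpen D
  mem : ∀ z ∈ D, ∀ k, ρ k z ∈ O ∧ v (ρ k z) ∈ V ∧ G (v (ρ k z)) = z
  cont : ∀ z ∈ D, ∀ k, ContinuousAt (ρ k) z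
  an : ∀ z ∈ D, ∀ k, ∀ e : Chart 4 Y, At e (ρ k z) → AnalyticAt ℂ (fun w => e (ρ k w)) z
  inj : ∀ z ∈ D, Function.Injective (fun k => ρ k z)
  all : ∀ z ∈ D, ∀ x ∈ V, G x = z → ∃ k, v (ρ k z) = x

theorem isOpen_ne (hc : IsCov X V G c r d lam θ) : IsOpen {z | z ∈ ball c r ∧ θ z ≠ 0} := by
  rw [isOpen_iff_mem_nhds]
  rintro z ⟨hz, hz'⟩
  filter_upwards [isOpen_ball.mem_nhds hz, (hc.an z hz).continuousAt.eventually_ne hz'] with w hw hw'
  exact ⟨hw, hw'⟩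

theorem exists_br (hv : IsOpenEmb X O v) (hc : IsCov X V G c r d lam θ) {z₀ : Cm 4}
    (hz₀ : z₀ ∈ ball c r) (hθ : θ z₀ ≠ 0) (hO : ∀ x ∈ V, G x = z₀ → x ∈ v '' O) :
    ∃ (D : Set (Cm 4)) (ρ : Fin d → Cm 4 → Y), z₀ ∈ D ∧ D ⊆ {z | z ∈ ball c r ∧ θ z ≠ 0} ∧
      IsBr O v V G D ρ := by
  classical
  obtain ⟨x, hxi, hx⟩ := hc.enum z₀ hz₀ hθ
  have hxV : ∀ k, x k ∈ V ∧ G (x k) = z₀ := fun k => (hx (x k)).1 ⟨k, rfl⟩
  have hne : ∀ k, θ (G (x k)) ≠ 0 := fun k => by rw [(hxV k).2]; exact hθ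
  choose N hNo hxN hNV hNi hNθ hNh using fun k => hc.etale (x k) (hxV k).1 (hne k)
  obtain ⟨U, hU, hUd⟩ := (finite_range x).t2_separation
  have hy₀ : Nonempty Y := by
    obtain ⟨y, -, -⟩ := hO _ (hxV ⟨0, hc.dpos⟩).1 (hxV ⟨0, hc.dpos⟩).2
    exact ⟨y⟩
  obtain ⟨y₀⟩ := hy₀
  set N' : Fin d → Set X.pt := fun k => N k ∩ U (x k) ∩ v '' O with hN'
  have hN'o : ∀ k, IsOpen (N' k) := fun k =>
    ((hNo k).inter (hU (x k)).2).inter hv.isOpen_image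
  have hN'V : ∀ k, N' k ⊆ V := fun k y hy => hNV k hy.1.1
  have hN'i : ∀ k, InjOn G (N' k) := fun k => (hNi k).mono fun y hy => hy.1.1
  have hxN' : ∀ k, x k ∈ N' k := fun k =>
    ⟨⟨hxN k, (hU (x k)).1⟩, hO _ (hxV k).1 (hxV k).2⟩
  have hdisj : ∀ k l y, y ∈ N' k → y ∈ N' l → k = l := by
    intro k l y hk hl
    by_contra hkl
    have h1 := hUd (mem_range_self k) (mem_range_self l) (fun h => hkl (hxi h))
    exact Set.disjoint_left.1 h1 hk.1.2 hl.1.2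
  set D : Set (Cm 4) := (⋂ k, G '' (N' k)) ∩ {z | z ∈ ball c r ∧ θ z ≠ 0} with hD
  have hDo : IsOpen D :=
    (isOpen_iInter_of_finite fun k => hc.openMap _ (hN'V k) (hN'o k)).inter (isOpen_ne hc)
  set σ : Fin d → Cm 4 → X.pt := fun k z =>
    if h : ∃ y ∈ N' k, G y = z then h.choose else x k with hσ
  have hσm : ∀ k, ∀ z ∈ D, σ k z ∈ N' k ∧ G (σ k z) = z := by
    intro k z hz
    have h1 : ∃ y ∈ N' k, G y = z := by
      obtain ⟨y, hy, hyz⟩ := mem_iInter.1 hz.1 k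
      exact ⟨y, hy, hyz⟩
    simp only [hσ, dif_pos h1]
    exact h1.choose_spec
  have hσc : ∀ k, ∀ z ∈ D, ContinuousAt (σ k) z := by
    intro k z hz W hW
    rw [mem_map]
    obtain ⟨W', hW', hW'o, hzW'⟩ := mem_nhds_iff.1 (inter_mem hW ((hN'o k).mem_nhds (hσm k z hz).1))
    have h1 : G '' W' ∈ 𝓝 z :=
      (hc.openMap W' (fun y hy => hN'V k (hW' hy).2) hW'o).mem_nhds ⟨σ k z, hzW', (hσm k z hz).2⟩
    filter_upwards [h1, hDo.mem_nhds hz] with w hw hwD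
    obtain ⟨y, hy, hyw⟩ := hw
    have h2 : σ k w = y := hN'i k (hσm k w hwD).1 (hW' hy).2 (by rw [(hσm k w hwD).2, hyw])
    change σ k w ∈ W
    rw [h2]
    exact (hW' hy).1
  refine ⟨D, fun k z => hv.inv y₀ (σ k z), ⟨mem_iInter.2 fun k => ⟨x k, hxN' k, (hxV k).2⟩,
    hz₀, hθ⟩, fun z hz => hz.2, hDo, ?_, ?_, ?_, ?_, ?_⟩
  · intro z hz k
    have h1 := (hσm k z hz).1.2
    refine ⟨hv.inv_mem y₀ h1, ?_, ?_⟩
    · rw [hv.apply_inv y₀ h1]
      exact hN'V k (hσm k z hz).1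
    · rw [hv.apply_inv y₀ h1]
      exact (hσm k z hz).2
  · intro z hz k
    have h1 := (hσm k z hz).1.2
    obtain ⟨y, hy, hyz⟩ := h1
    refine ContinuousAt.comp (g := hv.inv y₀) ?_ (hσc k z hz)
    rw [← hyz]
    exact hv.inv_continuousAt y₀ hy
  · intro z hz k e he
    have h1 := (hσm k z hz).1.2
    have h2 : hv.inv y₀ (σ k z) ∈ O := hv.inv_mem y₀ h1
    rw [show (fun w => e (hv.inv y₀ (σ k w))) = fun w a => e (hv.inv y₀ (σ k w)) a from rfl,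
      analyticAt_pi_iff]
    intro a
    have h3 := hv.hol_chart y₀ h2 he a
    rw [hv.apply_inv y₀ h1] at h3
    obtain ⟨g, hg, hge⟩ := (hNh k _ (hσm k z hz).1.1.1 _).1 h3
    rw [(hσm k z hz).2] at hg
    refine hg.congr ?_
    filter_upwards [(hσc k z hz).eventually hge, hDo.mem_nhds hz] with w hw hwD
    rw [hw]
    simp only [Function.comp, (hσm k w hwD).2]
  · intro z hz k l hkl
    have h1 : σ k z = σ l z := by
      rw [← hv.apply_inv y₀ (hσm k z hz).1.2, ← hv.apply_inv y₀ (hσm l z hz).1.2]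
      exact congrArg v hkl
    exact hdisj k l _ (hσm k z hz).1 (by rw [h1]; exact (hσm l z hz).1)
  · intro z hz y hy hyz
    obtain ⟨x', hx'i, hx'⟩ := hc.enum z hz.2.1 hz.2.2
    have h1 : ∀ k, ∃ l, x' l = σ k z := fun k =>
      (hx' _).2 ⟨hN'V k (hσm k z hz).1, (hσm k z hz).2⟩
    choose τ hτ using h1
    have hτi : Function.Injective τ := by
      intro k l hkl
      have h2 : σ k z = σ l z := by rw [← hτ k, ← hτ l, hkl]
      exact hdisj k l _ (hσm k z hz).1 (by rw [h2]; exact (hσm l z hz).1)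
    have hτs : Function.Surjective τ := Finite.injective_iff_surjective.1 hτi
    obtain ⟨l, hl⟩ := (hx' y).2 ⟨hy, hyz⟩
    obtain ⟨k, hk⟩ := hτs l
    refine ⟨k, ?_⟩
    change v (hv.inv y₀ (σ k z)) = y
    rw [hv.apply_inv y₀ (hσm k z hz).1.2, ← hτ k, hk, hl]

theorem IsBr.enum (hv : IsOpenEmb X O v) {D : Set (Cm 4)} {ρ : Fin d → Cm 4 → Y}
    (hb : IsBr O v V G D ρ) {z : Cm 4} (hz : z ∈ D) : Enum V G z (fun k => v (ρ k z)) := by
  refine ⟨fun k l hkl => hb.inj z hz (hv.inj (hb.mem z hz k).1 (hb.mem z hz l).1 hkl), ?_⟩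
  intro y
  constructor
  · rintro ⟨k, rfl⟩
    exact (hb.mem z hz k).2
  · rintro ⟨hy, hyz⟩
    exact hb.all z hz y hy hyz

theorem IsBr.mono {D D' : Set (Cm 4)} {ρ : Fin d → Cm 4 → Y} (hb : IsBr O v V G D ρ)
    (hD' : IsOpen D') (h : D' ⊆ D) : IsBr O v V G D' ρ :=
  ⟨hD', fun z hz => hb.mem z (h hz), fun z hz => hb.cont z (h hz), fun z hz => hb.an z (h hz),
    fun z hz => hb.inj z (h hz), fun z hz => hb.all z (h hz)⟩

theorem IsBr.set_eq (hv : IsOpenEmb X O v) {D : Set (Cm 4)} {ρ : Fin d → Cm 4 → Y}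
    (hb : IsBr O v V G D ρ) {z : Cm 4} (hz : z ∈ D) :
    {y | y ∈ O ∧ v y ∈ V ∧ G (v y) = z} = ((Finset.univ.map ⟨fun k => ρ k z, hb.inj z hz⟩ :
      Finset Y) : Set Y) := by
  ext y
  simp only [mem_setOf_eq, Finset.coe_map, Function.Embedding.coeFn_mk, Finset.coe_univ, image_univ,
    mem_range]
  constructor
  · rintro ⟨hy, hyV, hyz⟩
    obtain ⟨k, hk⟩ := hb.all z hz _ hyV hyz
    exact ⟨k, hv.inj (hb.mem z hz k).1 hy hk⟩
  · rintro ⟨k, rfl⟩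
    exact hb.mem z hz k

/-- sums over the fibre -/
theorem IsBr.finsum {A : Type} [AddCommMonoid A] (hv : IsOpenEmb X O v) {D : Set (Cm 4)}
    {ρ : Fin d → Cm 4 → Y} (hb : IsBr O v V G D ρ) {z : Cm 4} (hz : z ∈ D) (f : Y → A) :
    ∑ᶠ y ∈ {y | y ∈ O ∧ v y ∈ V ∧ G (v y) = z}, f y = ∑ k, f (ρ k z) := by
  rw [hb.set_eq hv hz, finsum_mem_coe_finset, Finset.sum_map]
  rfl

end Vale.Agent.P277.H371
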