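import Vale.Agent.P277.H371.Bdd

/-!
# P277, TX: the contradiction at a point where all wedges lift
-/

open scoped Manifold ContDiff ComplexOrder Topology
open Vale.Agent.P272.K Vale.Agent.P285.H281.FD Vale.Agent.P267.H175 Set Metric Filter

noncomputable section

namespace Vale.Agent.P277.H371

open Vale.Agent.P277.TX Vale.Agent.P277.H19

section
variable {Y : Type} [TopologicalSpace Y] [T2Space Y] [CompactSpace Y] [ChartedSpace (Cm 4) Y]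
  [IsManifold 𝓘(ℂ, Cm 4) ω Y] {X : CSp} {O : Set Y}
  {v : Y → X.pt} {V : Set X.pt} {G : X.pt → Cm 4} {c : Cm 4} {r : ℝ} {d : ℕ} {lam : X.pt → ℂ}
  {θ : Cm 4 → ℂ} {L : Bd X.pt} {M : Bd Y} {m Q K : ℕ}
  {T : L.ι → ((((Bd.can 4 Y).pow m).mul M).pow Q).ι → Y → ℂ} {i₀ : L.ι}
  {χ : Chart 4 Y → Cm 4 → Matrix (Fin 4) (Fin 4) ℂ}
  {N : ℕ} {s : Fin d → ℕ} {φ : Fin d → Cm 4 → X.pt} {w₁ : Cm 4} {γ : Fin d → Cm 4 → Y}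
  {e : Fin d → Chart 4 Y} {μ : Fin d → M.ι} {F : Fin d → Cm 4 → ℂ} {α j : Fin d → ℕ}

omit [T2Space Y] [CompactSpace Y] in
/-- bound for the push-forward at the wedge -/
theorem pushH_le (hχ : IsKahler χ) (hv : IsOpenEmb X O v)
    (hG : ∀ x ∈ V, ∀ i, X.Hol (fun y => G y i) x) (h0 : w₁ 0 = 0) (hN : 1 ≤ N)
    (hs : ∀ k, 1 ≤ s k ∧ s k ∣ N)
    (hφ : ∀ k, ∀ᶠ w in 𝓝 w₁, ContinuousAt (φ k) w ∧ φ k w ∈ V ∧ G (φ k w) = pw (s k) w)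
    (hE : ∀ᶠ w in 𝓝 w₁, w 0 ≠ 0 → Enum V G ![w 0 ^ N, w 1 * w 0 ^ N, w 2, w 3]
      (fun k => φ k ![w 0 ^ (N / s k), w 1, w 2, w 3]))
    (hlift : ∀ k, NLift O v L M m Q T i₀ K (φ k) w₁ (γ k) (e k) (μ k) (F k)) :
    ∃ C : ℝ, ∀ᶠ w in 𝓝 w₁, w 0 ≠ 0 → (∀ x ∈ V, G x = bl w → x ∈ v '' O) →
      ∀ i j, ‖pushH χ O v V G (bl w) i j‖ ≤ C / ‖w 0‖ ^ 2 := by
  choose C hC0 hC using fun k => (hlift k).upH_le hχ hv hG (hs k).1 h0 (hφ k)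
  refine ⟨∑ k, C k, ?_⟩
  filter_upwards [wedge_pts hN hs h0 hE fun k => (hC k).and ((hlift k).jac hv hG (hφ k))]
    with w d1 hw hO i j
  obtain ⟨u, hu, hen⟩ := d1 hw
  have hφO : ∀ k, φ k (u k) ∈ v '' O := fun k => by
    obtain ⟨g1, g2⟩ := (hen.2 (φ k (u k))).1 ⟨k, rfl⟩
    exact hO _ g1 g2
  have hy : ∀ k, γ k (u k) ∈ O ∧ v (γ k (u k)) = φ k (u k) := fun k => by
    obtain ⟨g1, g2, -⟩ := (hu k).2.2.2 (hφO k)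
    exact ⟨g1, g2⟩
  have hen' : Enum V G (bl w) (fun k => v (γ k (u k))) := by
    have h1 : (fun k => v (γ k (u k))) = fun k => φ k (u k) := funext fun k => (hy k).2
    rw [h1]; exact hen
  rw [pushH, finsum_enum hv (fun k => (hy k).1) hen', Matrix.sum_apply, Finset.sum_div]
  refine (norm_sum_le _ _).trans (Finset.sum_le_sum fun k _ => ?_)
  have h2 := (hu k).2.2.1 (hu k).2.1 (hφO k) i j
  rwa [(hu k).1] at h2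

/-- lower bound for `φ` at the wedge -/
theorem phi_ge (hM : IsLB 4 M) (hv : IsOpenEmb X O v)
    (hc : IsCov X V G c r d lam θ) {a : Fin d → X.pt → ℂ} {b : Cm 4 → ℂ}
    (hb : ∀ z ∈ ball c r, ContinuousAt b z ∧ b z ≠ 0)
    (hgen : ∀ l : Fin d, Gen V G c r a b (fun x => lam x ^ (l : ℕ)))
    {κ : Cm 4 → ℂ} (hκ : ∀ z ∈ ball c r, θ z ≠ 0 → ∀ x : Fin d → X.pt, Enum V G z x →
      κ z = (Matrix.of fun i k => a i (x k)).det ^ 2)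
    (hL : IsLBx X L) (hT : IsIsoY O v L ((((Bd.can 4 Y).pow m).mul M).pow Q) T)
    (hVL : V ⊆ L.U i₀) (h0 : w₁ 0 = 0) (hw₁ : bl w₁ ∈ ball c r)
    (hθ : ∀ᶠ w in 𝓝 w₁, w 0 ≠ 0 → θ (bl w) ≠ 0) (hN : 1 ≤ N)
    (hs : ∀ k, 1 ≤ s k ∧ s k ∣ N)
    (hφ : ∀ k, ∀ᶠ w in 𝓝 w₁, ContinuousAt (φ k) w ∧ φ k w ∈ V ∧ G (φ k w) = pw (s k) w)
    (hE : ∀ᶠ w in 𝓝 w₁, w 0 ≠ 0 → Enum V G ![w 0 ^ N, w 1 * w 0 ^ N, w 2, w 3]
      (fun k => φ k ![w 0 ^ (N / s k), w 1, w 2, w 3]))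
    (hlift : ∀ k, NLift O v L M m Q T i₀ K (φ k) w₁ (γ k) (e k) (μ k) (F k))
    (hFb : ∀ k, ∃ C : ℝ, ∀ᶠ w in 𝓝 w₁, ‖F k w‖ ≤ C * ‖w 0‖ ^ α k)
    (hJb : ∀ k, ∃ C : ℝ, ∀ᶠ w in 𝓝 w₁,
      ‖(fderiv ℂ (fun w => e k (γ k w)) w).det‖ ≤ C * ‖w 0‖ ^ j k)
    {p : ℝ} (hκb : ∃ C : ℝ, 0 < C ∧ ∀ᶠ w in 𝓝 w₁, w 0 ≠ 0 → θ (bl w) ≠ 0 →
      ‖κ (bl w)‖ ≤ C * ‖w 0‖ ^ p)
    {ψ : M.ι → Y → ℝ} (hψ : IsMet 4 M ψ) {idx : Y → M.ι} (hidx : ∀ y, y ∈ M.U (idx y)) :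
    ∃ C : ℝ, ∀ᶠ w in 𝓝 w₁, w 0 ≠ 0 → (∀ x ∈ V, G x = bl w → x ∈ v '' O) →
      ((∑ k, (2 * α k + 2 * ((m * Q * K : ℕ) : ℝ) * (j k + 1 - 2 * s k)) / s k) +
        2 * ((m * Q * K : ℕ) : ℝ) * p) * Real.log (1 / ‖w 0‖) - C ≤
          phi O v V G (Lam T v G i₀ K ψ idx) ((m * Q * K : ℕ) : ℝ) κ (bl w) := by
  choose C hC using fun k => (hlift k).Lam_ge (α := α k) (j := j k) hM hv hc.holo hL hT hVL hψ hidx
    (hs k).1 (hφ k) (hFb k) (hJb k)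
  obtain ⟨Cκ, hCκ0, hCκ⟩ := hκb
  set A : ℝ := ((m * Q * K : ℕ) : ℝ) with hA
  have hA0 : 0 ≤ A := Nat.cast_nonneg _
  refine ⟨(∑ k, C k) + 2 * A * Real.log Cκ, ?_⟩
  filter_upwards [wedge_pts hN hs h0 hE fun k => (hC k).and ((hlift k).jac hv hc.holo (hφ k)),
    hθ, hCκ, continuous_bl.continuousAt.eventually (isOpen_ball.mem_nhds hw₁)]
    with w d1 d2 d3 d4 hw hO
  obtain ⟨u, hu, hen⟩ := d1 hw
  have hφO : ∀ k, φ k (u k) ∈ v '' O := fun k => by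
    obtain ⟨g1, g2⟩ := (hen.2 (φ k (u k))).1 ⟨k, rfl⟩
    exact hO _ g1 g2
  have hy : ∀ k, γ k (u k) ∈ O ∧ v (γ k (u k)) = φ k (u k) := fun k => by
    obtain ⟨g1, g2, -⟩ := (hu k).2.2.2 (hφO k)
    exact ⟨g1, g2⟩
  have hen' : Enum V G (bl w) (fun k => v (γ k (u k))) := by
    have h1 : (fun k => v (γ k (u k))) = fun k => φ k (u k) := funext fun k => (hy k).2
    rw [h1]; exact hen
  rw [phi, finsum_enum hv (fun k => (hy k).1) hen']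
  have ht : 0 < ‖w 0‖ := norm_pos_iff.2 hw
  have h1 : ∀ k, (2 * α k + 2 * A * (j k + 1 - 2 * s k)) / s k * Real.log (1 / ‖w 0‖) - C k ≤
      Lam T v G i₀ K ψ idx (γ k (u k)) := by
    intro k
    have h2 := (hu k).2.2.1 (hu k).2.1 (hφO k)
    have h3 : Real.log (1 / ‖u k 0‖) = Real.log (1 / ‖w 0‖) / s k := by
      have hsk : (s k : ℝ) ≠ 0 := by exact_mod_cast (Nat.one_le_iff_ne_zero.1 (hs k).1)
      have h4 : ‖w 0‖ = ‖u k 0‖ ^ s k := by rw [← norm_pow, (hu k).1]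
      rw [one_div, one_div, Real.log_inv, Real.log_inv, h4, Real.log_pow]
      field_simp
    rw [h3] at h2
    refine le_trans (le_of_eq ?_) h2
    ring
  have hκ0 : κ (bl w) ≠ 0 := kappa_ne_zero hc hgen hκ d4 (d2 hw) (hb _ d4).2
  have h5 := Real.log_le_log (norm_pos_iff.2 hκ0) (d3 hw (d2 hw))
  rw [Real.log_mul hCκ0.ne' (Real.rpow_pos_of_pos ht p).ne', Real.log_rpow ht] at h5
  have h6 : Real.log (‖κ (bl w)‖ ^ 2) = 2 * Real.log ‖κ (bl w)‖ := by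
    rw [Real.log_pow]; push_cast; ring
  have h7 : A * Real.log ‖κ (bl w)‖ ≤ A * (Real.log Cκ + p * Real.log ‖w 0‖) :=
    mul_le_mul_of_nonneg_left h5 hA0
  have h8 := Finset.sum_le_sum (s := Finset.univ) fun k _ => h1 k
  rw [Finset.sum_sub_distrib, ← Finset.sum_mul] at h8
  have h9 : Real.log (1 / ‖w 0‖) = -Real.log ‖w 0‖ := by rw [one_div, Real.log_inv]
  rw [h6]
  rw [h9] at h8 ⊢
  nlinarith

/-- all wedges lift, with vanishing orders `α k` and `j k` of the frame and of the Jacobian: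
then the sum of the discrepancies is not positive. -/
theorem contra (hTHIN : StThin) (hBR : StBr) (hPUSH : StPush) (hCORE : StCoreX)
    (hχ : IsKahler χ) (hM : IsLB 4 M) (hNef : Nef χ M) (hv : IsOpenEmb X O v)
    (hO : DimLe X 2 (v '' O)ᶜ)
    (hc : IsCov X V G c r d lam θ) {n : ℕ} {ζ : Fin n → X.pt → ℂ} (hζ : IsCoord X V ζ)
    {a : Fin d → X.pt → ℂ} {b : Cm 4 → ℂ}
    (hb : ∀ z ∈ ball c r, ContinuousAt b z ∧ b z ≠ 0)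
    (hgen : ∀ l : Fin d, Gen V G c r a b (fun x => lam x ^ (l : ℕ)))
    (hgenζ : ∀ l : Fin d, ∀ f : Fin (l : ℕ) → Fin n, Gen V G c r a b (fun x => ∏ t, ζ (f t) x))
    {κ : Cm 4 → ℂ} (hκa : ∀ z ∈ ball c r, AnalyticAt ℂ κ z)
    (hκ : ∀ z ∈ ball c r, θ z ≠ 0 → ∀ x : Fin d → X.pt, Enum V G z x →
      κ z = (Matrix.of fun i k => a i (x k)).det ^ 2)
    (hL : IsLBx X L) (hT : IsIsoY O v L ((((Bd.can 4 Y).pow m).mul M).pow Q) T)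
    (hVL : V ⊆ L.U i₀) (hA : 1 ≤ m * Q * K) (h0 : w₁ 0 = 0) (hw₁ : bl w₁ ∈ ball c r)
    (hθ : ∀ᶠ w in 𝓝 w₁, w 0 ≠ 0 → θ (bl w) ≠ 0) (hN : 1 ≤ N)
    (hs : ∀ k, 1 ≤ s k ∧ s k ∣ N)
    (hφ : ∀ k, ∀ᶠ w in 𝓝 w₁, ContinuousAt (φ k) w ∧ φ k w ∈ V ∧ G (φ k w) = pw (s k) w)
    (hE : ∀ᶠ w in 𝓝 w₁, w 0 ≠ 0 → Enum V G ![w 0 ^ N, w 1 * w 0 ^ N, w 2, w 3]
      (fun k => φ k ![w 0 ^ (N / s k), w 1, w 2, w 3]))
    (hlift : ∀ k, NLift O v L M m Q T i₀ K (φ k) w₁ (γ k) (e k) (μ k) (F k))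
    (hFb : ∀ k, ∃ C : ℝ, ∀ᶠ w in 𝓝 w₁, ‖F k w‖ ≤ C * ‖w 0‖ ^ α k)
    (hJb : ∀ k, ∃ C : ℝ, ∀ᶠ w in 𝓝 w₁,
      ‖(fderiv ℂ (fun w => e k (γ k w)) w).det‖ ≤ C * ‖w 0‖ ^ j k)
    {p : ℝ} (hκb : ∃ C : ℝ, 0 < C ∧ ∀ᶠ w in 𝓝 w₁, w 0 ≠ 0 → θ (bl w) ≠ 0 →
      ‖κ (bl w)‖ ≤ C * ‖w 0‖ ^ p) :
    (∑ k, (2 * α k + 2 * ((m * Q * K : ℕ) : ℝ) * (j k + 1 - 2 * s k)) / s k) +
        2 * ((m * Q * K : ℕ) : ℝ) * p ≤ 0 := by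
  by_contra hpos
  push Not at hpos
  have hthin := hTHIN Y X O v hv hO V G c r d lam θ hc
  set E : Set (Cm 4) := G '' {x | x ∈ V ∧ ¬ ∃ y ∈ O, v y = x ∧ RankGe3 v G y} with hEdef
  obtain ⟨p1, p2, p3⟩ := hPUSH Y χ hχ X O v hv V G c r d lam θ hc (G '' (V \ v '' O)) rfl
  have hsub : G '' (V \ v '' O) ⊆ E := by
    rintro _ ⟨x, ⟨hx, hx'⟩, rfl⟩
    refine ⟨x, ⟨hx, ?_⟩, rfl⟩
    rintro ⟨y, hy, hyx, -⟩
    exact hx' ⟨y, hy, hyx⟩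
  have hsub' : ball c r \ E ⊆ ball c r \ G '' (V \ v '' O) := fun z hz =>
    ⟨hz.1, fun h => hz.2 (hsub h)⟩
  have hOE : ∀ z, z ∉ E → ∀ x ∈ V, G x = z → x ∈ v '' O := by
    intro z hz x hx hxz
    by_contra hcon
    refine hz ⟨x, ⟨hx, ?_⟩, hxz⟩
    rintro ⟨y, hy, hyx, -⟩
    exact hcon ⟨y, hy, hyx⟩
  have hQK : 0 < Q * K := by
    rcases Nat.eq_zero_or_pos (Q * K) with h | h
    · rw [mul_assoc, h, mul_zero] at hA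
      omega
    · exact h
  refine hCORE c r hc.pos θ hc.an hc.ne E hthin (pushH χ O v V G)
    (fun z hz hθz => p1 z (hsub' hz) hθz) (fun z hz => p2 z (hsub' hz))
    (fun a ha hac has i j k => p3 a ha hac (has.trans hsub') i j k) w₁ h0 hw₁ ?_ hθ _ hpos ?_
  · obtain ⟨C, hC⟩ := pushH_le hχ hv hc.holo h0 hN hs hφ hE hlift
    refine ⟨C, ?_⟩
    filter_upwards [hC] with w h1 hw hwE _
    exact h1 hw (hOE _ hwE)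
  · intro δ hδ
    obtain ⟨ψ, hψ, hcurv⟩ := hNef (δ / ((Q * K : ℕ) : ℝ)) (by positivity)
    choose idx hidx using hM.cover
    refine ⟨phi O v V G (Lam T v G i₀ K ψ idx) ((m * Q * K : ℕ) : ℝ) κ, ?_, ?_, ?_⟩
    · intro z hz hθz
      obtain ⟨D, ρ, hzD, hDs, hbr⟩ := exists_br hv hc hz.1 hθz (hOE z hz.2)
      have h1 := hbr.phi_psh (K := K) hχ hM hv hc.holo hL hT hVL hψ hcurv hidx
        ((m * Q * K : ℕ) : ℝ) (κ := κ) (fun w hw => ⟨hκa w (hDs hw).1,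
          kappa_ne_zero hc hgen hκ (hDs hw).1 (hDs hw).2 (hb _ (hDs hw).1).2⟩) hzD
      have h2 : (((Q * K : ℕ) : ℝ) * (δ / ((Q * K : ℕ) : ℝ)) : ℝ) = δ := by
        have : ((Q * K : ℕ) : ℝ) ≠ 0 := by exact_mod_cast hQK.ne'
        field_simp
      rw [h2] at h1
      exact h1
    · exact locBd hBR hM hv hc hL hT hVL hA hζ hb hgenζ hκ hψ hidx
    · obtain ⟨C, hC⟩ := phi_ge hM hv hc hb hgen hκ hL hT hVL h0 hw₁ hθ hN hs hφ hE hlift hFb hJb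
        hκb hψ hidx
      refine ⟨C, ?_⟩
      filter_upwards [hC] with w h1 hw hwE
      exact h1 hw (hOE _ hwE)

end

end Vale.Agent.P277.H371
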