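import Vale.Agent.P277.H371.Branch
import Vale.Agent.P277.H19.Br2

/-!
# P277, TX: determinants of functions on the sheets of a branched covering
-/

open scoped Manifold ContDiff ComplexOrder Topology
open Vale.Agent.P272.K Vale.Agent.P285.H281.FD Vale.Agent.P267.H175 Set Metric Filter

noncomputable section

namespace Vale.Agent.P277.H371

open Vale.Agent.P277.TX Vale.Agent.P277.H19

/-! ### bounds for determinants -/

theorem norm_det_le {d : ℕ} (B : Matrix (Fin d) (Fin d) ℂ) (u : Fin d → ℝ)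
    (h : ∀ i j, ‖B i j‖ ≤ u i) : ‖B.det‖ ≤ (d.factorial : ℝ) * ∏ i, u i := by
  rw [← Matrix.det_transpose, Matrix.det_apply']
  refine (norm_sum_le _ _).trans ?_
  have h1 : ∀ σ ∈ (Finset.univ : Finset (Equiv.Perm (Fin d))),
      ‖((Equiv.Perm.sign σ : ℤ) : ℂ) * ∏ i, B.transpose (σ i) i‖ ≤ ∏ i, u i := by
    intro σ _
    rw [norm_mul]
    have h2 : ‖((Equiv.Perm.sign σ : ℤ) : ℂ)‖ = 1 := by
      rcases Int.units_eq_one_or (Equiv.Perm.sign σ) with h | h <;> simp [h]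
    rw [h2, one_mul, norm_prod]
    exact Finset.prod_le_prod (fun _ _ => norm_nonneg _) fun i _ => h i (σ i)
  refine (Finset.sum_le_sum h1).trans ?_
  simp [Fintype.card_perm]

theorem norm_det_le_of_near {d : ℕ} (A : Matrix (Fin d) (Fin d) ℂ) (k₀ : Fin d) {C ε : ℝ}
    (h0 : ∀ j, ‖A k₀ j‖ ≤ C) (h1 : ∀ k j, ‖A k j - A k₀ j‖ ≤ ε) :
    ‖A.det‖ ≤ (d.factorial : ℝ) * (C * ε ^ (d - 1)) := by
  classical
  set B : Matrix (Fin d) (Fin d) ℂ :=
    Matrix.of fun i j => if i = k₀ then A k₀ j else A i j - A k₀ j with hB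
  have hdet : A.det = B.det := by
    refine Matrix.det_eq_of_forall_row_eq_smul_add_const (fun i => if i = k₀ then 0 else 1) k₀
      (by simp) ?_
    intro i j
    by_cases hi : i = k₀
    · subst hi; simp [hB]
    · simp [hB, hi]
  rw [hdet]
  refine (norm_det_le B (fun i => if i = k₀ then C else ε) ?_).trans ?_
  · intro i j
    by_cases hi : i = k₀
    · simp only [hB, Matrix.of_apply, if_pos hi]
      exact h0 j
    · simp only [hB, Matrix.of_apply, if_neg hi]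
      exact h1 i j
  · refine mul_le_mul_of_nonneg_left (le_of_eq ?_) (Nat.cast_nonneg _)
    rw [← Finset.mul_prod_erase Finset.univ _ (Finset.mem_univ k₀), if_pos rfl]
    congr 1
    rw [Finset.prod_congr rfl (g := fun _ => ε) (fun i hi => if_neg (Finset.ne_of_mem_erase hi)),
      Finset.prod_const, Finset.card_erase_of_mem (Finset.mem_univ _), Finset.card_univ,
      Fintype.card_fin]

/-! ### restriction to functions of `z 2, z 3` -/

variable {X : CSp} {S V : Set X.pt} {G : X.pt → Cm 4} {c : Cm 4} {r : ℝ} {d : ℕ} {lam : X.pt → ℂ}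
  {θ : Cm 4 → ℂ}

theorem coeff_of_uniq (hc : IsCov X V G c r d lam θ) {x : X.pt} (hx : x ∈ V)
    (hu : ∀ y ∈ V, G y = G x → y = x) {h : X.pt → ℂ} (hh : ContinuousAt h x)
    {P : Cm 4 → Polynomial ℂ} (hP : ContinuousAt (fun w => (P w).coeff (d - 1)) (G x))
    (hP' : ∀ z ∈ ball c r, θ z ≠ 0 → ∀ x : Fin d → X.pt, Enum V G z x →
      P z = ∏ k, (Polynomial.X - Polynomial.C (h (x k)))) :
    (P (G x)).coeff (d - 1) = -(d * h x) := by
  have hd : (0 : ℝ) < d := by exact_mod_cast hc.dpos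
  by_contra hne
  have hne' : (P (G x)).coeff (d - 1) + d * h x ≠ 0 := fun h0 => hne (eq_neg_of_add_eq_zero_left h0)
  set η : ℝ := ‖(P (G x)).coeff (d - 1) + d * h x‖ with hη
  have hη0 : 0 < η := norm_pos_iff.2 hne'
  have hGx := hc.maps x hx
  have c1 : ∀ᶠ z in 𝓝 (G x), η / 2 < ‖(P z).coeff (d - 1) + d * h x‖ := by
    have h1 : ContinuousAt (fun z => ‖(P z).coeff (d - 1) + d * h x‖) (G x) :=
      (hP.add continuousAt_const).norm
    exact h1.eventually_const_lt (show η / 2 < η by linarith)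
  have c2 : ∀ᶠ z in 𝓝 (G x), ∀ y ∈ V, G y = z → y ∈ {y | ‖h y - h x‖ < η / (2 * d)} := by
    refine cov_eventually hc hGx ?_
    intro y hy hyx
    rw [hu y hy hyx]
    have h1 : ContinuousAt (fun y => ‖h y - h x‖) x := (hh.sub continuousAt_const).norm
    refine h1.eventually_lt_const (show ‖h x - h x‖ < η / (2 * d) from ?_)
    rw [sub_self, norm_zero]
    positivity
  have c3 : ∀ᶠ z in 𝓝 (G x), z ∈ ball c r := isOpen_ball.mem_nhds hGx
  have c4 : ∃ᶠ z in 𝓝 (G x), θ z ≠ 0 := Filter.not_eventually.1 (hc.ne _ hGx)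
  obtain ⟨z, hz, hz1, hz2, hz3⟩ := (c4.and_eventually (c1.and (c2.and c3))).exists
  obtain ⟨xs, hxs⟩ := hc.enum z hz3 hz
  rw [hP' z hz3 hz xs hxs] at hz1
  have h1 : (∏ k : Fin d, (Polynomial.X - Polynomial.C (h (xs k)))).coeff (d - 1) =
      -∑ k, h (xs k) := by
    have h2 := Polynomial.prod_X_sub_C_coeff_card_pred (Finset.univ : Finset (Fin d))
      (fun k => h (xs k)) (by rw [Finset.card_univ, Fintype.card_fin]; exact hc.dpos)
    rwa [Finset.card_univ, Fintype.card_fin] at h2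
  rw [h1] at hz1
  have h3 : -∑ k, h (xs k) + d * h x = -∑ k : Fin d, (h (xs k) - h x) := by
    rw [Finset.sum_sub_distrib]
    simp
    ring
  rw [h3, norm_neg] at hz1
  have h4 : ‖∑ k : Fin d, (h (xs k) - h x)‖ ≤ ∑ k : Fin d, η / (2 * d) := by
    refine (norm_sum_le _ _).trans (Finset.sum_le_sum fun k _ => ?_)
    obtain ⟨g1, g2⟩ := (hxs.2 (xs k)).1 ⟨k, rfl⟩
    exact (hz2 _ g1 g2).le
  rw [Finset.sum_const, Finset.card_univ, Fintype.card_fin, nsmul_eq_mul] at h4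
  have h5 : (d : ℝ) * (η / (2 * d)) = η / 2 := by field_simp
  linarith

/-- the projection to the plane `{z 0 = z 1 = 0}` -/
def pr (z : Cm 4) : Cm 4 := ![0, 0, z 2, z 3]

theorem analyticAt_pr (z : Cm 4) : AnalyticAt ℂ pr z := by
  rw [analyticAt_pi_iff]
  intro i
  fin_cases i
  · exact analyticAt_const
  · exact analyticAt_const
  · exact (ContinuousLinearMap.proj (R := ℂ) (φ := fun _ : Fin 4 => ℂ) 2).analyticAt _
  · exact (ContinuousLinearMap.proj (R := ℂ) (φ := fun _ : Fin 4 => ℂ) 3).analyticAt _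

theorem pr_mem (h0 : c 0 = 0) (h1 : c 1 = 0) {z : Cm 4} (hz : z ∈ ball c r) : pr z ∈ ball c r := by
  rw [mem_ball] at hz ⊢
  refine lt_of_le_of_lt ?_ hz
  rw [dist_pi_le_iff dist_nonneg]
  intro i
  have h2 := dist_le_pi_dist z c
  fin_cases i
  · simp [pr, h0]
  · simp [pr, h1]
  · exact h2 2
  · exact h2 3

theorem pr_eq {z : Cm 4} (h0 : z 0 = 0) (h1 : z 1 = 0) : pr z = z := by
  ext i
  fin_cases i
  · exact h0.symm
  · exact h1.symm
  · rfl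
  · rfl

theorem exists_beta (hg : IsGood X S V G c r d lam θ) {h : X.pt → ℂ} (hh : ∀ x ∈ V, X.Hol h x) :
    ∃ β : Cm 4 → ℂ, (∀ z ∈ ball c r, AnalyticAt ℂ β z) ∧ ∀ x ∈ V, x ∈ S → h x = β (G x) := by
  obtain ⟨P, hP1, -, hP3⟩ := hg.sym h hh
  have hd : (d : ℂ) ≠ 0 := by exact_mod_cast (Nat.one_le_iff_ne_zero.1 hg.dpos)
  refine ⟨fun z => -(d : ℂ)⁻¹ * (P (pr z)).coeff (d - 1), fun z hz => ?_, fun x hx hxS => ?_⟩
  · exact analyticAt_const.mul (AnalyticAt.comp (g := fun w => (P w).coeff (d - 1)) (f := pr)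
      ((hP1 _ (pr_mem hg.c0 hg.c1 hz)).2.2 (d - 1)) (analyticAt_pr z))
  · have h1 := (hg.memS x hx).1 hxS
    have h2 := coeff_of_uniq hg.toIsCov hx (hg.uniq x hx hxS) (hol_continuousAt (hh x hx))
      ((hP1 _ (hg.maps x hx)).2.2 (d - 1)).continuousAt hP3
    simp only [pr_eq h1.1 h1.2, h2]
    field_simp

theorem bl_zero {w : Cm 4} (h0 : w 0 = 0) : bl w 0 = 0 ∧ bl w 1 = 0 :=
  ⟨h0, by change w 0 * w 1 = 0; rw [h0, zero_mul]⟩

theorem kappa_le (hg : IsGood X S V G c r d lam θ) {a : Fin d → X.pt → ℂ}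
    (ha : ∀ i, ∀ x ∈ V, X.Hol (a i) x) {κ : Cm 4 → ℂ}
    (hκ : ∀ z ∈ ball c r, θ z ≠ 0 → ∀ x : Fin d → X.pt, Enum V G z x →
      κ z = (Matrix.of fun i k => a i (x k)).det ^ 2) {w₁ : Cm 4} (h0 : w₁ 0 = 0)
    (hw₁ : bl w₁ ∈ ball c r) :
    ∃ C : ℝ, 0 < C ∧ ∀ᶠ w in 𝓝 w₁, θ (bl w) ≠ 0 → ‖κ (bl w)‖ ≤ C * ‖w 0‖ ^ (2 * (d - 1)) := by
  obtain ⟨-, p, hpV, hpG⟩ := hg.finite _ hw₁
  have hpS : p ∈ S := by
    rw [hg.memS p hpV, hpG]
    exact bl_zero h0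
  choose β hβ1 hβ2 using fun i => exists_beta hg (ha i)
  have hGan : ∀ i, X.Hol (fun y => β i (G y)) p := fun i =>
    hol_comp (f := fun j y => G y j) (G := β i) (fun j => hg.holo p hpV j)
      (hβ1 i _ (hg.maps p hpV))
  have hred : ∀ i, ∃ C : ℝ, ∀ᶠ y in 𝓝 p, ‖a i y - β i (G y)‖ ≤ C * (‖G y 0‖ + ‖G y 1‖) := by
    intro i
    refine hg.red p hpV hpS _ (hol_sub (ha i p hpV) (hGan i)) ?_
    filter_upwards [hg.isOpen.mem_nhds hpV] with y hy hyS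
    rw [hβ2 i y hy hyS, sub_self]
  choose C hC using hred
  set B : ℝ := ∑ i, |C i| with hB
  set A : ℝ := ∑ i, (‖a i p‖ + 1) with hA
  have hCB : ∀ i, C i ≤ B := fun i => (le_abs_self _).trans
    (Finset.single_le_sum (f := fun i => |C i|) (fun _ _ => abs_nonneg _) (Finset.mem_univ i))
  have hB0 : 0 ≤ B := Finset.sum_nonneg fun _ _ => abs_nonneg _
  have hAA : ∀ i, ‖a i p‖ + 1 ≤ A := fun i =>
    Finset.single_le_sum (f := fun i => ‖a i p‖ + 1) (fun _ _ => by positivity) (Finset.mem_univ i)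
  have hA0 : 0 < A := lt_of_lt_of_le (by positivity) (hAA ⟨0, hg.dpos⟩)
  have hN : ∀ᶠ y in 𝓝 p, ∀ i, ‖a i y - β i (G y)‖ ≤ C i * (‖G y 0‖ + ‖G y 1‖) ∧
      ‖a i y‖ < ‖a i p‖ + 1 := by
    rw [eventually_all]
    intro i
    exact (hC i).and ((hol_continuousAt (ha i p hpV)).norm.eventually_lt_const (by linarith))
  have c1 : ∀ᶠ z in 𝓝 (bl w₁), ∀ y ∈ V, G y = z → y ∈ {y | ∀ i,
      ‖a i y - β i (G y)‖ ≤ C i * (‖G y 0‖ + ‖G y 1‖) ∧ ‖a i y‖ < ‖a i p‖ + 1} := by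
    refine cov_eventually hg.toIsCov hw₁ ?_
    intro y hy hyG
    rw [hg.uniq p hpV hpS y hy (by rw [hyG, hpG])]
    exact hN
  have c2 : ∀ᶠ w in 𝓝 w₁, ‖w 1‖ < ‖w₁ 1‖ + 1 :=
    ((continuous_apply (1 : Fin 4)).norm.continuousAt (x := w₁)).eventually_lt_const (by linarith)
  set E : ℝ := 2 * (B * (‖w₁ 1‖ + 2)) + 1 with hE
  have hE0 : 0 < E := by positivity
  refine ⟨((d.factorial : ℝ) * (A * E ^ (d - 1))) ^ 2, by positivity, ?_⟩
  filter_upwards [continuous_bl.continuousAt.eventually c1, c2,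
    continuous_bl.continuousAt.eventually (isOpen_ball.mem_nhds hw₁)] with w d1 d2 d3 d4
  obtain ⟨xs, hxs⟩ := hg.enum _ d3 d4
  rw [hκ _ d3 d4 xs hxs, norm_pow, ← Matrix.det_transpose]
  have hx : ∀ k, xs k ∈ V ∧ G (xs k) = bl w := fun k => (hxs.2 (xs k)).1 ⟨k, rfl⟩
  have h1 : ∀ k i, ‖a i (xs k) - β i (bl w)‖ ≤ B * (‖w₁ 1‖ + 2) * ‖w 0‖ := by
    intro k i
    have h2 := (d1 (xs k) (hx k).1 (hx k).2 i).1
    rw [(hx k).2] at h2
    refine h2.trans ?_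
    change C i * (‖w 0‖ + ‖w 0 * w 1‖) ≤ _
    rw [norm_mul]
    have h3 : ‖w 0‖ + ‖w 0‖ * ‖w 1‖ ≤ (‖w₁ 1‖ + 2) * ‖w 0‖ := by
      nlinarith [norm_nonneg (w 0), norm_nonneg (w 1)]
    calc C i * (‖w 0‖ + ‖w 0‖ * ‖w 1‖) ≤ B * (‖w 0‖ + ‖w 0‖ * ‖w 1‖) := by
          refine mul_le_mul_of_nonneg_right (hCB i) (by positivity)
      _ ≤ B * ((‖w₁ 1‖ + 2) * ‖w 0‖) := mul_le_mul_of_nonneg_left h3 hB0
      _ = _ := by ring
  have h4 := norm_det_le_of_near (Matrix.transpose (Matrix.of fun i k => a i (xs k))) ⟨0, hg.dpos⟩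
    (C := A) (ε := E * ‖w 0‖) ?_ ?_
  · calc ‖(Matrix.transpose (Matrix.of fun i k => a i (xs k))).det‖ ^ 2 ≤
          ((d.factorial : ℝ) * (A * (E * ‖w 0‖) ^ (d - 1))) ^ 2 := by gcongr
      _ = _ := by rw [mul_pow E, pow_mul]; ring
  · intro i
    have h5 := (d1 (xs ⟨0, hg.dpos⟩) (hx _).1 (hx _).2 i).2
    exact h5.le.trans (hAA i)
  · intro k i
    change ‖a i (xs k) - a i (xs ⟨0, hg.dpos⟩)‖ ≤ E * ‖w 0‖
    have h5 : a i (xs k) - a i (xs ⟨0, hg.dpos⟩) = (a i (xs k) - β i (bl w)) -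
        (a i (xs ⟨0, hg.dpos⟩) - β i (bl w)) := by ring
    rw [h5]
    refine (norm_sub_le _ _).trans ?_
    have h6 := h1 k i
    have h7 := h1 ⟨0, hg.dpos⟩ i
    rw [hE]
    nlinarith [norm_nonneg (w 0)]

/-! ### functions generated by `a` -/

/-- `b h` is a combination of the functions `a i` over the ball. -/
def Gen (V : Set X.pt) (G : X.pt → Cm 4) (c : Cm 4) (r : ℝ) (a : Fin d → X.pt → ℂ) (b : Cm 4 → ℂ)
    (h : X.pt → ℂ) : Prop :=
  ∃ ρ : Fin d → Cm 4 → ℂ, (∀ i, ∀ z ∈ ball c r, AnalyticAt ℂ (ρ i) z) ∧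
    ∀ x ∈ V, b (G x) * h x = ∑ i, ρ i (G x) * a i x

theorem Gen.mono {a : Fin d → X.pt → ℂ} {b : Cm 4 → ℂ} {h : X.pt → ℂ} (hg : Gen V G c r a b h)
    {V' : Set X.pt} {c' : Cm 4} {r' : ℝ} (hV : V' ⊆ V) (hr : ball c' r' ⊆ ball c r) :
    Gen V' G c' r' a b h := by
  obtain ⟨ρ, h1, h2⟩ := hg
  exact ⟨ρ, fun i z hz => h1 i z (hr hz), fun x hx => h2 x (hV hx)⟩

theorem Gen.sum {a : Fin d → X.pt → ℂ} {b : Cm 4 → ℂ} {ι : Type} (s : Finset ι) (u : ι → ℂ)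
    {h : ι → X.pt → ℂ} (hg : ∀ i ∈ s, Gen V G c r a b (h i)) :
    Gen V G c r a b (fun x => ∑ i ∈ s, u i * h i x) := by
  classical
  have h0 : ∀ i, ∃ ρ : Fin d → Cm 4 → ℂ, i ∈ s → (∀ j, ∀ z ∈ ball c r, AnalyticAt ℂ (ρ j) z) ∧
      ∀ x ∈ V, b (G x) * h i x = ∑ j, ρ j (G x) * a j x := by
    intro i
    by_cases hi : i ∈ s
    · obtain ⟨ρ, h1, h2⟩ := hg i hi
      exact ⟨ρ, fun _ => ⟨h1, h2⟩⟩
    · exact ⟨fun _ _ => 0, fun h => absurd h hi⟩
  choose ρ hρ using h0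
  refine ⟨fun j z => ∑ i ∈ s, u i * ρ i j z, fun j z hz => ?_, fun x hx => ?_⟩
  · exact Finset.analyticAt_fun_sum _ fun i hi => analyticAt_const.mul ((hρ i hi).1 j z hz)
  · have h1 : ∀ i ∈ s, b (G x) * (u i * h i x) = ∑ j, u i * ρ i j (G x) * a j x := by
      intro i hi
      rw [mul_left_comm, (hρ i hi).2 x hx, Finset.mul_sum]
      exact Finset.sum_congr rfl fun j _ => by ring
    rw [Finset.mul_sum, Finset.sum_congr rfl h1, Finset.sum_comm]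
    exact Finset.sum_congr rfl fun j _ => by rw [Finset.sum_mul]

theorem Gen.congr {a : Fin d → X.pt → ℂ} {b : Cm 4 → ℂ} {h h' : X.pt → ℂ}
    (hg : Gen V G c r a b h) (hh : ∀ x, h' x = h x) : Gen V G c r a b h' := by
  obtain ⟨ρ, h1, h2⟩ := hg
  exact ⟨ρ, h1, fun x hx => by rw [hh, h2 x hx]⟩

/-- powers of linear combinations of `ζ` -/
theorem gen_pow {a : Fin d → X.pt → ℂ} {b : Cm 4 → ℂ} {n : ℕ} {ζ : Fin n → X.pt → ℂ}
    {l : ℕ} (hg : ∀ f : Fin l → Fin n, Gen V G c r a b (fun x => ∏ t, ζ (f t) x))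
    (u : Fin n → ℂ) : Gen V G c r a b (fun x => (∑ j, u j * ζ j x) ^ l) := by
  refine Gen.congr (Gen.sum (Finset.univ : Finset (Fin l → Fin n)) (fun f => ∏ t, u (f t))
    fun f _ => hg f) ?_
  intro x
  rw [Fintype.sum_pow]
  exact Finset.sum_congr rfl fun f _ => Finset.prod_mul_distrib

theorem vand_rel {a : Fin d → X.pt → ℂ} {b : Cm 4 → ℂ} {h : X.pt → ℂ} {ρ : Fin d → Fin d → Cm 4 → ℂ}
    (hρ : ∀ l : Fin d, ∀ x ∈ V, b (G x) * h x ^ (l : ℕ) = ∑ i, ρ l i (G x) * a i x) {z : Cm 4}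
    {x : Fin d → X.pt} (hx : Enum V G z x) :
    b z ^ d * (Matrix.vandermonde fun k => h (x k)).det =
      (Matrix.of fun i k => a i (x k)).det * (Matrix.of fun i l => ρ l i z).det := by
  have h1 : b z • Matrix.vandermonde (fun k => h (x k)) =
      (Matrix.transpose (Matrix.of fun i k => a i (x k))) * (Matrix.of fun i l => ρ l i z) := by
    ext k l
    obtain ⟨g1, g2⟩ := (hx.2 (x k)).1 ⟨k, rfl⟩
    have h2 := hρ l (x k) g1
    rw [g2] at h2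
    rw [Matrix.smul_apply, Matrix.vandermonde_apply, smul_eq_mul, h2, Matrix.mul_apply]
    exact Finset.sum_congr rfl fun i _ => mul_comm _ _
  have h3 := congrArg Matrix.det h1
  rw [Matrix.det_smul, Fintype.card_fin, Matrix.det_mul, Matrix.det_transpose] at h3
  exact h3

/-- `κ` does not vanish where `θ` and `b` do not -/
theorem kappa_ne_zero (hc : IsCov X V G c r d lam θ) {a : Fin d → X.pt → ℂ} {b : Cm 4 → ℂ}
    (hgen : ∀ l : Fin d, Gen V G c r a b (fun x => lam x ^ (l : ℕ))) {κ : Cm 4 → ℂ}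
    (hκ : ∀ z ∈ ball c r, θ z ≠ 0 → ∀ x : Fin d → X.pt, Enum V G z x →
      κ z = (Matrix.of fun i k => a i (x k)).det ^ 2) {z : Cm 4} (hz : z ∈ ball c r)
    (hθ : θ z ≠ 0) (hb : b z ≠ 0) : κ z ≠ 0 := by
  choose ρ _ hρ using hgen
  obtain ⟨x, hx⟩ := hc.enum z hz hθ
  rw [hκ z hz hθ x hx]
  refine pow_ne_zero _ fun h0 => ?_
  have h1 := vand_rel hρ hx
  rw [h0, zero_mul] at h1
  have h2 : (Matrix.vandermonde fun k => lam (x k)).det ≠ 0 := by
    rw [Matrix.det_vandermonde_ne_zero_iff]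
    intro k l hkl
    exact hx.1 (hc.sep z hz hθ ((hx.2 (x k)).1 ⟨k, rfl⟩) ((hx.2 (x l)).1 ⟨l, rfl⟩) hkl)
  exact mul_ne_zero (pow_ne_zero _ hb) h2 h1

/-- the discriminant of `h` is bounded by `κ` -/
theorem vand_le {a : Fin d → X.pt → ℂ} {b : Cm 4 → ℂ} {h : X.pt → ℂ}
    (hgen : ∀ l : Fin d, Gen V G c r a b (fun x => h x ^ (l : ℕ))) {κ : Cm 4 → ℂ}
    (hκ : ∀ z ∈ ball c r, θ z ≠ 0 → ∀ x : Fin d → X.pt, Enum V G z x →
      κ z = (Matrix.of fun i k => a i (x k)).det ^ 2) {z₀ : Cm 4} (hz₀ : z₀ ∈ ball c r)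
    (hbc : ContinuousAt b z₀) (hb : b z₀ ≠ 0) :
    ∃ C : ℝ, 0 < C ∧ ∀ᶠ z in 𝓝 z₀, θ z ≠ 0 → ∀ x : Fin d → X.pt, Enum V G z x →
      ‖(Matrix.vandermonde fun k => h (x k)).det‖ ^ 2 ≤ C * ‖κ z‖ := by
  choose ρ hρa hρ using hgen
  set f : Cm 4 → ℂ := fun z => (Matrix.of fun i l => ρ l i z).det / b z ^ d with hf
  have hfc : ContinuousAt f z₀ := by
    refine ContinuousAt.div ?_ (hbc.pow d) (pow_ne_zero _ hb)
    simp only [Matrix.det_apply']
    refine tendsto_finsetSum _ fun σ _ => tendsto_const_nhds.mul ?_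
    refine tendsto_finsetProd _ fun i _ => ?_
    exact (hρa i (σ i) z₀ hz₀).continuousAt
  refine ⟨(‖f z₀‖ + 1) ^ 2, by positivity, ?_⟩
  filter_upwards [hfc.norm.eventually_lt_const (lt_add_one _), isOpen_ball.mem_nhds hz₀,
    hbc.eventually_ne hb] with z hz hz' hbz hθ x hx
  have h1 := vand_rel hρ hx
  have h2 : (Matrix.vandermonde fun k => h (x k)).det =
      f z * (Matrix.of fun i k => a i (x k)).det := by
    simp only [hf]
    field_simp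
    rw [mul_comm, h1]
    ring
  rw [h2, hκ z hz' hθ x hx, norm_mul, norm_pow, mul_pow]
  gcongr

end Vale.Agent.P277.H371
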