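import Vale.Agent.P277.H371.Branch

/-!
# P277, TX: the functions `φ` on the base of a branched covering
-/

open scoped Manifold ContDiff ComplexOrder Topology
open Vale.Agent.P272.K Vale.Agent.P285.H281.FD Vale.Agent.P267.H175 Set Metric Filter

noncomputable section

namespace Vale.Agent.P277.H371

open Vale.Agent.P277.TX Vale.Agent.P277.H19

section jac
variable {Y : Type} [TopologicalSpace Y] [ChartedSpace (Cm 4) Y] {X : CSp} {O : Set Y}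
  {v : Y → X.pt} {V : Set X.pt} {G : X.pt → Cm 4} {e e₁ : Chart 4 Y} {y : Y}

theorem an_G (hv : IsOpenEmb X O v) (hG : ∀ x ∈ V, ∀ i, X.Hol (fun y => G y i) x) (hy : y ∈ O)
    (hyV : v y ∈ V) (he : At e y) : AnalyticAt ℂ (fun z => G (v (e.symm z))) (e y) := by
  rw [analyticAt_pi_iff]
  intro i
  exact (hv.hol_iff hy he).1 (hG _ hyV i)

theorem jacG_eq (h : DifferentiableAt ℂ (fun z => G (v (e.symm z))) (e y)) :
    jacG v G e y = jmat (fun z => G (v (e.symm z))) (e y) := by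
  ext p i
  rw [jmat_apply h, jacG, Matrix.of_apply, fderiv_apply h p]
  rfl

theorem det_jacG (h : DifferentiableAt ℂ (fun z => G (v (e.symm z))) (e y)) :
    (jacG v G e y).det = (fderiv ℂ (fun z => G (v (e.symm z))) (e y)).det := by
  rw [jacG_eq h, ContinuousLinearMap.det, ← LinearMap.det_toMatrix (Pi.basisFun ℂ (Fin 4))]
  congr 1
  ext p i
  rw [jmat_apply h, LinearMap.toMatrix_apply]
  simp

theorem jacG_comp {γ : Cm 4 → Y} {w : Cm 4} (hγ : ContinuousAt γ w) (he : At e (γ w))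
    (ha : AnalyticAt ℂ (fun z => e (γ z)) w)
    (hG : AnalyticAt ℂ (fun z => G (v (e.symm z))) (e (γ w))) :
    jacG v G e (γ w) * jmat (fun z => e (γ z)) w = jmat (fun z => G (v (γ z))) w := by
  rw [jacG_eq hG.differentiableAt]
  have h1 : (fun z => G (v (γ z))) =ᶠ[𝓝 w] fun z => G (v (e.symm (e (γ z)))) := by
    filter_upwards [hγ.eventually_mem (e.open_source.mem_nhds he.2)] with z hz
    rw [e.left_inv hz]
  rw [jmat_congr h1]
  exact (jmat_comp (G := fun z => G (v (e.symm z))) (F := fun z => e (γ z)) hG.differentiableAt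
    ha.differentiableAt).symm

theorem det_jmat {F : Cm 4 → Cm 4} {w : Cm 4} (h : DifferentiableAt ℂ F w) :
    (jmat F w).det = (fderiv ℂ F w).det := by
  rw [ContinuousLinearMap.det, ← LinearMap.det_toMatrix (Pi.basisFun ℂ (Fin 4))]
  congr 1
  ext p i
  rw [jmat_apply h, LinearMap.toMatrix_apply]
  simp

theorem jmat_id (w : Cm 4) : jmat (fun z => z) w = 1 := by
  ext p i
  rw [jmat_apply (τ := fun z : Cm 4 => z) differentiableAt_id]
  simp [Matrix.one_apply, Pi.single_apply]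

variable [IsManifold 𝓘(ℂ, Cm 4) ω Y]

theorem jacG_change (he : At e y) (he₁ : At e₁ y)
    (hG : AnalyticAt ℂ (fun z => G (v (e.symm z))) (e y)) :
    jacG v G e₁ y = jacG v G e y * jacM e₁ e y := by
  have h0 : e₁.symm (e₁ y) = y := e₁.left_inv he₁.2
  have h1 := jacG_comp (v := v) (G := G) (γ := e₁.symm) (w := e₁ y) (e := e)
    (e₁.continuousAt_symm (e₁.map_source he₁.2)) (by rw [h0]; exact he) (trans_analyticAt he₁ he)
    (by rw [h0]; exact hG)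
  rw [h0] at h1
  have h2 : AnalyticAt ℂ (fun z => G (v (e₁.symm z))) (e₁ y) := by
    have h3 := AnalyticAt.comp (g := fun z => G (v (e.symm z))) (f := fun z => e (e₁.symm z))
      (x := e₁ y) (by rw [h0]; exact hG) (trans_analyticAt he₁ he)
    refine h3.congr ?_
    filter_upwards [(e₁.continuousAt_symm (e₁.map_source he₁.2)).eventually_mem
      (by rw [h0]; exact e.open_source.mem_nhds he.2)] with z hz
    simp only [Function.comp, e.left_inv hz]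
  rw [jacG_eq h2.differentiableAt, ← h1]
  rfl

theorem isUnit_jacM (he : At e y) (he₁ : At e₁ y) : IsUnit (jacM e₁ e y).det :=
  isUnit_iff_ne_zero.2 (left_ne_zero_of_mul (by rw [det_jacM_mul he₁ he]; exact one_ne_zero))

theorem upH_eq {χ : Chart 4 Y → Cm 4 → Matrix (Fin 4) (Fin 4) ℂ} (hχ : IsKahler χ) (he : At e y)
    (hG : AnalyticAt ℂ (fun z => G (v (e.symm z))) (e y)) :
    upH χ v G y = ((jacG v G e y)⁻¹).transpose * χ e (e y) *
      ((jacG v G e y)⁻¹).map (starRingEnd ℂ) := by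
  have he' : At (chartAt (Cm 4) y : Chart 4 Y) y := at_chartAt _
  have h1 : jacM (chartAt (Cm 4) y) e y * (jacM (chartAt (Cm 4) y) e y)⁻¹ = 1 :=
    Matrix.mul_nonsing_inv _ (isUnit_jacM he he')
  simp only [upH]
  rw [jacG_change he he' hG, Matrix.mul_inv_rev, hχ.change _ e y he' he]
  set P := jacM (chartAt (Cm 4) y) e y with hP
  set A := (jacG v G e y)⁻¹ with hA
  have h2 : P.map (starRingEnd ℂ) * (P⁻¹).map (starRingEnd ℂ) = 1 := by
    rw [← Matrix.map_mul, h1, Matrix.map_one _ (map_zero _) (map_one _)]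
  have h3 : (P⁻¹).transpose * P.transpose = 1 := by
    rw [← Matrix.transpose_mul, h1, Matrix.transpose_one]
  rw [Matrix.transpose_mul, Matrix.map_mul]
  calc A.transpose * (P⁻¹).transpose * (P.transpose * χ e (e y) * P.map (starRingEnd ℂ)) *
        ((P⁻¹).map (starRingEnd ℂ) * A.map (starRingEnd ℂ)) =
      A.transpose * ((P⁻¹).transpose * P.transpose) * χ e (e y) *
        (P.map (starRingEnd ℂ) * (P⁻¹).map (starRingEnd ℂ)) * A.map (starRingEnd ℂ) := by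
        simp only [Matrix.mul_assoc]
    _ = _ := by rw [h2, h3, Matrix.mul_one, Matrix.mul_one]

end jac

section branch
variable {Y : Type} [TopologicalSpace Y] [ChartedSpace (Cm 4) Y] {X : CSp} {O : Set Y}
  {v : Y → X.pt} {V : Set X.pt} {G : X.pt → Cm 4} {d : ℕ}
  {D : Set (Cm 4)} {ρ : Fin d → Cm 4 → Y} {z : Cm 4} {k : Fin d} {e : Chart 4 Y}

theorem IsBr.jac_mul (hv : IsOpenEmb X O v) (hG : ∀ x ∈ V, ∀ i, X.Hol (fun y => G y i) x)
    (hb : IsBr O v V G D ρ) (hz : z ∈ D) (he : At e (ρ k z)) :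
    jacG v G e (ρ k z) * jmat (fun w => e (ρ k w)) z = 1 := by
  obtain ⟨h1, h2, h3⟩ := hb.mem z hz k
  rw [jacG_comp (hb.cont z hz k) he (hb.an z hz k e he) (an_G hv hG h1 h2 he), ← jmat_id z]
  refine jmat_congr ?_
  filter_upwards [hb.isOpen.mem_nhds hz] with w hw
  exact (hb.mem w hw k).2.2

theorem IsBr.det_ne_zero (hv : IsOpenEmb X O v) (hG : ∀ x ∈ V, ∀ i, X.Hol (fun y => G y i) x)
    (hb : IsBr O v V G D ρ) (hz : z ∈ D) (he : At e (ρ k z)) :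
    (jacG v G e (ρ k z)).det ≠ 0 := by
  have h1 := congrArg Matrix.det (hb.jac_mul (k := k) hv hG hz he)
  rw [Matrix.det_mul, Matrix.det_one] at h1
  exact left_ne_zero_of_mul (h1 ▸ one_ne_zero)

theorem IsBr.det_inv (hv : IsOpenEmb X O v) (hG : ∀ x ∈ V, ∀ i, X.Hol (fun y => G y i) x)
    (hb : IsBr O v V G D ρ) (hz : z ∈ D) (he : At e (ρ k z)) :
    (jacG v G e (ρ k z)).det⁻¹ = (fderiv ℂ (fun w => e (ρ k w)) z).det := by
  have h1 := congrArg Matrix.det (hb.jac_mul (k := k) hv hG hz he)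
  rw [Matrix.det_mul, Matrix.det_one, det_jmat (hb.an z hz k e he).differentiableAt] at h1
  exact inv_eq_of_mul_eq_one_right h1

theorem IsBr.upH_eq (χ : Chart 4 Y → Cm 4 → Matrix (Fin 4) (Fin 4) ℂ) (hv : IsOpenEmb X O v)
    (hG : ∀ x ∈ V, ∀ i, X.Hol (fun y => G y i) x)
    (hb : IsBr O v V G D ρ) (hz : z ∈ D) (k : Fin d) : upH χ v G (ρ k z) = Hp χ (ρ k) z := by
  have h1 := hb.jac_mul (k := k) hv hG hz (at_chartAt (ρ k z))
  have h2 := Matrix.inv_eq_right_inv h1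
  simp only [upH, Hp, plk]
  rw [h2]

/-- The push-forward of the Kähler form in terms of the branches. -/
theorem IsBr.pushH_eq (χ : Chart 4 Y → Cm 4 → Matrix (Fin 4) (Fin 4) ℂ) (hv : IsOpenEmb X O v)
    (hG : ∀ x ∈ V, ∀ i, X.Hol (fun y => G y i) x)
    (hb : IsBr O v V G D ρ) (hz : z ∈ D) : pushH χ O v V G z = ∑ k, Hp χ (ρ k) z := by
  rw [pushH, hb.finsum hv hz]
  exact Finset.sum_congr rfl fun k _ => hb.upH_eq χ hv hG hz k

end branch

/-! ### the function attached to one branch -/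

section one
variable {Y : Type} [TopologicalSpace Y] [ChartedSpace (Cm 4) Y] [IsManifold 𝓘(ℂ, Cm 4) ω Y]
  {χ : Chart 4 Y → Cm 4 → Matrix (Fin 4) (Fin 4) ℂ} {M : Bd Y}

theorem one_branch (hχ : IsKahler χ) (hM : IsLB 4 M) {ψ : M.ι → Y → ℝ} {δ : ℝ} (hψ : IsMet 4 M ψ)
    (hcurv : ∀ i (e : Chart 4 Y) x, At e x → x ∈ M.U i →
      (cHess (fun z => ψ i (e.symm z)) (e x) + (δ : ℂ) • χ e (e x)).PosSemidef) (q : ℕ)
    {D : Set (Cm 4)} (hD : IsOpen D) {ρ : Cm 4 → Y}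
    (hρ : ∀ x ∈ D, ContinuousAt ρ x ∧ ∀ e : Chart 4 Y, At e (ρ x) →
      AnalyticAt ℂ (fun z => e (ρ z)) x) {n : M.ι → Cm 4 → ℂ}
    (hn : ∀ i, ∀ x ∈ D, ρ x ∈ M.U i → AnalyticAt ℂ (n i) x ∧ n i x ≠ 0) {φ : Cm 4 → ℝ}
    (hφeq : ∀ x ∈ D, ∀ i, ρ x ∈ M.U i → φ x = q * ψ i (ρ x) - Real.log (‖n i x‖ ^ 2))
    {x : Cm 4} (hx : x ∈ D) :
    ContDiffAt ℝ 2 φ x ∧ (cHess φ x + ((q * δ : ℝ) : ℂ) • Hp χ ρ x).PosSemidef := by
  obtain ⟨i, hi⟩ := hM.cover (ρ x)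
  set e₁ : Chart 4 Y := chartAt (Cm 4) (ρ x) with he₁
  have he1 : At e₁ (ρ x) := at_chartAt _
  have hF : AnalyticAt ℂ (fun z => e₁ (ρ z)) x := (hρ x hx).2 e₁ he1
  obtain ⟨hna, hn0⟩ := hn i x hx hi
  have hev : φ =ᶠ[𝓝 x] fun y => (q : ℝ) * ψ i (e₁.symm (e₁ (ρ y))) -
      Real.log (‖n i y‖ ^ 2) := by
    filter_upwards [hD.mem_nhds hx, (hρ x hx).1.eventually_mem ((hM.isOpen i).mem_nhds hi),
      (hρ x hx).1.eventually_mem (e₁.open_source.mem_nhds he1.2)] with y h1 h2 h3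
    rw [hφeq y h1 i h2, e₁.left_inv h3]
  have hψs : ContDiffAt ℝ 2 (fun z => ψ i (e₁.symm z)) (e₁ (ρ x)) :=
    (hψ.smooth i e₁ (ρ x) he1 hi).of_le ENat.LEInfty.out
  have hFr : ContDiffAt ℝ 2 (fun z => e₁ (ρ z)) x :=
    ((hF.contDiffAt (n := ω)).restrict_scalars ℝ).of_le le_top
  have hψF : ContDiffAt ℝ 2 (fun y => ψ i (e₁.symm (e₁ (ρ y)))) x :=
    ContDiffAt.comp x (g := fun z => ψ i (e₁.symm z)) (f := fun z => e₁ (ρ z)) hψs hFr
  have hnr : ContDiffAt ℝ 2 (n i) x :=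
    ((hna.contDiffAt (n := ω)).restrict_scalars ℝ).of_le le_top
  have hlog : ContDiffAt ℝ 2 (fun y => Real.log (‖n i y‖ ^ 2)) x := by
    refine ContDiffAt.log (hnr.norm_sq ℝ) ?_
    exact pow_ne_zero _ (norm_ne_zero_iff.2 hn0)
  have hqψ : ContDiffAt ℝ 2 (fun y => (q : ℝ) * ψ i (e₁.symm (e₁ (ρ y)))) x :=
    contDiffAt_const.mul hψF
  refine ⟨(hqψ.sub hlog).congr_of_eventuallyEq hev, ?_⟩
  rw [cHess_congr hev, cHess_sub hqψ hlog, cHess_const_mul (q : ℝ) hψF,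
    cHess_log_norm_sq (hna.contDiffAt) hn0, sub_zero,
    cHess_comp (f := fun z => ψ i (e₁.symm z)) (τ := fun z => e₁ (ρ z)) hψs hF.contDiffAt,
    Hp_eq hχ (hρ x hx).1 he1 hF]
  have h1 := hcurv i e₁ (ρ x) he1 hi
  have h2 := posSemidef_plk (h := fun _ => cHess (fun z => ψ i (e₁.symm z)) (e₁ (ρ x)) +
    (δ : ℂ) • χ e₁ (e₁ (ρ x))) (F := fun z => e₁ (ρ z)) (x := x) h1
  have h4 : plk (fun _ => cHess (fun z => ψ i (e₁.symm z)) (e₁ (ρ x)) +
      (δ : ℂ) • χ e₁ (e₁ (ρ x))) (fun z => e₁ (ρ z)) x =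
      (jmat (fun z => e₁ (ρ z)) x).transpose *
        cHess (fun z => ψ i (e₁.symm z)) (e₁ (ρ x)) *
        (jmat (fun z => e₁ (ρ z)) x).map (starRingEnd ℂ) +
      (δ : ℂ) • plk (χ e₁) (fun z => e₁ (ρ z)) x := by
    simp only [plk, Matrix.mul_add, Matrix.add_mul, Matrix.mul_smul, Matrix.smul_mul]
  rw [h4] at h2
  have h5 := posSemidef_real_smul h2 (Nat.cast_nonneg q)
  convert h5 using 1
  rw [smul_add, smul_smul]
  congr 2
  push_cast
  ring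

end one

/-! ### the function `Λ` on `Y` -/

section lam
variable {Y : Type} [TopologicalSpace Y] [ChartedSpace (Cm 4) Y] {X : CSp} {O : Set Y}
  {v : Y → X.pt} {V : Set X.pt} {G : X.pt → Cm 4} {d : ℕ}
  {D : Set (Cm 4)} {ρ : Fin d → Cm 4 → Y} {z : Cm 4} {k : Fin d} {e : Chart 4 Y}
  {L : Bd X.pt} {M : Bd Y} {m Q K : ℕ}
  {T : L.ι → ((((Bd.can 4 Y).pow m).mul M).pow Q).ι → Y → ℂ} {i : L.ι} {μ μ₁ : M.ι} {y : Y}

/-- the section of `M^(QK)` given by `T^K` divided by the power `m Q K` of the Jacobian of `G` -/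
def nY (T : L.ι → ((((Bd.can 4 Y).pow m).mul M).pow Q).ι → Y → ℂ) (v : Y → X.pt)
    (G : X.pt → Cm 4) (i : L.ι) (K : ℕ) (μ : M.ι) (y : Y) : ℂ :=
  T i (chartAt (Cm 4) y, μ) y ^ K * ((jacG v G (chartAt (Cm 4) y) y).det⁻¹) ^ (m * Q * K)

variable [IsManifold 𝓘(ℂ, Cm 4) ω Y]

theorem nY_change' (hv : IsOpenEmb X O v) (hG : ∀ x ∈ V, ∀ i, X.Hol (fun y => G y i) x)
    (hL : IsLBx X L) (hT : IsIsoY O v L ((((Bd.can 4 Y).pow m).mul M).pow Q) T)
    (hy : y ∈ O) (hyV : v y ∈ V) (hi : v y ∈ L.U i) (he : At e y) (hμ : y ∈ M.U μ)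
    (hμ₁ : y ∈ M.U μ₁) : nY T v G i K μ₁ y = M.g μ₁ μ y ^ (Q * K) *
      (T i (e, μ) y ^ K * ((jacG v G e y).det⁻¹) ^ (m * Q * K)) := by
  have he' : At (chartAt (Cm 4) y : Chart 4 Y) y := at_chartAt _
  have h1 := isIsoY_change hL hT hy hi he he' hμ hμ₁
  have h2 := congrArg Matrix.det (jacG_change (v := v) (G := G) he he' (an_G hv hG hy hyV he))
  have h3 : (jacM (chartAt (Cm 4) y) e y).det ≠ 0 := (isUnit_jacM he he').ne_zero
  rw [Matrix.det_mul] at h2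
  rw [nY, h1, h2, mul_inv, mul_pow, mul_pow, mul_pow, mul_pow]
  have h4 : (jacM (chartAt (Cm 4) y) e y).det ^ (m * Q * K) *
      ((jacM (chartAt (Cm 4) y) e y).det⁻¹) ^ (m * Q * K) = 1 := by
    rw [← mul_pow, mul_inv_cancel₀ h3, one_pow]
  have h5 : (((jacM (chartAt (Cm 4) y) e y).det ^ m) ^ Q) ^ K =
      (jacM (chartAt (Cm 4) y) e y).det ^ (m * Q * K) := by
    rw [← pow_mul, ← pow_mul, mul_assoc]
  rw [h5, ← pow_mul]
  linear_combination (M.g μ₁ μ y ^ (Q * K) * T i (e, μ) y ^ K *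
    ((jacG v G e y).det⁻¹) ^ (m * Q * K)) * h4

theorem nY_eq (hM : IsLB 4 M) (hv : IsOpenEmb X O v) (hG : ∀ x ∈ V, ∀ i, X.Hol (fun y => G y i) x)
    (hL : IsLBx X L) (hT : IsIsoY O v L ((((Bd.can 4 Y).pow m).mul M).pow Q) T)
    (hy : y ∈ O) (hyV : v y ∈ V) (hi : v y ∈ L.U i) (he : At e y) (hμ : y ∈ M.U μ) :
    nY T v G i K μ y = T i (e, μ) y ^ K * ((jacG v G e y).det⁻¹) ^ (m * Q * K) := by
  have h2 : M.g μ μ y = 1 := (mul_eq_left₀ (hM.ne_zero μ μ _ hμ hμ)).1 (hM.cocycle μ μ μ _ hμ hμ hμ)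
  rw [nY_change' hv hG hL hT hy hyV hi he hμ hμ, h2, one_pow, one_mul]

theorem nY_change (hM : IsLB 4 M) (hv : IsOpenEmb X O v)
    (hG : ∀ x ∈ V, ∀ i, X.Hol (fun y => G y i) x)
    (hL : IsLBx X L) (hT : IsIsoY O v L ((((Bd.can 4 Y).pow m).mul M).pow Q) T)
    (hy : y ∈ O) (hyV : v y ∈ V) (hi : v y ∈ L.U i) (hμ : y ∈ M.U μ) (hμ₁ : y ∈ M.U μ₁) :
    nY T v G i K μ₁ y = M.g μ₁ μ y ^ (Q * K) * nY T v G i K μ y := by
  have he' : At (chartAt (Cm 4) y : Chart 4 Y) y := at_chartAt _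
  rw [nY_change' hv hG hL hT hy hyV hi he' hμ hμ₁, nY_eq hM hv hG hL hT hy hyV hi he' hμ]

theorem nY_ne_zero (hM : IsLB 4 M) (hv : IsOpenEmb X O v)
    (hG : ∀ x ∈ V, ∀ i, X.Hol (fun y => G y i) x)
    (hL : IsLBx X L) (hT : IsIsoY O v L ((((Bd.can 4 Y).pow m).mul M).pow Q) T)
    (hy : y ∈ O) (hyV : v y ∈ V) (hi : v y ∈ L.U i) (he : At e y) (hμ : y ∈ M.U μ)
    (h0 : (jacG v G e y).det ≠ 0) : nY T v G i K μ y ≠ 0 := by
  rw [nY_eq hM hv hG hL hT hy hyV hi he hμ]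
  exact mul_ne_zero (pow_ne_zero _ (hT.holo y hy i (e, μ) e he hi ⟨he, hμ⟩).2)
    (pow_ne_zero _ (inv_ne_zero h0))

theorem IsBr.nY_analyticAt (hM : IsLB 4 M) (hv : IsOpenEmb X O v)
    (hG : ∀ x ∈ V, ∀ i, X.Hol (fun y => G y i) x)
    (hL : IsLBx X L) (hT : IsIsoY O v L ((((Bd.can 4 Y).pow m).mul M).pow Q) T)
    (hVL : V ⊆ L.U i) (hb : IsBr O v V G D ρ) (hz : z ∈ D) (k : Fin d) (hμ : ρ k z ∈ M.U μ) :
    AnalyticAt ℂ (fun w => nY T v G i K μ (ρ k w)) z ∧ nY T v G i K μ (ρ k z) ≠ 0 := by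
  set e : Chart 4 Y := chartAt (Cm 4) (ρ k z) with he'
  have he : At e (ρ k z) := at_chartAt _
  obtain ⟨h1, h2, h3⟩ := hb.mem z hz k
  refine ⟨?_, nY_ne_zero hM hv hG hL hT h1 h2 (hVL h2) he hμ (hb.det_ne_zero hv hG hz he)⟩
  have hcont := hb.cont z hz k
  have hF := hb.an z hz k e he
  have hh := hT.holo (ρ k z) h1 i (e, μ) e he (hVL h2) ⟨he, hμ⟩
  have hev : (fun w => nY T v G i K μ (ρ k w)) =ᶠ[𝓝 z] fun w =>
      T i (e, μ) (e.symm (e (ρ k w))) ^ K *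
        (fderiv ℂ (fun w => e (ρ k w)) w).det ^ (m * Q * K) := by
    filter_upwards [hb.isOpen.mem_nhds hz, hcont.eventually_mem (e.open_source.mem_nhds he.2),
      hcont.eventually_mem ((hM.isOpen μ).mem_nhds hμ)] with w hw hw' hwμ
    obtain ⟨g1, g2, g3⟩ := hb.mem w hw k
    have hew : At e (ρ k w) := ⟨he.1, hw'⟩
    rw [nY_eq hM hv hG hL hT g1 g2 (hVL g2) hew hwμ, e.left_inv hw', hb.det_inv hv hG hw hew]
  refine AnalyticAt.congr ?_ hev.symm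
  exact ((AnalyticAt.comp (g := fun z => T i (e, μ) (e.symm z))
    (f := fun w => e (ρ k w)) hh.1 hF).pow K).mul ((analyticAt_det hF).pow _)

/-- the weight of the section `nY` -/
def Lam (T : L.ι → ((((Bd.can 4 Y).pow m).mul M).pow Q).ι → Y → ℂ) (v : Y → X.pt)
    (G : X.pt → Cm 4) (i : L.ι) (K : ℕ) (ψ : M.ι → Y → ℝ) (idx : Y → M.ι) (y : Y) : ℝ :=
  ((Q * K : ℕ) : ℝ) * ψ (idx y) y - Real.log (‖nY T v G i K (idx y) y‖ ^ 2)

theorem Lam_eq (hM : IsLB 4 M) (hv : IsOpenEmb X O v)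
    (hG : ∀ x ∈ V, ∀ i, X.Hol (fun y => G y i) x)
    (hL : IsLBx X L) (hT : IsIsoY O v L ((((Bd.can 4 Y).pow m).mul M).pow Q) T)
    {ψ : M.ι → Y → ℝ} (hψ : IsMet 4 M ψ) {idx : Y → M.ι} (hidx : ∀ y, y ∈ M.U (idx y))
    (hy : y ∈ O) (hyV : v y ∈ V) (hi : v y ∈ L.U i) (he : At e y)
    (h0 : (jacG v G e y).det ≠ 0) (hμ : y ∈ M.U μ) :
    Lam T v G i K ψ idx y = ((Q * K : ℕ) : ℝ) * ψ μ y - Real.log (‖nY T v G i K μ y‖ ^ 2) := by
  have h1 := hψ.change μ (idx y) y hμ (hidx _)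
  have h2 := nY_change (K := K) hM hv hG hL hT hy hyV hi (hidx y) hμ
  have h3 : ‖M.g μ (idx y) y‖ ≠ 0 := norm_ne_zero_iff.2 (hM.ne_zero _ _ _ hμ (hidx _))
  have h4 : ‖nY T v G i K (idx y) y‖ ≠ 0 :=
    norm_ne_zero_iff.2 (nY_ne_zero hM hv hG hL hT hy hyV hi he (hidx y) h0)
  have h5 : Real.log ((‖M.g μ (idx y) y‖ ^ (Q * K)) ^ 2) =
      ((Q * K : ℕ) : ℝ) * Real.log (‖M.g μ (idx y) y‖ ^ 2) := by
    rw [Real.log_pow, Real.log_pow, Real.log_pow]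
    ring
  rw [Lam, h1, h2, norm_mul, norm_pow, mul_pow, Real.log_mul (pow_ne_zero _ (pow_ne_zero _ h3))
    (pow_ne_zero _ h4), h5]
  ring

/-- the function `φ` on the base -/
def phi (O : Set Y) (v : Y → X.pt) (V : Set X.pt) (G : X.pt → Cm 4) (Λ : Y → ℝ) (c : ℝ)
    (κ : Cm 4 → ℂ) (z : Cm 4) : ℝ :=
  (∑ᶠ y ∈ {y | y ∈ O ∧ v y ∈ V ∧ G (v y) = z}, Λ y) - c * Real.log (‖κ z‖ ^ 2)

omit [IsManifold 𝓘(ℂ, Cm 4) ω Y] in
theorem cHess_sum {ι : Type} (s : Finset ι) {f : ι → Cm 4 → ℝ} {z : Cm 4}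
    (hf : ∀ k ∈ s, ContDiffAt ℝ 2 (f k) z) :
    cHess (fun w => ∑ k ∈ s, f k w) z = ∑ k ∈ s, cHess (f k) z := by
  classical
  induction s using Finset.induction_on with
  | empty =>
    simp only [Finset.sum_empty]
    have h1 : ContDiffAt ℝ 2 (fun _ : Cm 4 => (0 : ℝ)) z := contDiffAt_const
    have h2 := cHess_const_mul (f := fun _ : Cm 4 => (0 : ℝ)) (z := z) 0 h1
    simpa using h2
  | insert a s ha ih =>
    have h1 : (fun w => ∑ k ∈ insert a s, f k w) = fun w => f a w + ∑ k ∈ s, f k w := by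
      funext w
      rw [Finset.sum_insert ha]
    have h2 : ContDiffAt ℝ 2 (fun w => ∑ k ∈ s, f k w) z :=
      ContDiffAt.sum fun k hk => hf k (Finset.mem_insert_of_mem hk)
    rw [h1, cHess_add (hf a (Finset.mem_insert_self a s)) h2, Finset.sum_insert ha,
      ih fun k hk => hf k (Finset.mem_insert_of_mem hk)]

theorem IsBr.phi_psh {χ : Chart 4 Y → Cm 4 → Matrix (Fin 4) (Fin 4) ℂ} (hχ : IsKahler χ)
    (hM : IsLB 4 M) (hv : IsOpenEmb X O v)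
    (hG : ∀ x ∈ V, ∀ i, X.Hol (fun y => G y i) x)
    (hL : IsLBx X L) (hT : IsIsoY O v L ((((Bd.can 4 Y).pow m).mul M).pow Q) T)
    (hVL : V ⊆ L.U i) (hb : IsBr O v V G D ρ)
    {ψ : M.ι → Y → ℝ} {δ : ℝ} (hψ : IsMet 4 M ψ)
    (hcurv : ∀ i (e : Chart 4 Y) x, At e x → x ∈ M.U i →
      (cHess (fun z => ψ i (e.symm z)) (e x) + (δ : ℂ) • χ e (e x)).PosSemidef)
    {idx : Y → M.ι} (hidx : ∀ y, y ∈ M.U (idx y)) (c : ℝ) {κ : Cm 4 → ℂ}
    (hκ : ∀ w ∈ D, AnalyticAt ℂ κ w ∧ κ w ≠ 0) (hz : z ∈ D) :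
    ContDiffAt ℝ 2 (phi O v V G (Lam T v G i K ψ idx) c κ) z ∧
      (cHess (phi O v V G (Lam T v G i K ψ idx) c κ) z +
        ((((Q * K : ℕ) : ℝ) * δ : ℝ) : ℂ) • pushH χ O v V G z).PosSemidef := by
  have h1 : ∀ k, ContDiffAt ℝ 2 (fun w => Lam T v G i K ψ idx (ρ k w)) z ∧
      (cHess (fun w => Lam T v G i K ψ idx (ρ k w)) z +
        ((((Q * K : ℕ) : ℝ) * δ : ℝ) : ℂ) • Hp χ (ρ k) z).PosSemidef := by
    intro k
    refine one_branch hχ hM hψ hcurv (Q * K) hb.isOpen (ρ := ρ k)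
      (fun x hx => ⟨hb.cont x hx k, hb.an x hx k⟩) (n := fun μ w => nY T v G i K μ (ρ k w))
      (fun μ x hx hμ => hb.nY_analyticAt hM hv hG hL hT hVL hx k hμ) ?_ hz
    intro x hx μ hμ
    obtain ⟨g1, g2, g3⟩ := hb.mem x hx k
    exact Lam_eq hM hv hG hL hT hψ hidx g1 g2 (hVL g2) (at_chartAt _)
      (hb.det_ne_zero hv hG hx (at_chartAt _)) hμ
  have hev : phi O v V G (Lam T v G i K ψ idx) c κ =ᶠ[𝓝 z] fun w =>
      (∑ k, Lam T v G i K ψ idx (ρ k w)) - c * Real.log (‖κ w‖ ^ 2) := by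
    filter_upwards [hb.isOpen.mem_nhds hz] with w hw
    rw [phi, hb.finsum hv hw]
  have h2 : ContDiffAt ℝ 2 (fun w => ∑ k, Lam T v G i K ψ idx (ρ k w)) z :=
    ContDiffAt.sum fun k _ => (h1 k).1
  obtain ⟨hκa, hκ0⟩ := hκ z hz
  have hnr : ContDiffAt ℝ 2 κ z := ((hκa.contDiffAt (n := ω)).restrict_scalars ℝ).of_le le_top
  have hlog : ContDiffAt ℝ 2 (fun y => Real.log (‖κ y‖ ^ 2)) z := by
    refine ContDiffAt.log (hnr.norm_sq ℝ) ?_
    exact pow_ne_zero _ (norm_ne_zero_iff.2 hκ0)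
  have hclog : ContDiffAt ℝ 2 (fun y => c * Real.log (‖κ y‖ ^ 2)) z := contDiffAt_const.mul hlog
  refine ⟨(h2.sub hclog).congr_of_eventuallyEq hev, ?_⟩
  rw [cHess_congr hev, cHess_sub h2 hclog, cHess_const_mul c hlog,
    cHess_log_norm_sq hκa.contDiffAt hκ0, smul_zero, sub_zero,
    cHess_sum _ (fun k _ => (h1 k).1), hb.pushH_eq χ hv hG hz, Finset.smul_sum,
    ← Finset.sum_add_distrib]
  have h3 : ∀ s : Finset (Fin d), (∑ k ∈ s, (cHess (fun w => Lam T v G i K ψ idx (ρ k w)) z +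
      ((((Q * K : ℕ) : ℝ) * δ : ℝ) : ℂ) • Hp χ (ρ k) z)).PosSemidef := by
    intro s
    classical
    induction s using Finset.induction_on with
    | empty => simpa using Matrix.PosSemidef.zero
    | insert a s ha ih =>
      rw [Finset.sum_insert ha]
      exact (h1 a).2.add ih
  exact h3 _

end lam

end Vale.Agent.P277.H371
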