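import Vale.Agent.P277.H371.Wedge
import Vale.Agent.P277.H371.Det

/-!
# P277, TX: bounds along the wedges
-/

open scoped Manifold ContDiff ComplexOrder Topology
open Vale.Agent.P272.K Vale.Agent.P285.H281.FD Vale.Agent.P267.H175 Set Metric Filter

noncomputable section

namespace Vale.Agent.P277.H371

open Vale.Agent.P277.TX Vale.Agent.P277.H19

theorem norm_conj_mul_le {P H : Matrix (Fin 4) (Fin 4) ℂ} {C₁ C₂ : ℝ}
    (h1 : ∀ p i, ‖P p i‖ ≤ C₁) (h2 : ∀ p q, ‖H p q‖ ≤ C₂) (i j : Fin 4) :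
    ‖(P.transpose * H * P.map (starRingEnd ℂ)) i j‖ ≤ 16 * (C₁ * C₂ * C₁) := by
  have hC₁ : 0 ≤ C₁ := (norm_nonneg _).trans (h1 0 0)
  have hC₂ : 0 ≤ C₂ := (norm_nonneg _).trans (h2 0 0)
  simp only [Matrix.mul_apply, Matrix.transpose_apply, Matrix.map_apply, Finset.sum_mul]
  have h3 : ∀ q ∈ Finset.univ, ‖∑ p, P p i * H p q * (starRingEnd ℂ) (P q j)‖ ≤
      4 * (C₁ * C₂ * C₁) := by
    intro q _
    have h4 : ∀ p ∈ Finset.univ, ‖P p i * H p q * (starRingEnd ℂ) (P q j)‖ ≤ C₁ * C₂ * C₁ := by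
      intro p _
      rw [norm_mul, norm_mul, RCLike.norm_conj]
      gcongr
      · exact h1 p i
      · exact h2 p q
      · exact h1 q j
    refine (norm_sum_le _ _).trans ((Finset.sum_le_sum h4).trans ?_)
    simp
  refine (norm_sum_le _ _).trans ((Finset.sum_le_sum h3).trans ?_)
  simp only [Finset.sum_const, Finset.card_univ, Fintype.card_fin, nsmul_eq_mul]
  push_cast
  linarith

theorem norm_mul_le4 {A B : Matrix (Fin 4) (Fin 4) ℂ} {C₁ C₂ : ℝ}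
    (h1 : ∀ p i, ‖A p i‖ ≤ C₁) (h2 : ∀ p q, ‖B p q‖ ≤ C₂) (i j : Fin 4) :
    ‖(A * B) i j‖ ≤ 4 * (C₁ * C₂) := by
  have hC₁ : 0 ≤ C₁ := (norm_nonneg _).trans (h1 0 0)
  rw [Matrix.mul_apply]
  have h4 : ∀ p ∈ Finset.univ, ‖A i p * B p j‖ ≤ C₁ * C₂ := by
    intro p _
    rw [norm_mul]
    gcongr
    · exact h1 i p
    · exact h2 p j
  refine (norm_sum_le _ _).trans ((Finset.sum_le_sum h4).trans ?_)
  simp

section
variable {Y : Type} [TopologicalSpace Y] [ChartedSpace (Cm 4) Y] {X : CSp} {O : Set Y}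
  {v : Y → X.pt} {V : Set X.pt} {G : X.pt → Cm 4} {d : ℕ} {L : Bd X.pt} {M : Bd Y} {m Q K : ℕ}
  {T : L.ι → ((((Bd.can 4 Y).pow m).mul M).pow Q).ι → Y → ℂ} {i₀ : L.ι} {φ : Cm 4 → X.pt}
  {w₁ : Cm 4} {γ : Cm 4 → Y} {e : Chart 4 Y} {μ : M.ι} {F : Cm 4 → ℂ} {s : ℕ}

/-- sums over the fibres -/
theorem finsum_enum {A : Type} [AddCommMonoid A] (hv : IsOpenEmb X O v) {z : Cm 4}
    {y : Fin d → Y} (hy : ∀ k, y k ∈ O) (hE : Enum V G z (fun k => v (y k))) (f : Y → A) :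
    ∑ᶠ y ∈ {y | y ∈ O ∧ v y ∈ V ∧ G (v y) = z}, f y = ∑ k, f (y k) := by
  have hinj : Function.Injective y := fun k l hkl => hE.1 (congrArg v hkl)
  have hset : {y | y ∈ O ∧ v y ∈ V ∧ G (v y) = z} =
      ((Finset.univ.map ⟨y, hinj⟩ : Finset Y) : Set Y) := by
    ext y'
    simp only [mem_setOf_eq, Finset.coe_map, Function.Embedding.coeFn_mk, Finset.coe_univ,
      image_univ, mem_range]
    constructor
    · rintro ⟨hy', hyV, hyz⟩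
      obtain ⟨k, hk⟩ := (hE.2 _).2 ⟨hyV, hyz⟩
      exact ⟨k, hv.inj (hy k) hy' hk⟩
    · rintro ⟨k, rfl⟩
      exact ⟨hy k, (hE.2 _).1 ⟨k, rfl⟩⟩
  rw [hset, finsum_mem_coe_finset, Finset.sum_map]
  rfl

theorem NLift.jac (hv : IsOpenEmb X O v) (hG : ∀ x ∈ V, ∀ i, X.Hol (fun y => G y i) x)
    (h : NLift O v L M m Q T i₀ K φ w₁ γ e μ F)
    (hφ : ∀ᶠ w in 𝓝 w₁, ContinuousAt φ w ∧ φ w ∈ V ∧ G (φ w) = pw s w) :
    ∀ᶠ w in 𝓝 w₁, φ w ∈ v '' O → γ w ∈ O ∧ v (γ w) = φ w ∧ v (γ w) ∈ V ∧ At e (γ w) ∧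
      γ w ∈ e.source ∧ AnalyticAt ℂ (fun z => e (γ z)) w ∧
      jacG v G e (γ w) * jmat (fun z => e (γ z)) w = jmat (pw s) w := by
  have c1 : ∀ᶠ w in 𝓝 w₁, At e (γ w) := by
    filter_upwards [h.cont.eventually_mem (e.open_source.mem_nhds h.at'.2)] with w hw
    exact ⟨h.at'.1, hw⟩
  filter_upwards [c1.eventually_nhds, h.an.eventually_analyticAt, h.lift.eventually_nhds,
    hφ.eventually_nhds] with w d1 d2 d3 d4 hw
  obtain ⟨g1, g2⟩ := d3.self_of_nhds hw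
  obtain ⟨g3, g4, g5⟩ := d4.self_of_nhds
  have hVw : v (γ w) ∈ V := by rw [g2]; exact g4
  have hcont : ContinuousAt γ w := continuousAt_of_chart d1 d2.continuousAt
  refine ⟨g1, g2, hVw, d1.self_of_nhds, d1.self_of_nhds.2, d2, ?_⟩
  rw [jacG_comp hcont d1.self_of_nhds d2 (an_G hv hG g1 hVw d1.self_of_nhds)]
  refine jmat_congr ?_
  filter_upwards [d3, d4, g3.eventually_mem (hv.isOpen_image.mem_nhds hw)] with z e1 e2 e3
  rw [(e1 e3).2, e2.2.2]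

variable [IsManifold 𝓘(ℂ, Cm 4) ω Y]

/-- bound for the push-forward of the Kähler form along the wedge -/
theorem NLift.upH_le {χ : Chart 4 Y → Cm 4 → Matrix (Fin 4) (Fin 4) ℂ} (hχ : IsKahler χ)
    (hv : IsOpenEmb X O v) (hG : ∀ x ∈ V, ∀ i, X.Hol (fun y => G y i) x)
    (h : NLift O v L M m Q T i₀ K φ w₁ γ e μ F) (hs : 1 ≤ s) (h0 : w₁ 0 = 0)
    (hφ : ∀ᶠ w in 𝓝 w₁, ContinuousAt φ w ∧ φ w ∈ V ∧ G (φ w) = pw s w) :
    ∃ C : ℝ, 0 < C ∧ ∀ᶠ w in 𝓝 w₁, w 0 ≠ 0 → φ w ∈ v '' O →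
      ∀ i j, ‖upH χ v G (γ w) i j‖ ≤ C / ‖w 0 ^ s‖ ^ 2 := by
  have hχc : ∀ᶠ w in 𝓝 w₁, ∀ p q, ‖χ e (e (γ w)) p q‖ < ∑ p, ∑ q, (‖χ e (e (γ w₁)) p q‖ + 1) := by
    rw [eventually_all]
    intro p
    rw [eventually_all]
    intro q
    have h1 : ContinuousAt (fun w => ‖χ e (e (γ w)) p q‖) w₁ :=
      (ContinuousAt.comp (g := fun z => χ e z p q) (f := fun w => e (γ w))
        (hχ.smooth e _ h.at' p q).continuousAt h.an.continuousAt).norm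
    refine h1.eventually_lt_const ?_
    have h2 : ‖χ e (e (γ w₁)) p q‖ + 1 ≤ ∑ q, (‖χ e (e (γ w₁)) p q‖ + 1) :=
      Finset.single_le_sum (f := fun q => ‖χ e (e (γ w₁)) p q‖ + 1)
        (fun _ _ => by positivity) (Finset.mem_univ q)
    have h3 : ∑ q, (‖χ e (e (γ w₁)) p q‖ + 1) ≤ ∑ p, ∑ q, (‖χ e (e (γ w₁)) p q‖ + 1) :=
      Finset.single_le_sum (f := fun p => ∑ q, (‖χ e (e (γ w₁)) p q‖ + 1))
        (fun _ _ => Finset.sum_nonneg fun _ _ => by positivity) (Finset.mem_univ p)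
    linarith
  have hJc : ∀ᶠ w in 𝓝 w₁, ∀ p i, ‖jmat (fun w => e (γ w)) w p i‖ <
      ∑ p, ∑ i, (‖jmat (fun w => e (γ w)) w₁ p i‖ + 1) := by
    rw [eventually_all]
    intro p
    rw [eventually_all]
    intro i
    have h1 : ContinuousAt (fun w => ‖jmat (fun w => e (γ w)) w p i‖) w₁ :=
      (holo_jmat h.an p i).continuousAt.norm
    refine h1.eventually_lt_const ?_
    have h2 : ‖jmat (fun w => e (γ w)) w₁ p i‖ + 1 ≤
        ∑ i, (‖jmat (fun w => e (γ w)) w₁ p i‖ + 1) :=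
      Finset.single_le_sum (f := fun i => ‖jmat (fun w => e (γ w)) w₁ p i‖ + 1)
        (fun _ _ => by positivity) (Finset.mem_univ i)
    have h3 : ∑ i, (‖jmat (fun w => e (γ w)) w₁ p i‖ + 1) ≤
        ∑ p, ∑ i, (‖jmat (fun w => e (γ w)) w₁ p i‖ + 1) :=
      Finset.single_le_sum (f := fun p => ∑ i, (‖jmat (fun w => e (γ w)) w₁ p i‖ + 1))
        (fun _ _ => Finset.sum_nonneg fun _ _ => by positivity) (Finset.mem_univ p)
    linarith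
  set C₁ : ℝ := ∑ p, ∑ i, (‖jmat (fun w => e (γ w)) w₁ p i‖ + 1) with hC₁
  set C₂ : ℝ := ∑ p, ∑ q, (‖χ e (e (γ w₁)) p q‖ + 1) with hC₂
  have hC₁0 : 0 < C₁ := Finset.sum_pos (fun p _ => Finset.sum_pos (fun q _ => by positivity)
    Finset.univ_nonempty) Finset.univ_nonempty
  have hC₂0 : 0 < C₂ := Finset.sum_pos (fun p _ => Finset.sum_pos (fun q _ => by positivity)
    Finset.univ_nonempty) Finset.univ_nonempty
  have hw1 : ∀ᶠ w in 𝓝 w₁, ‖w 1‖ < ‖w₁ 1‖ + 1 :=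
    ((continuous_apply (1 : Fin 4)).norm.continuousAt (x := w₁)).eventually_lt_const (by linarith)
  have hw0 : ∀ᶠ w in 𝓝 w₁, ‖w 0‖ < 1 :=
    ((continuous_apply (0 : Fin 4)).norm.continuousAt (x := w₁)).eventually_lt_const
      (show ‖w₁ 0‖ < 1 by rw [h0, norm_zero]; exact one_pos)
  set C₃ : ℝ := 4 * (C₁ * (‖w₁ 1‖ + 2)) with hC₃
  have hC₃0 : 0 < C₃ := by positivity
  refine ⟨16 * (C₃ * C₂ * C₃), by positivity, ?_⟩
  filter_upwards [h.jac hv hG hφ, hχc, hJc, hw1, hw0] with w d1 d2 d3 d4 d5 hw hwO i j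
  obtain ⟨g1, g2, g3, g4, g5, g6, g7⟩ := d1 hwO
  have hinv : (jacG v G e (γ w))⁻¹ = jmat (fun z => e (γ z)) w * ipw s w := by
    refine Matrix.inv_eq_right_inv ?_
    rw [← Matrix.mul_assoc, g7, jmat_pw_mul hs hw]
  have ht : 0 < ‖w 0‖ ^ s := pow_pos (norm_pos_iff.2 hw) s
  have hP : ∀ p i, ‖(jacG v G e (γ w))⁻¹ p i‖ ≤ C₃ / ‖w 0 ^ s‖ := by
    intro p i
    rw [hinv]
    refine (norm_mul_le4 (fun p i => (d3 p i).le)
      (fun p q => (norm_ipw_le hs hw d5.le p q).trans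
        (div_le_div_of_nonneg_right (show ‖w 1‖ + 1 ≤ ‖w₁ 1‖ + 2 by linarith) ht.le)) p i).trans ?_
    rw [norm_pow, hC₃]
    exact le_of_eq (by ring)
  rw [upH_eq hχ g4 (an_G hv hG g1 g3 g4)]
  refine (norm_conj_mul_le hP (fun p q => (d2 p q).le) i j).trans (le_of_eq ?_)
  have ht' : ‖w 0 ^ s‖ ≠ 0 := by rw [norm_pow]; exact ht.ne'
  field_simp

/-- lower bound for the weight along the wedge -/
theorem NLift.Lam_ge (hM : IsLB 4 M)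
    (hv : IsOpenEmb X O v) (hG : ∀ x ∈ V, ∀ i, X.Hol (fun y => G y i) x)
    (hL : IsLBx X L) (hT : IsIsoY O v L ((((Bd.can 4 Y).pow m).mul M).pow Q) T)
    (hVL : V ⊆ L.U i₀) {ψ : M.ι → Y → ℝ} (hψ : IsMet 4 M ψ) {idx : Y → M.ι}
    (hidx : ∀ y, y ∈ M.U (idx y))
    (h : NLift O v L M m Q T i₀ K φ w₁ γ e μ F) (hs : 1 ≤ s)
    (hφ : ∀ᶠ w in 𝓝 w₁, ContinuousAt φ w ∧ φ w ∈ V ∧ G (φ w) = pw s w) {α j : ℕ}
    (hFb : ∃ C : ℝ, ∀ᶠ w in 𝓝 w₁, ‖F w‖ ≤ C * ‖w 0‖ ^ α)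
    (hJb : ∃ C : ℝ, ∀ᶠ w in 𝓝 w₁, ‖(fderiv ℂ (fun w => e (γ w)) w).det‖ ≤ C * ‖w 0‖ ^ j) :
    ∃ C : ℝ, ∀ᶠ w in 𝓝 w₁, w 0 ≠ 0 → φ w ∈ v '' O →
      (2 * α + 2 * ((m * Q * K : ℕ) : ℝ) * (j + 1 - 2 * s)) * Real.log (1 / ‖w 0‖) - C ≤
        Lam T v G i₀ K ψ idx (γ w) := by
  obtain ⟨CF, hCF⟩ := hFb
  obtain ⟨CJ, hCJ⟩ := hJb
  have hψb : ∀ᶠ w in 𝓝 w₁, ψ μ (γ w₁) - 1 < ψ μ (γ w) := by
    have h1 : ContinuousAt (fun w => ψ μ (e.symm (e (γ w)))) w₁ :=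
      ContinuousAt.comp (g := fun z => ψ μ (e.symm z)) (f := fun w => e (γ w))
        (hψ.smooth μ e _ h.at' h.mem).continuousAt h.an.continuousAt
    have h2 : ContinuousAt (fun w => ψ μ (γ w)) w₁ := by
      refine h1.congr ?_
      filter_upwards [h.cont.eventually_mem (e.open_source.mem_nhds h.at'.2)] with w hw
      rw [e.left_inv hw]
    exact h2.eventually_const_lt (by linarith)
  set A : ℝ := ((m * Q * K : ℕ) : ℝ) with hA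
  refine ⟨2 * (Real.log (|CF| + 1) + A * Real.log (|CJ| + 1)) -
    ((Q * K : ℕ) : ℝ) * (ψ μ (γ w₁) - 1), ?_⟩
  filter_upwards [h.jac hv hG hφ, hψb, hCF, hCJ, h.eqF,
    h.cont.eventually_mem ((hM.isOpen μ).mem_nhds h.mem)] with w d1 d2 d3 d4 d7 d8 hw hwO
  obtain ⟨g1, g2, g3, g4, g5, g6, g7⟩ := d1 hwO
  set Jw : ℂ := (fderiv ℂ (fun w => e (γ w)) w).det with hJw
  have hdet := congrArg Matrix.det g7
  rw [Matrix.det_mul, det_jmat_pw hs, det_jmat g6.differentiableAt, ← hJw] at hdet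
  have hs0 : (s : ℂ) ≠ 0 := by exact_mod_cast (Nat.one_le_iff_ne_zero.1 hs)
  have hrhs : (s : ℂ) * w 0 ^ (2 * s - 1) ≠ 0 := mul_ne_zero hs0 (pow_ne_zero _ hw)
  have hJG : (jacG v G e (γ w)).det ≠ 0 := left_ne_zero_of_mul (hdet ▸ hrhs)
  have hJ10 : Jw ≠ 0 := right_ne_zero_of_mul (hdet ▸ hrhs)
  have hT0 : T i₀ (e, μ) (γ w) ≠ 0 := (hT.holo _ g1 i₀ (e, μ) e g4 (hVL g3) ⟨g4, d8⟩).2
  have hF0 : F w ≠ 0 := by rw [d7 hwO]; exact pow_ne_zero _ hT0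
  have ht : 0 < ‖w 0‖ := norm_pos_iff.2 hw
  have hinv : ‖(jacG v G e (γ w)).det⁻¹‖ * ((s : ℝ) * ‖w 0‖ ^ (2 * s - 1)) = ‖Jw‖ := by
    have h1 : (jacG v G e (γ w)).det⁻¹ * ((s : ℂ) * w 0 ^ (2 * s - 1)) = Jw := by
      rw [← hdet]
      field_simp
    have h2 := congrArg norm h1
    rwa [norm_mul, norm_mul, norm_pow, Complex.norm_natCast] at h2
  have hdi : 0 < ‖(jacG v G e (γ w)).det⁻¹‖ := norm_pos_iff.2 (inv_ne_zero hJG)
  have hsr : (1 : ℝ) ≤ s := by exact_mod_cast hs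
  have hlogd : Real.log ‖(jacG v G e (γ w)).det⁻¹‖ = Real.log ‖Jw‖ - Real.log s -
      (2 * s - 1) * Real.log ‖w 0‖ := by
    have h1 := congrArg Real.log hinv
    rw [Real.log_mul hdi.ne' (by positivity), Real.log_mul (by positivity) (by positivity),
      Real.log_pow] at h1
    have h2 : ((2 * s - 1 : ℕ) : ℝ) = 2 * s - 1 := by
      rw [Nat.cast_sub (by omega)]; push_cast; ring
    rw [h2] at h1
    linear_combination h1
  rw [Lam_eq hM hv hG hL hT hψ hidx g1 g3 (hVL g3) g4 hJG d8,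
    nY_eq hM hv hG hL hT g1 g3 (hVL g3) g4 d8, ← d7 hwO]
  have hlog : Real.log (‖F w * (jacG v G e (γ w)).det⁻¹ ^ (m * Q * K)‖ ^ 2) =
      2 * (Real.log ‖F w‖ + A * Real.log ‖(jacG v G e (γ w)).det⁻¹‖) := by
    rw [norm_mul, norm_pow, Real.log_pow, Real.log_mul
      (norm_ne_zero_iff.2 hF0) (pow_ne_zero _ hdi.ne'), Real.log_pow]
    rw [← hA]
    push_cast
    ring
  rw [hlog, hlogd, one_div, Real.log_inv]
  have hA0 : 0 ≤ A := Nat.cast_nonneg _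
  have e1 : Real.log ‖F w‖ ≤ Real.log (|CF| + 1) + α * Real.log ‖w 0‖ := by
    have h1 : ‖F w‖ ≤ (|CF| + 1) * ‖w 0‖ ^ α :=
      d3.trans (mul_le_mul_of_nonneg_right (by linarith [le_abs_self CF]) (by positivity))
    have h2 := Real.log_le_log (norm_pos_iff.2 hF0) h1
    rwa [Real.log_mul (by positivity) (by positivity), Real.log_pow] at h2
  have e2 : Real.log ‖Jw‖ ≤ Real.log (|CJ| + 1) + j * Real.log ‖w 0‖ := by
    have h1 : ‖Jw‖ ≤ (|CJ| + 1) * ‖w 0‖ ^ j :=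
      d4.trans (mul_le_mul_of_nonneg_right (by linarith [le_abs_self CJ]) (by positivity))
    have h2 := Real.log_le_log (norm_pos_iff.2 hJ10) h1
    rwa [Real.log_mul (by positivity) (by positivity), Real.log_pow] at h2
  have e3 : 0 ≤ Real.log s := Real.log_nonneg hsr
  have e4 : A * Real.log ‖Jw‖ ≤ A * (Real.log (|CJ| + 1) + j * Real.log ‖w 0‖) := by gcongr
  have e5 : 0 ≤ A * Real.log s := mul_nonneg hA0 e3
  have e6 : ((Q * K : ℕ) : ℝ) * (ψ μ (γ w₁) - 1) ≤ ((Q * K : ℕ) : ℝ) * ψ μ (γ w) := by gcongr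
  nlinarith

end

/-! ### points over `bl w` -/

theorem eventually_root {w₁ : Cm 4} (h0 : w₁ 0 = 0) {s N : ℕ} (hs : 1 ≤ s) (hsN : s ∣ N)
    {p : Cm 4 → Prop} (hp : ∀ᶠ w in 𝓝 w₁, p w) :
    ∀ᶠ w in 𝓝 w₁, ∀ t : ℂ, t ^ N = w 0 → p ![t ^ (N / s), w 1, w 2, w 3] := by
  obtain ⟨ε, hε, hp'⟩ := Metric.eventually_nhds_iff_ball.1 hp
  rw [Metric.eventually_nhds_iff_ball]
  refine ⟨min ε (ε ^ s), lt_min hε (pow_pos hε s), fun w hw t ht => hp' _ ?_⟩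
  have h1 : dist w w₁ < ε := lt_of_lt_of_le hw (min_le_left _ _)
  have h2 : dist w w₁ < ε ^ s := lt_of_lt_of_le hw (min_le_right _ _)
  rw [mem_ball, dist_pi_lt_iff hε]
  intro i
  have h3 : ∀ i, dist (w i) (w₁ i) < ε := fun i => (dist_le_pi_dist w w₁ i).trans_lt h1
  fin_cases i
  · change dist (t ^ (N / s)) (w₁ 0) < ε
    rw [h0, dist_zero_right]
    have h4 : ‖t ^ (N / s)‖ ^ s = ‖w 0‖ := by
      rw [← norm_pow, ← pow_mul, Nat.div_mul_cancel hsN, ht]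
    have h5 : ‖w 0‖ < ε ^ s := by
      have := (dist_le_pi_dist w w₁ 0).trans_lt h2
      rwa [h0, dist_zero_right] at this
    rw [← h4] at h5
    exact lt_of_pow_lt_pow_left₀ s hε.le h5
  · exact h3 1
  · exact h3 2
  · exact h3 3

section
variable {Y : Type} [TopologicalSpace Y] [ChartedSpace (Cm 4) Y] {X : CSp} {O : Set Y}
  {v : Y → X.pt} {V : Set X.pt} {G : X.pt → Cm 4} {d : ℕ}

/-- the points over `bl w` -/
theorem wedge_pts {N : ℕ} (hN : 1 ≤ N) {s : Fin d → ℕ} (hs : ∀ k, 1 ≤ s k ∧ s k ∣ N)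
    {φ : Fin d → Cm 4 → X.pt} {w₁ : Cm 4} (h0 : w₁ 0 = 0)
    (hE : ∀ᶠ w in 𝓝 w₁, w 0 ≠ 0 → Enum V G ![w 0 ^ N, w 1 * w 0 ^ N, w 2, w 3]
      (fun k => φ k ![w 0 ^ (N / s k), w 1, w 2, w 3]))
    {P : Fin d → Cm 4 → Prop} (hP : ∀ k, ∀ᶠ w in 𝓝 w₁, P k w) :
    ∀ᶠ w in 𝓝 w₁, w 0 ≠ 0 → ∃ u : Fin d → Cm 4,
      (∀ k, u k 0 ^ s k = w 0 ∧ u k 0 ≠ 0 ∧ P k (u k)) ∧
      Enum V G (bl w) (fun k => φ k (u k)) := by
  have c1 : ∀ᶠ w in 𝓝 w₁, ∀ k, ∀ t : ℂ, t ^ N = w 0 → P k ![t ^ (N / s k), w 1, w 2, w 3] := by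
    rw [eventually_all]
    exact fun k => eventually_root h0 (hs k).1 (hs k).2 (hP k)
  have c2 := eventually_root (s := N) (N := N) h0 hN dvd_rfl hE
  filter_upwards [c1, c2] with w d1 d2 hw
  obtain ⟨t, ht⟩ := IsAlgClosed.exists_pow_nat_eq (w 0) hN
  have ht0 : t ≠ 0 := by
    rintro rfl
    rw [zero_pow (by omega)] at ht
    exact hw ht.symm
  refine ⟨fun k => ![t ^ (N / s k), w 1, w 2, w 3], fun k => ⟨?_, ?_, d1 k t ht⟩, ?_⟩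
  · change (t ^ (N / s k)) ^ s k = w 0
    rw [← pow_mul, Nat.div_mul_cancel (hs k).2, ht]
  · exact pow_ne_zero _ ht0
  · have h1 := d2 t ht
    rw [Nat.div_self (by omega), pow_one] at h1
    have h2 := h1 ht0
    have h3 : (![t ^ N, w 1 * t ^ N, w 2, w 3] : Cm 4) = bl w := by
      rw [ht, mul_comm]; rfl
    have h4 : (![(![t, w 1, w 2, w 3] : Cm 4) 0 ^ N,
        (![t, w 1, w 2, w 3] : Cm 4) 1 * (![t, w 1, w 2, w 3] : Cm 4) 0 ^ N,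
        (![t, w 1, w 2, w 3] : Cm 4) 2, (![t, w 1, w 2, w 3] : Cm 4) 3] : Cm 4) = bl w := h3
    rw [h4] at h2
    exact h2

end

end Vale.Agent.P277.H371
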