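import Vale.Agent.P277.H884.PuiA
import Vale.Agent.P277.H884.Pui

/-!
# P277: Puiseux parametrisations with the monodromy permutation
-/

open Set Filter Metric Topology Polynomial
open Vale.Agent.P298.H983 Vale.Agent.P277.H884

noncomputable section

namespace Vale.Agent.P277.H371

section
variable {E : Type*} [NormedAddCommGroup E] [NormedSpace ℂ E] [FiniteDimensional ℂ E]

/-- `roots_puiseux` with the monodromy. -/
theorem roots_puiseux_sharp {Ω₁ : Set E} (hΩ₁ : IsOpen Ω₁) (hc₁ : Convex ℝ Ω₁) {A : ℝ} (hA : 0 < A)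
    {n : ℕ} {P : E × ℂ → ℂ[X]} (h : PFam (Ω₁ ×ˢ ball 0 A) n P)
    (hs : Simple ((Ω₁ ×ˢ ball 0 A) ∩ {q | q.2 ≠ 0}) P) :
    ∃ (N : ℕ) (r : Fin n → ℕ) (η : Fin n → E × ℂ → ℂ), N ≠ 0 ∧
      (∀ i, 1 ≤ r i ∧ r i ≤ n ∧ r i ∣ N) ∧
      (∀ i, DifferentiableOn ℂ (η i) (Ω₁ ×ˢ powBall (r i) A)) ∧
      (∀ i, ∀ q ∈ Ω₁ ×ˢ powBall (r i) A, (P (q.1, q.2 ^ r i)).eval (η i q) = 0) ∧
      (∀ x ∈ Ω₁, ∀ a ∈ powBall N A, a ≠ 0 →
        Function.Injective fun i => η i (x, a ^ (N / r i))) ∧
      ∃ σ : Equiv.Perm (Fin n), (∀ i, r i = Function.minimalPeriod σ i) ∧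
        ∀ i, ∀ x ∈ Ω₁, ∀ a ∈ powBall N A, a ≠ 0 →
          η (σ i) (x, a ^ (N / r (σ i))) = η i (x, (omg N * a) ^ (N / r i)) := by
  obtain ⟨K, hKn, hK0⟩ : ∃ K : ℕ, n.factorial ∣ K ∧ K ≠ 0 :=
    ⟨n.factorial, dvd_rfl, Nat.factorial_ne_zero n⟩
  have hKc : (K : ℂ) ≠ 0 := by exact_mod_cast hK0
  have hKr : (0 : ℝ) < K := by exact_mod_cast Nat.pos_of_ne_zero hK0
  obtain ⟨ζ, σ, hζ1, hζ2, hζ3, hζ4⟩ := roots_one hΩ₁ hc₁ hA h hs hKn hK0
  have hσK : σ ^ K = 1 := perm_pow_eq_one σ hKn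
  set r : Fin n → ℕ := fun i => Function.minimalPeriod σ i with hr
  have hrper : ∀ i, Function.IsPeriodicPt σ K i := by
    intro i
    change (σ^[K]) i = i
    rw [← Equiv.Perm.coe_pow, hσK]
    rfl
  have hr1 : ∀ i, 0 < r i := fun i => (hrper i).minimalPeriod_pos (Nat.pos_of_ne_zero hK0)
  have hrK : ∀ i, r i ∣ K := fun i => (hrper i).minimalPeriod_dvd
  have hrn : ∀ i, r i ≤ n := by
    intro i
    have h1 := Function.minimalPeriod_le_card (f := σ) (x := i)
    simpa using h1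
  -- powers of the root of unity
  have hpow : ∀ i, ∀ j : ℕ, ∀ x ∈ Ω₁, ∀ a ∈ powBall K A,
      ζ i (x, omg K ^ j * a) = ζ ((σ ^ j) i) (x, a) := by
    intro i j
    induction j generalizing i with
    | zero => intro x _ a _; simp
    | succ j ih =>
      intro x hx a ha
      have h1 := hζ4 i (x, omg K ^ j * a) ⟨hx, omg_pow_mul_mem ha j⟩
      simp only at h1
      rw [pow_succ', mul_assoc, h1, ih (σ i) x hx a ha, pow_succ, Equiv.Perm.mul_apply]
  have hfix : ∀ i, (σ ^ r i) i = i := by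
    intro i
    have h1 : (σ^[r i]) i = i := Function.iterate_minimalPeriod
    rwa [← Equiv.Perm.coe_pow] at h1
  have hrc : ∀ i, (r i : ℂ) ≠ 0 := fun i => by exact_mod_cast (hr1 i).ne'
  have hrr : ∀ i, (0 : ℝ) < r i := fun i => by exact_mod_cast hr1 i
  -- exponentials in `powBall`
  have hmem : ∀ i, ∀ w : ℂ, w.re < Real.log A / r i →
      Complex.exp (r i * w / K) ∈ powBall K A := by
    intro i w hw
    rw [exp_mem_powBall hK0 hA, Complex.div_natCast_re]
    rw [lt_div_iff₀ (hrr i)] at hw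
    have h1 : ((r i : ℂ) * w).re = r i * w.re := by simp
    rw [h1]
    gcongr
    linarith
  have hGd : ∀ i, DifferentiableOn ℂ (fun q : E × ℂ => ζ i (q.1, Complex.exp (r i * q.2 / K)))
      (Ω₁ ×ˢ {w : ℂ | w.re < Real.log A / r i}) := by
    intro i
    refine (hζ1 i).comp (Differentiable.differentiableOn (by fun_prop)) ?_
    rintro ⟨x, w⟩ ⟨hx, hw⟩
    exact ⟨hx, hmem i w hw⟩
  have hGp : ∀ i, ∀ x ∈ Ω₁, ∀ w : ℂ, w.re < Real.log A / r i →
      ζ i (x, Complex.exp (r i * (w + 2 * Real.pi * Complex.I) / K)) =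
        ζ i (x, Complex.exp (r i * w / K)) := by
    intro i x hx w hw
    have h1 : Complex.exp (r i * (w + 2 * Real.pi * Complex.I) / K) =
        omg K ^ r i * Complex.exp (r i * w / K) := by
      rw [omg, ← Complex.exp_nat_mul, ← Complex.exp_add]
      congr 1
      field_simp
      ring
    rw [h1, hpow i (r i) x hx _ (hmem i w hw), hfix]
  have hGb : ∀ i, ∀ x ∈ Ω₁, ∃ C M' : ℝ, ∀ᶠ y in 𝓝 x, ∀ w : ℂ, w.re < M' →
      ‖ζ i (y, Complex.exp (r i * w / K))‖ ≤ C := by
    intro i x hx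
    have hopen : IsOpen (Ω₁ ×ˢ powBall K A) := hΩ₁.prod (isOpen_powBall K A)
    have h0 : (0 : ℂ) ∈ powBall K A := by
      change ‖(0 : ℂ)‖ ^ K < A
      rw [norm_zero, zero_pow hK0]; exact hA
    have h1 : ContinuousAt (ζ i) (x, 0) :=
      (hζ1 i).continuousOn.continuousAt (hopen.mem_nhds ⟨hx, h0⟩)
    have h2 : ∀ᶠ q in 𝓝 ((x, 0) : E × ℂ), ‖ζ i q‖ < ‖ζ i (x, 0)‖ + 1 :=
      h1.norm.eventually (eventually_lt_nhds (lt_add_one _))
    rw [nhds_prod_eq, Filter.eventually_prod_iff] at h2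
    obtain ⟨pa, hpa, pb, hpb, h2⟩ := h2
    obtain ⟨ε, hε, hεb⟩ := Metric.eventually_nhds_iff_ball.1 hpb
    refine ⟨‖ζ i (x, 0)‖ + 1, K * Real.log ε / r i, ?_⟩
    filter_upwards [hpa] with y hy w hw
    refine (h2 hy (hεb _ ?_)).le
    rw [exp_mem_ball hε, Complex.div_natCast_re, div_lt_iff₀ hKr]
    rw [lt_div_iff₀ (hrr i)] at hw
    have h1 : ((r i : ℂ) * w).re = r i * w.re := by simp
    rw [h1]
    linarith
  choose η hη1 hη2 using fun i => descend hΩ₁ (hGd i) (hGp i) (hGb i)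
  have hpb : ∀ i, powBall (r i) A = ball 0 (Real.exp (Real.log A / r i)) := fun i =>
    powBall_eq (hr1 i).ne' hA
  have hη1' : ∀ i, DifferentiableOn ℂ (η i) (Ω₁ ×ˢ powBall (r i) A) := fun i => by
    rw [hpb i]; exact hη1 i
  -- root property off zero
  have hroot : ∀ i, ∀ x ∈ Ω₁, ∀ w : ℂ, w.re < Real.log A / r i →
      (P (x, Complex.exp w ^ r i)).eval (η i (x, Complex.exp w)) = 0 := by
    intro i x hx w hw
    have h1 := hζ2 (x, Complex.exp (r i * w / K)) ⟨hx, hmem i w hw⟩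
    have h2 : Complex.exp (r i * w / K) ^ K = Complex.exp w ^ r i := by
      rw [← Complex.exp_nat_mul, ← Complex.exp_nat_mul]
      congr 1
      field_simp
    simp only [h2] at h1
    rw [h1, hη2 i x hx w hw, eval_prod]
    exact Finset.prod_eq_zero (Finset.mem_univ i) (by simp)
  have hexp : ∀ i, ∀ t ∈ powBall (r i) A, t ≠ 0 → ∃ w : ℂ, w.re < Real.log A / r i ∧
      Complex.exp w = t := by
    intro i t ht ht0
    refine ⟨Complex.log t, ?_, Complex.exp_log ht0⟩
    rw [← exp_mem_powBall (hr1 i).ne' hA, Complex.exp_log ht0]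
    exact ht
  have hval : ∀ i, ∀ x ∈ Ω₁, ∀ a ∈ powBall K A, a ≠ 0 → η i (x, a ^ (K / r i)) = ζ i (x, a) := by
    intro i x hx a ha ha0
    have h2 : a = Complex.exp (Complex.log a) := (Complex.exp_log ha0).symm
    have h3 : a ^ (K / r i) = Complex.exp ((K / r i : ℕ) * Complex.log a) := by
      rw [Complex.exp_nat_mul, ← h2]
    have h4 : (r i : ℂ) * ((K / r i : ℕ) : ℂ) = K := by
      exact_mod_cast Nat.mul_div_cancel' (hrK i)
    have h5 : Complex.exp (r i * ((K / r i : ℕ) * Complex.log a) / K) = a := by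
      rw [← mul_assoc, h4, mul_div_assoc, mul_comm, div_mul_cancel₀ _ hKc, Complex.exp_log ha0]
    rw [h3, hη2 i x hx _ ?_, h5]
    have h6 : (Complex.log a).re < Real.log A / K := by
      rw [← exp_mem_powBall hK0 hA, ← h2]; exact ha
    have h7 : (((K / r i : ℕ) : ℂ) * Complex.log a).re = (K / r i : ℕ) * (Complex.log a).re := by
      simp
    rw [h7, lt_div_iff₀ (hrr i)]
    rw [lt_div_iff₀ hKr] at h6
    have h8 : ((K / r i : ℕ) : ℝ) * r i = K := by
      exact_mod_cast Nat.div_mul_cancel (hrK i)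
    calc ((K / r i : ℕ) : ℝ) * (Complex.log a).re * r i
        = (Complex.log a).re * (((K / r i : ℕ) : ℝ) * r i) := by ring
      _ = (Complex.log a).re * K := by rw [h8]
      _ < Real.log A := h6
  refine ⟨K, r, η, hK0, fun i => ⟨hr1 i, hrn i, hrK i⟩, hη1', ?_, ?_, σ, fun i => rfl, ?_⟩
  · intro i q hq
    have hSo : IsOpen (Ω₁ ×ˢ powBall (r i) A) := hΩ₁.prod (isOpen_powBall _ A)
    have hm : MapsTo (fun q : E × ℂ => ((q.1, q.2 ^ r i) : E × ℂ)) (Ω₁ ×ˢ powBall (r i) A)
        (Ω₁ ×ˢ ball 0 A) := fun q hq => ⟨hq.1, pow_mem_ball hq.2⟩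
    have h1 := h.comp (φ := fun q : E × ℂ => ((q.1, q.2 ^ r i) : E × ℂ))
      (differentiable_fst.prodMk (differentiable_snd.pow (r i))).differentiableOn hm
    have h2 : ContinuousOn (fun q : E × ℂ => (P (q.1, q.2 ^ r i)).eval (η i q))
        (Ω₁ ×ˢ powBall (r i) A) := by
      have h3 := h1.differentiableOn_eval.continuousOn
      refine h3.comp (f := fun q : E × ℂ => ((q, η i q) : (E × ℂ) × ℂ))
        (continuousOn_id.prodMk (hη1' i).continuousOn) ?_
      intro q hq
      exact ⟨hq, mem_univ _⟩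
    refine eqOn_of_snd_ne hSo (a := fun q : E × ℂ => (P (q.1, q.2 ^ r i)).eval (η i q))
      (b := fun _ => 0) h2 continuousOn_const ?_ q hq
    rintro ⟨x, t⟩ ⟨hx, ht⟩ ht0
    obtain ⟨w, hw, rfl⟩ := hexp i t ht ht0
    exact hroot i x hx w hw
  · intro x hx a ha ha0 i j hij
    simp only [hval _ x hx a ha ha0] at hij
    exact hζ3 (x, a) ⟨hx, ha⟩ ha0 hij
  · intro i x hx a ha ha0
    have h1 : omg K * a ∈ powBall K A := by
      have := omg_pow_mul_mem ha 1
      rwa [pow_one] at this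
    have h2 : omg K * a ≠ 0 := mul_ne_zero (Complex.exp_ne_zero _) ha0
    rw [hval _ x hx a ha ha0, hval _ x hx _ h1 h2]
    exact (hζ4 i (x, a) ⟨hx, ha⟩).symm

end

/-! ### cycles of a permutation -/

theorem sum_orbit {n : ℕ} (σ : Equiv.Perm (Fin n)) (i : Fin n) :
    ∃ O : Finset (Fin n), i ∈ O ∧ (∀ j ∈ O, σ j ∈ O) ∧ (∀ j, σ j ∈ O → j ∈ O) ∧
      O.card = Function.minimalPeriod σ i ∧
      ∀ j ∈ O, Function.minimalPeriod σ j = Function.minimalPeriod σ i := by
  classical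
  have hper : i ∈ Function.periodicPts σ := by
    exact σ.injective.mem_periodicPts i
  set p := Function.minimalPeriod σ i with hp
  have hp0 : 0 < p := Function.minimalPeriod_pos_of_mem_periodicPts hper
  set O : Finset (Fin n) := (Finset.range p).image fun j => σ^[j] i with hO
  have hmem : ∀ j, σ^[j] i ∈ O := by
    intro j
    rw [hO, Finset.mem_image]
    refine ⟨j % p, Finset.mem_range.2 (Nat.mod_lt _ hp0), ?_⟩
    exact Function.iterate_mod_minimalPeriod_eq
  refine ⟨O, hmem 0, ?_, ?_, ?_, ?_⟩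
  · intro j hj
    obtain ⟨k, -, rfl⟩ := Finset.mem_image.1 hj
    rw [← Function.iterate_succ_apply' σ k i]
    exact hmem _
  · intro j hj
    obtain ⟨k, -, hk⟩ := Finset.mem_image.1 hj
    have h1 : σ^[k + p] i = σ j := by
      rw [Function.iterate_add_apply, Function.iterate_minimalPeriod]
      exact hk
    obtain ⟨q, hq⟩ : ∃ q, k + p = q + 1 := ⟨k + p - 1, by omega⟩
    rw [hq, Function.iterate_succ_apply'] at h1
    rw [← σ.injective h1]
    exact hmem q
  · rw [hO, Finset.card_image_of_injOn, Finset.card_range]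
    intro a ha b hb hab
    exact Function.iterate_injOn_Iio_minimalPeriod (by simpa using ha) (by simpa using hb) hab
  · intro j hj
    obtain ⟨k, -, rfl⟩ := Finset.mem_image.1 hj
    exact Function.minimalPeriod_apply_iterate hper k

theorem two_le_sum {n : ℕ} (σ : Equiv.Perm (Fin n)) (i : Fin n)
    (hi : Function.minimalPeriod σ i ≠ n) :
    (2 : ℝ) ≤ ∑ k, 1 / (Function.minimalPeriod σ k : ℝ) := by
  classical
  obtain ⟨O, hiO, hO1, hO4, hO2, hO3⟩ := sum_orbit σ i
  have hne : ∃ j, j ∉ O := by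
    by_contra hcon
    push Not at hcon
    have h1 : O = Finset.univ := Finset.eq_univ_iff_forall.2 hcon
    rw [h1, Finset.card_univ, Fintype.card_fin] at hO2
    exact hi hO2.symm
  obtain ⟨j, hj⟩ := hne
  obtain ⟨P, hjP, hP1, hP4, hP2, hP3⟩ := sum_orbit σ j
  have hpos : ∀ k, 0 < Function.minimalPeriod σ k := fun k =>
    Function.minimalPeriod_pos_of_mem_periodicPts (σ.injective.mem_periodicPts k)
  have hdisj : Disjoint O P := by
    rw [Finset.disjoint_left]
    intro k hk hk'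
    -- `j` is in the orbit of `k`
    apply hj
    have h1 : ∀ q : ℕ, ∀ l, (σ^[q]) l ∈ O → l ∈ O := by
      intro q
      induction q with
      | zero => intro l hl; exact hl
      | succ q ih =>
        intro l hl
        rw [Function.iterate_succ_apply] at hl
        exact hO4 l (ih _ hl)
    have h3 : ∃ q : ℕ, σ^[q] j = k := by
      by_contra hcon
      push Not at hcon
      have h4 : (Finset.range (Function.minimalPeriod σ j)).image (fun q => σ^[q] j) ⊆ P.erase k := by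
        intro l hl
        obtain ⟨q, -, rfl⟩ := Finset.mem_image.1 hl
        rw [Finset.mem_erase]
        refine ⟨hcon q, ?_⟩
        clear hl
        induction q with
        | zero => exact hjP
        | succ q ih => rw [Function.iterate_succ_apply']; exact hP1 _ ih
      have h5 := Finset.card_le_card h4
      rw [Finset.card_image_of_injOn (fun a ha b hb hab =>
        Function.iterate_injOn_Iio_minimalPeriod (by simpa using ha) (by simpa using hb) hab),
        Finset.card_range, Finset.card_erase_of_mem hk', hP2] at h5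
      have := hpos j
      omega
    obtain ⟨q, hq⟩ := h3
    exact h1 q j (by rw [hq]; exact hk)
  have hsum : ∀ (O : Finset (Fin n)) (i : Fin n), O.card = Function.minimalPeriod σ i →
      (∀ j ∈ O, Function.minimalPeriod σ j = Function.minimalPeriod σ i) →
      ∑ k ∈ O, 1 / (Function.minimalPeriod σ k : ℝ) = 1 := by
    intro O i h1 h2
    rw [Finset.sum_congr rfl (g := fun _ => 1 / (Function.minimalPeriod σ i : ℝ))
      (fun k hk => by rw [h2 k hk]), Finset.sum_const, h1, nsmul_eq_mul]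
    have : (Function.minimalPeriod σ i : ℝ) ≠ 0 := by exact_mod_cast (hpos i).ne'
    field_simp
  calc (2 : ℝ) = ∑ k ∈ O, 1 / (Function.minimalPeriod σ k : ℝ) +
        ∑ k ∈ P, 1 / (Function.minimalPeriod σ k : ℝ) := by
        rw [hsum O i hO2 hO3, hsum P j hP2 hP3]; norm_num
    _ = ∑ k ∈ O ∪ P, 1 / (Function.minimalPeriod σ k : ℝ) := (Finset.sum_union hdisj).symm
    _ ≤ ∑ k, 1 / (Function.minimalPeriod σ k : ℝ) :=
        Finset.sum_le_sum_of_subset_of_nonneg (Finset.subset_univ _) fun _ _ _ => by positivity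

end Vale.Agent.P277.H371
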