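import Vale.Agent.P277.H371.PuiB

/-!
# P277: parametrisation of the sheets with monodromy
-/

open scoped Manifold ContDiff Topology
open Vale.Agent.P272.K Vale.Agent.P285.H281.FD Set Filter
open Vale.Agent.P298.H983 Vale.Agent.P277.H884 Vale.Agent.P277.TX

noncomputable section

namespace Vale.Agent.P277.H371

/-- `StPui` with monodromy: either there are at least two cycles, or all sheets are rotations of
each other. -/
def StPuiS : Prop :=
  ∀ (X : CSp) (V : Set X.pt) (G : X.pt → Cm 4) (c : Cm 4)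
    (r : ℝ) (d : ℕ) (lam : X.pt → ℂ) (θ : Cm 4 → ℂ) (_ : IsCov X V G c r d lam θ)
    (w₀ : Cm 4) (_ : w₀ 0 = 0) (_ : bl w₀ ∈ Metric.ball c r) (m : ℕ) (Φ : Cm 4 → ℂ)
    (_ : AnalyticAt ℂ Φ w₀) (_ : Φ w₀ ≠ 0) (_ : ∀ᶠ w in 𝓝 w₀, θ (bl w) = w 0 ^ m * Φ w),
    ∃ (N : ℕ) (s : Fin d → ℕ) (ε : ℝ) (φ : Fin d → Cm 4 → X.pt), 1 ≤ N ∧ 0 < ε ∧ ε ≤ 1 ∧
      (∀ k, 1 ≤ s k ∧ s k ≤ d ∧ s k ∣ N) ∧
      (∀ k, ∀ w ∈ Metric.ball w₀ ε, HolAt X (φ k) w ∧ φ k w ∈ V ∧
        G (φ k w) = ![w 0 ^ s k, w 1 * w 0 ^ s k, w 2, w 3]) ∧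
      (∀ w ∈ Metric.ball w₀ ε, w 0 ≠ 0 →
        Enum V G ![w 0 ^ N, w 1 * w 0 ^ N, w 2, w 3]
          (fun k => φ k ![w 0 ^ (N / s k), w 1, w 2, w 3])) ∧
      ((2 : ℝ) ≤ ∑ k, 1 / (s k : ℝ) ∨ ∀ k l, s k = d ∧ ∃ η : ℂ, η ^ d = 1 ∧
        ∀ w ∈ Metric.ball w₀ ε, w 0 ≠ 0 → φ k w = φ l ![η * w 0, w 1, w 2, w 3])

theorem stPuiS : StPuiS := by
  intro X V G c r d lam θ h w₀ h0 hbl m Φ hΦ hΦ0 hθ
  obtain ⟨P, hP1, hP2, hP3⟩ := h.sym lam h.lamHol
  have hopenB : IsOpen (Metric.ball c r) := Metric.isOpen_ball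
  have hblc : Continuous bl := differentiable_bl.continuous
  obtain ⟨A₁, hA₁, hAb⟩ := Metric.eventually_nhds_iff_ball.1 (hθ.and
    ((hblc.continuousAt.eventually (hopenB.mem_nhds hbl)).and (hΦ.continuousAt.eventually_ne hΦ0)))
  set A : ℝ := min A₁ 1 with hAdef
  have hA : 0 < A := lt_min hA₁ one_pos
  have hA1 : A ≤ 1 := min_le_right _ _
  have hAball : ∀ w ∈ Metric.ball w₀ A, θ (bl w) = w 0 ^ m * Φ w ∧ bl w ∈ Metric.ball c r ∧
      Φ w ≠ 0 := fun w hw => hAb w (Metric.ball_subset_ball (min_le_left _ _) hw)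
  set Ω₁ : Set (Cm 3) := Metric.ball (Fin.tail w₀ : Cm 3) A with hΩ₁
  -- the family of polynomials
  have hcons : Differentiable ℂ fun q : Cm 3 × ℂ => (Fin.cons q.2 q.1 : Cm 4) := by
    refine differentiable_pi.2 fun i => ?_
    refine Fin.cases ?_ (fun j => ?_) i
    · simp
    · simp only [Fin.cons_succ]; fun_prop
  have hβ : Differentiable ℂ fun q : Cm 3 × ℂ => bl (Fin.cons q.2 q.1) :=
    differentiable_bl.comp hcons
  have hmem : ∀ q ∈ Ω₁ ×ˢ Metric.ball (0 : ℂ) A, (Fin.cons q.2 q.1 : Cm 4) ∈ Metric.ball w₀ A :=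
    fun q hq => cons_mem_ball h0 hA (by simpa using hq.2) hq.1
  have hmaps : MapsTo (fun q : Cm 3 × ℂ => bl (Fin.cons q.2 q.1)) (Ω₁ ×ˢ Metric.ball (0 : ℂ) A)
      (Metric.ball c r) := fun q hq => (hAball _ (hmem q hq)).2.1
  have hPF : PFam (Ω₁ ×ˢ Metric.ball (0 : ℂ) A) d fun q => P (bl (Fin.cons q.2 q.1)) := by
    refine ⟨fun q hq => (hP1 _ (hmaps hq)).1, fun q hq => (hP1 _ (hmaps hq)).2.1, fun i => ?_⟩
    have h1 : DifferentiableOn ℂ (fun z => (P z).coeff i) (Metric.ball c r) := fun z hz =>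
      ((hP1 z hz).2.2 i).differentiableAt.differentiableWithinAt
    exact h1.comp hβ.differentiableOn hmaps
  have hθne : ∀ w ∈ Metric.ball w₀ A, w 0 ≠ 0 → θ (bl w) ≠ 0 := by
    intro w hw hw0
    rw [(hAball w hw).1]
    exact mul_ne_zero (pow_ne_zero _ hw0) (hAball w hw).2.2
  have hsimple : Simple ((Ω₁ ×ˢ Metric.ball (0 : ℂ) A) ∩ {q | q.2 ≠ 0})
      fun q => P (bl (Fin.cons q.2 q.1)) := by
    rintro q ⟨hq, hq0⟩ z hz
    have hθq : θ (bl (Fin.cons q.2 q.1)) ≠ 0 := hθne _ (hmem q hq) (by simpa using hq0)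
    obtain ⟨x, hx⟩ := h.enum _ (hmaps hq) hθq
    have h1 := hP3 _ (hmaps hq) hθq x hx
    have h2 : Function.Injective fun k => lam (x k) := by
      intro k l hkl
      exact hx.1 (h.sep _ (hmaps hq) hθq ((hx.2 _).1 ⟨k, rfl⟩) ((hx.2 _).1 ⟨l, rfl⟩) hkl)
    have h3 : (P (bl (Fin.cons q.2 q.1))).Separable := by
      rw [h1]
      exact Polynomial.separable_prod_X_sub_C_iff.2 h2
    intro h4
    have h5 := h3.aeval_derivative_ne_zero (x := z) (by simpa [Polynomial.aeval_def] using hz)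
    exact h5 (by simpa [Polynomial.aeval_def] using h4)
  obtain ⟨N, s, η, hN0, hs, hη1, hη2, hη3, σ, hσs, hσr⟩ :=
    roots_puiseux_sharp (Metric.isOpen_ball (x := (Fin.tail w₀ : Cm 3)) (ε := A))
      (convex_ball _ _) hA hPF hsimple
  have hN : 1 ≤ N := Nat.one_le_iff_ne_zero.2 hN0
  -- powers stay in the ball
  have hpowlt : ∀ {t : ℂ} {j : ℕ}, 1 ≤ j → ‖t‖ < A → ‖t ^ j‖ < A := by
    intro t j hj ht
    rw [norm_pow]
    refine lt_of_le_of_lt ?_ ht
    exact pow_le_of_le_one (norm_nonneg t) (ht.le.trans hA1) (by omega)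
  have hvec : ∀ (w : Cm 4) (j : ℕ), (![w 0 ^ j, w 1, w 2, w 3] : Cm 4) =
      Fin.cons (w 0 ^ j) (Fin.tail w) := by
    intro w j
    ext i
    fin_cases i <;> rfl
  have hvecmem : ∀ w ∈ Metric.ball w₀ A, ∀ j : ℕ, 1 ≤ j →
      (![w 0 ^ j, w 1, w 2, w 3] : Cm 4) ∈ Metric.ball w₀ A := by
    intro w hw j hj
    rw [hvec]
    exact cons_mem_ball h0 hA (hpowlt hj (zero_lt_of_mem h0 hA hw)) (tail_mem_ball hA hw)
  have hblvec : ∀ (w : Cm 4) (j : ℕ), bl ![w 0 ^ j, w 1, w 2, w 3] =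
      ![w 0 ^ j, w 1 * w 0 ^ j, w 2, w 3] := by
    intro w j
    ext i
    fin_cases i <;> simp [bl, mul_comm]
  have hbdiff : ∀ j : ℕ, Differentiable ℂ fun w : Cm 4 =>
      (![w 0 ^ j, w 1 * w 0 ^ j, w 2, w 3] : Cm 4) := by
    intro j
    refine differentiable_pi.2 fun i => ?_
    fin_cases i <;> simp <;> fun_prop
  have hban : ∀ (j : ℕ) (w : Cm 4), AnalyticAt ℂ (fun w : Cm 4 =>
      (![w 0 ^ j, w 1 * w 0 ^ j, w 2, w 3] : Cm 4)) w := fun j w =>
    P268.analyticAt_of_differentiableOn isOpen_univ (hbdiff j).differentiableOn (mem_univ w)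
  set S : Set (Cm 4) := {w | w ∈ Metric.ball w₀ A ∧ w 0 ≠ 0} with hS
  have hSo : IsOpen S := Metric.isOpen_ball.inter
    (isOpen_ne_fun (continuous_apply 0) continuous_const)
  have hlift : ∀ k, ∃ φ : Cm 4 → X.pt, (∀ w ∈ Metric.ball w₀ A, HolAt X φ w ∧ φ w ∈ V ∧
      G (φ w) = ![w 0 ^ s k, w 1 * w 0 ^ s k, w 2, w 3]) ∧
      ∀ w ∈ Metric.ball w₀ A, w 0 ≠ 0 → lam (φ w) = η k (Fin.tail w, w 0) := by
    intro k
    have hbr : ∀ w ∈ Metric.ball w₀ A,
        (![w 0 ^ s k, w 1 * w 0 ^ s k, w 2, w 3] : Cm 4) ∈ Metric.ball c r := by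
      intro w hw
      rw [← hblvec]
      exact (hAball _ (hvecmem w hw _ (hs k).1)).2.1
    have hηm : MapsTo (fun w : Cm 4 => ((Fin.tail w, w 0) : Cm 3 × ℂ)) (Metric.ball w₀ A)
        (Ω₁ ×ˢ powBall (s k) A) := by
      intro w hw
      refine ⟨tail_mem_ball hA hw, ?_⟩
      change ‖w 0‖ ^ s k < A
      rw [← norm_pow]
      exact hpowlt (hs k).1 (zero_lt_of_mem h0 hA hw)
    have hηc : ContinuousOn (fun w : Cm 4 => η k (Fin.tail w, w 0)) S := by
      have h1 : Continuous fun w : Cm 4 => ((Fin.tail w, w 0) : Cm 3 × ℂ) := by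
        refine Continuous.prodMk ?_ (continuous_apply 0)
        exact continuous_pi fun i => continuous_apply _
      exact ((hη1 k).continuousOn.comp h1.continuousOn hηm).mono fun w hw => hw.1
    obtain ⟨ψ, hψ⟩ := h.lift hP3 hSo (b := fun w => ![w 0 ^ s k, w 1 * w 0 ^ s k, w 2, w 3])
      (fun w _ => hban _ w) (fun w hw => hbr w hw.1) (fun w hw => by
        rw [← hblvec]
        exact hθne _ (hvecmem w hw.1 _ (hs k).1) (by simpa using pow_ne_zero _ hw.2)) hηc
      (fun w hw => by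
        have h1 := hη2 k (Fin.tail w, w 0) (hηm hw.1)
        simp only at h1
        rw [← hvec, hblvec] at h1
        exact h1)
    obtain ⟨Ψ, hΨ, hΨψ⟩ := h.extend (Metric.isOpen_ball (x := w₀) (ε := A))
      (b := fun w => ![w 0 ^ s k, w 1 * w 0 ^ s k, w 2, w 3])
      (fun w _ => (hban _ w).continuousAt) hbr (ψ := ψ)
      (fun w hw hw0 => ⟨(hψ w ⟨hw, hw0⟩).1, (hψ w ⟨hw, hw0⟩).2.1, (hψ w ⟨hw, hw0⟩).2.2.1⟩)
    exact ⟨Ψ, hΨ, fun w hw hw0 => by rw [hΨψ w hw hw0]; exact (hψ w ⟨hw, hw0⟩).2.2.2⟩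
  choose φ hφ hφl using hlift
  refine ⟨N, s, A, φ, hN, hA, hA1, hs, hφ, fun w hw hw0 => ?_, ?_⟩
  swap
  · by_cases hcyc : ∀ i, s i = d
    swap
    · left
      push Not at hcyc
      obtain ⟨i, hi⟩ := hcyc
      have h1 := two_le_sum σ i (by rw [← hσs i]; exact hi)
      simp only [← hσs] at h1
      exact h1
    · right
      set rt : ℂ := omg N ^ (N / d) with hrt
      have hdN : ∀ _ : Fin d, d ∣ N := fun k => by
        have := (hs k).2.2
        rwa [hcyc k] at this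
      have homgN : omg N ^ N = 1 := by
        rw [omg, ← Complex.exp_nat_mul]
        have h1 : (N : ℂ) * (2 * Real.pi * Complex.I / N) = 2 * Real.pi * Complex.I := by
          have : (N : ℂ) ≠ 0 := by exact_mod_cast hN0
          field_simp
        rw [h1, Complex.exp_two_pi_mul_I]
      have hrtd : ∀ _ : Fin d, rt ^ d = 1 := fun k => by
        rw [hrt, ← pow_mul, Nat.div_mul_cancel (hdN k), homgN]
      have hrtnorm : ‖rt‖ = 1 := by rw [hrt, norm_pow, norm_omg, one_pow]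
      have hvecη : ∀ (w : Cm 4) (u : ℂ), (![u * w 0, w 1, w 2, w 3] : Cm 4) =
          Fin.cons (u * w 0) (Fin.tail w) := by
        intro w u
        ext i
        fin_cases i <;> rfl
      have hmemη : ∀ w ∈ Metric.ball w₀ A, ∀ u : ℂ, ‖u‖ = 1 →
          (![u * w 0, w 1, w 2, w 3] : Cm 4) ∈ Metric.ball w₀ A := by
        intro w hw u hu
        rw [hvecη]
        refine cons_mem_ball h0 hA ?_ (tail_mem_ball hA hw)
        rw [norm_mul, hu, one_mul]
        exact zero_lt_of_mem h0 hA hw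
      have hrot : ∀ i, ∀ w ∈ Metric.ball w₀ A, w 0 ≠ 0 →
          φ (σ i) w = φ i ![rt * w 0, w 1, w 2, w 3] := by
        intro i w hw hw0
        have hd1 : 1 ≤ d := Fin.pos i
        have hNd : 1 ≤ N / d := (Nat.one_le_div_iff hd1).2 (Nat.le_of_dvd hN (hdN i))
        obtain ⟨a, ha⟩ := IsAlgClosed.exists_pow_nat_eq (w 0) (show 0 < N / d by omega)
        have ha0 : a ≠ 0 := by
          rintro rfl
          rw [zero_pow (by omega)] at ha
          exact hw0 ha.symm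
        have haN : a ^ N = w 0 ^ d := by
          rw [← ha, ← pow_mul, Nat.div_mul_cancel (hdN i)]
        have hamem : a ∈ powBall N A := by
          change ‖a‖ ^ N < A
          rw [← norm_pow, haN]
          exact hpowlt hd1 (zero_lt_of_mem h0 hA hw)
        have h1 := hσr i (Fin.tail w) (tail_mem_ball hA hw) a hamem ha0
        rw [hcyc, hcyc, mul_pow, ha, ← hrt] at h1
        have hw' := hmemη w hw rt hrtnorm
        have hw'0 : (![rt * w 0, w 1, w 2, w 3] : Cm 4) 0 ≠ 0 := by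
          change rt * w 0 ≠ 0
          refine mul_ne_zero ?_ hw0
          rw [← norm_ne_zero_iff, hrtnorm]
          exact one_ne_zero
        have h2 := hφl (σ i) w hw hw0
        have h3 := hφl i _ hw' hw'0
        rw [hvecη, Fin.tail_cons, Fin.cons_zero] at h3
        obtain ⟨-, g2, g3⟩ := hφ (σ i) w hw
        obtain ⟨-, g5, g6⟩ := hφ i _ hw'
        have hz : (![w 0 ^ d, w 1 * w 0 ^ d, w 2, w 3] : Cm 4) ∈ Metric.ball c r := by
          rw [← hblvec]
          exact (hAball _ (hvecmem w hw _ hd1)).2.1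
        have hzθ : θ ![w 0 ^ d, w 1 * w 0 ^ d, w 2, w 3] ≠ 0 := by
          rw [← hblvec]
          exact hθne _ (hvecmem w hw _ hd1) (by simpa using pow_ne_zero _ hw0)
        refine h.sep _ hz hzθ ⟨g2, ?_⟩ ⟨g5, ?_⟩ ?_
        · rw [g3, hcyc]
        · rw [g6, hcyc]
          have h4 : (rt * w 0) ^ d = w 0 ^ d := by rw [mul_pow, hrtd i, one_mul]
          ext i
          fin_cases i
          · exact h4
          · change w 1 * (rt * w 0) ^ d = w 1 * w 0 ^ d
            rw [h4]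
          · rfl
          · rfl
        · rw [h2, h1, hvecη, h3]
      have hiter : ∀ (j : ℕ) (l : Fin d), ∀ w ∈ Metric.ball w₀ A, w 0 ≠ 0 →
          φ (σ^[j] l) w = φ l ![rt ^ j * w 0, w 1, w 2, w 3] := by
        intro j
        induction j with
        | zero =>
          intro l w _ _
          rw [pow_zero, one_mul]
          have h1 : (![w 0, w 1, w 2, w 3] : Cm 4) = w := by
            ext i
            fin_cases i <;> rfl
          rw [h1]
          rfl
        | succ j ih =>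
          intro l w hw hw0
          rw [Function.iterate_succ_apply', hrot _ w hw hw0,
            ih l _ (hmemη w hw rt hrtnorm) (by
              change rt * w 0 ≠ 0
              refine mul_ne_zero ?_ hw0
              rw [← norm_ne_zero_iff, hrtnorm]
              exact one_ne_zero)]
          congr 1
          ext i
          fin_cases i
          · change rt ^ j * (rt * w 0) = rt ^ (j + 1) * w 0
            ring
          · rfl
          · rfl
          · rfl
      intro k l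
      refine ⟨hcyc k, ?_⟩
      have hinj : Function.Injective fun j : Fin d => σ^[(j : ℕ)] l := by
        intro a b hab
        have h1 : (a : ℕ) ∈ Iio (Function.minimalPeriod σ l) := by
          rw [← hσs, hcyc]; exact a.2
        have h2 : (b : ℕ) ∈ Iio (Function.minimalPeriod σ l) := by
          rw [← hσs, hcyc]; exact b.2
        exact Fin.ext (Function.iterate_injOn_Iio_minimalPeriod h1 h2 hab)
      obtain ⟨j, hj⟩ := Finite.surjective_of_injective hinj k
      simp only at hj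
      refine ⟨rt ^ (j : ℕ), ?_, fun w hw hw0 => ?_⟩
      · rw [← pow_mul, mul_comm, pow_mul, hrtd k, one_pow]
      · rw [← hj]
        exact hiter j l w hw hw0
  set z : Cm 4 := ![w 0 ^ N, w 1 * w 0 ^ N, w 2, w 3] with hz
  have hNs : ∀ k, 1 ≤ N / s k := fun k =>
    (Nat.one_le_div_iff (hs k).1).2 (Nat.le_of_dvd hN (hs k).2.2)
  set y : Fin d → X.pt := fun k => φ k ![w 0 ^ (N / s k), w 1, w 2, w 3] with hy
  have hzmem : z ∈ Metric.ball c r := by
    rw [hz, ← hblvec]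
    exact (hAball _ (hvecmem w hw _ hN)).2.1
  have hzθ : θ z ≠ 0 := by
    rw [hz, ← hblvec]
    exact hθne _ (hvecmem w hw _ hN) (by simpa using pow_ne_zero _ hw0)
  have hyV : ∀ k, y k ∈ V ∧ G (y k) = z := by
    intro k
    have h1 := hφ k _ (hvecmem w hw _ (hNs k))
    refine ⟨h1.2.1, ?_⟩
    rw [hy]
    simp only
    rw [h1.2.2, hz]
    have h2 : (w 0 ^ (N / s k)) ^ s k = w 0 ^ N := by
      rw [← pow_mul, Nat.div_mul_cancel (hs k).2.2]
    ext i
    fin_cases i <;> simp [h2]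
  have hyl : ∀ k, lam (y k) = η k (Fin.tail w, w 0 ^ (N / s k)) := by
    intro k
    have h0' : (![w 0 ^ (N / s k), w 1, w 2, w 3] : Cm 4) 0 ≠ 0 := pow_ne_zero (N / s k) hw0
    have h1 := hφl k _ (hvecmem w hw _ (hNs k)) h0'
    rw [hy]
    simp only
    rw [h1, hvec, Fin.tail_cons, Fin.cons_zero]
  have hyinj : Function.Injective y := by
    intro k l hkl
    have h1 : lam (y k) = lam (y l) := by rw [hkl]
    rw [hyl, hyl] at h1
    refine hη3 (Fin.tail w) (tail_mem_ball hA hw) (w 0) ?_ hw0 h1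
    change ‖w 0‖ ^ N < A
    rw [← norm_pow]
    exact hpowlt hN (zero_lt_of_mem h0 hA hw)
  obtain ⟨x, hx⟩ := h.enum z hzmem hzθ
  refine ⟨hyinj, fun p => ⟨?_, fun hp => ?_⟩⟩
  · rintro ⟨k, rfl⟩
    exact hyV k
  · -- counting
    have h1 : ∀ k, ∃ l, x l = y k := fun k => (hx.2 (y k)).2 (hyV k)
    choose f hf using h1
    have hfinj : Function.Injective f := by
      intro k l hkl
      exact hyinj (by rw [← hf k, ← hf l, hkl])
    have hfsurj := Finite.surjective_of_injective hfinj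
    obtain ⟨l, hl⟩ := (hx.2 p).2 hp
    obtain ⟨k, rfl⟩ := hfsurj l
    exact ⟨k, by rw [← hf k, hl]⟩

end Vale.Agent.P277.H371
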