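import Vale.Agent.P277.H371.TXFin
import Vale.Agent.P277.H371.PuiS

/-!
# P277: the sharper bound for `κ` in the totally ramified case
-/

open scoped Manifold ContDiff ComplexOrder Topology
open Vale.Agent.P272.K Vale.Agent.P285.H281.FD Vale.Agent.P267.H175 Set Metric Filter

noncomputable section

namespace Vale.Agent.P277.H371

open Vale.Agent.P277.TX Vale.Agent.P277.H19

/-- division by a power of `w 0` -/
theorem exists_pow_div {f : Cm 4 → ℂ} {w₁ : Cm 4} (hf : AnalyticAt ℂ f w₁) (h0 : w₁ 0 = 0) (n : ℕ)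
    (hb : ∃ C : ℝ, ∀ᶠ w in 𝓝 w₁, ‖f w‖ ≤ C * ‖w 0‖ ^ n) :
    ∃ g : Cm 4 → ℂ, AnalyticAt ℂ g w₁ ∧ ∀ᶠ w in 𝓝 w₁, f w = w 0 ^ n * g w := by
  induction n with
  | zero => exact ⟨f, hf, by simp⟩
  | succ n ih =>
    obtain ⟨C, hC⟩ := hb
    have hw0 : ∀ᶠ w in 𝓝 w₁, ‖w 0‖ < 1 :=
      ((continuous_apply (0 : Fin 4)).norm.continuousAt (x := w₁)).eventually_lt_const
        (show ‖w₁ 0‖ < 1 by rw [h0, norm_zero]; exact one_pos)
    obtain ⟨g, hg, hfg⟩ := ih ⟨|C|, by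
      filter_upwards [hC, hw0] with w h1 h2
      refine h1.trans ?_
      calc C * ‖w 0‖ ^ (n + 1) ≤ |C| * ‖w 0‖ ^ (n + 1) := by gcongr; exact le_abs_self C
        _ ≤ |C| * ‖w 0‖ ^ n := by
          gcongr ?_ * ?_
          exact pow_le_pow_of_le_one (norm_nonneg _) h2.le (Nat.le_succ n)⟩
    have hgz : ∀ᶠ w in 𝓝 w₁, w 0 = 0 → g w = 0 := by
      filter_upwards [(hC.and hfg).eventually_nhds, hg.eventually_analyticAt] with w h1 h2 h3
      have h4 : ∀ᶠ z in 𝓝 w, z 0 ≠ 0 → ‖g z‖ ≤ C * ‖z 0‖ := by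
        filter_upwards [h1] with z hz hz0
        have h5 : 0 < ‖z 0‖ ^ n := pow_pos (norm_pos_iff.2 hz0) n
        have h6 := hz.1
        rw [hz.2, norm_mul, norm_pow, pow_succ] at h6
        refine le_of_mul_le_mul_left ?_ h5
        linarith
      have h5 : ContinuousAt (fun z : Cm 4 => ‖g z‖ - C * ‖z 0‖) w :=
        h2.continuousAt.norm.sub (continuousAt_const.mul (continuous_apply 0).norm.continuousAt)
      have h6 : ‖g w‖ - C * ‖w 0‖ ≤ 0 := by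
        by_contra hcon
        push Not at hcon
        have h7 := h5.eventually_const_lt hcon
        obtain ⟨z, hz, hz0⟩ := exists_ne_zero (h4.and h7)
        have := hz.1 hz0
        have := hz.2
        linarith
      rw [h3, norm_zero, mul_zero, sub_zero] at h6
      exact norm_le_zero_iff.1 h6
    obtain ⟨g₁, hg₁, hgg₁⟩ := exists_div hg h0 hgz
    refine ⟨g₁, hg₁, ?_⟩
    filter_upwards [hfg, hgg₁] with w h1 h2
    rw [h1, h2, pow_succ]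
    ring

/-- rotation of the first coordinate -/
def rot (η : ℂ) (w : Cm 4) : Cm 4 := ![η * w 0, w 1, w 2, w 3]

theorem continuous_rot (η : ℂ) : Continuous (rot η) := by
  refine continuous_pi fun i => ?_
  fin_cases i
  · exact continuous_const.mul (continuous_apply 0)
  · exact continuous_apply 1
  · exact continuous_apply 2
  · exact continuous_apply 3

theorem rot_eq (η : ℂ) {w : Cm 4} (h0 : w 0 = 0) : rot η w = w := by
  ext i
  fin_cases i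
  · change η * w 0 = w 0
    rw [h0, mul_zero]
  · rfl
  · rfl
  · rfl

theorem eventually_rot (η : ℂ) {w₁ : Cm 4} (h0 : w₁ 0 = 0) {p : Cm 4 → Prop}
    (hp : ∀ᶠ w in 𝓝 w₁, p w) : ∀ᶠ w in 𝓝 w₁, p (rot η w) := by
  refine (continuous_rot η).continuousAt.eventually ?_
  rwa [rot_eq η h0]

theorem lip_zero {g : Cm 4 → ℂ} {w₁ : Cm 4} (hg : AnalyticAt ℂ g w₁) (h0 : w₁ 0 = 0) :
    ∃ C : ℝ, 0 < C ∧ ∀ᶠ w in 𝓝 w₁, ‖g w - g (rot 0 w)‖ ≤ C * ‖w 0‖ := by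
  have hr : AnalyticAt ℂ (rot 0) w₁ := by
    have h : ∀ i : Fin 4, AnalyticAt ℂ (fun z : Cm 4 => z i) w₁ := fun i =>
      (ContinuousLinearMap.proj (R := ℂ) (φ := fun _ : Fin 4 => ℂ) i).analyticAt _
    rw [analyticAt_pi_iff]
    intro i
    fin_cases i
    · exact analyticAt_const.mul (h 0)
    · exact h 1
    · exact h 2
    · exact h 3
  have h1 : AnalyticAt ℂ (fun w => g w - g (rot 0 w)) w₁ :=
    hg.sub (AnalyticAt.comp (g := g) (f := rot 0) (by rw [rot_eq 0 h0]; exact hg) hr)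
  obtain ⟨f, hf, hff⟩ := exists_div h1 h0 (Eventually.of_forall fun w hw => by
    rw [rot_eq 0 hw, sub_self])
  refine ⟨‖f w₁‖ + 1, by positivity, ?_⟩
  filter_upwards [hff, hf.continuousAt.norm.eventually_lt_const (lt_add_one _)] with w h2 h3
  rw [h2, norm_mul, mul_comm]
  exact mul_le_mul_of_nonneg_right h3.le (norm_nonneg _)

variable {X : CSp} {S V : Set X.pt} {G : X.pt → Cm 4} {c : Cm 4} {r : ℝ} {d : ℕ} {lam : X.pt → ℂ}
  {θ : Cm 4 → ℂ}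

theorem kappa_le_ram (hg : IsGood X S V G c r d lam θ) {a : Fin d → X.pt → ℂ}
    (ha : ∀ i, ∀ x ∈ V, X.Hol (a i) x) {κ : Cm 4 → ℂ}
    (hκ : ∀ z ∈ ball c r, θ z ≠ 0 → ∀ x : Fin d → X.pt, Enum V G z x →
      κ z = (Matrix.of fun i k => a i (x k)).det ^ 2) {w₁ : Cm 4} (h0 : w₁ 0 = 0)
    (hw₁ : bl w₁ ∈ ball c r) {N : ℕ} (hN : 1 ≤ N) (hdN : d ∣ N) {φ : Fin d → Cm 4 → X.pt}
    (hφ : ∀ k, ∀ᶠ w in 𝓝 w₁, HolAt X (φ k) w ∧ φ k w ∈ V ∧ G (φ k w) = pw d w)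
    (hE : ∀ᶠ w in 𝓝 w₁, w 0 ≠ 0 → Enum V G ![w 0 ^ N, w 1 * w 0 ^ N, w 2, w 3]
      (fun k => φ k ![w 0 ^ (N / d), w 1, w 2, w 3]))
    {η : Fin d → ℂ} {k₀ : Fin d} (hη : ∀ k, η k ^ d = 1)
    (hrot : ∀ k, ∀ᶠ w in 𝓝 w₁, w 0 ≠ 0 → φ k w = φ k₀ (rot (η k) w)) :
    ∃ C : ℝ, 0 < C ∧ ∀ᶠ w in 𝓝 w₁, w 0 ≠ 0 → θ (bl w) ≠ 0 →
      ‖κ (bl w)‖ ≤ C * ‖w 0‖ ^ (2 * ((d : ℝ) - 1) * (1 + 1 / d)) := by
  have hd1 := hg.dpos
  obtain ⟨hpH, hpV, hpG⟩ := (hφ k₀).self_of_nhds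
  set p : X.pt := φ k₀ w₁ with hp
  have hpG' : G p = bl w₁ := by rw [hpG, pw_zero hd1 h0]
  have hpS : p ∈ S := by
    rw [hg.memS p hpV, hpG']
    exact bl_zero h0
  choose β hβ1 hβ2 using fun i => exists_beta hg (ha i)
  have hGan : ∀ i, X.Hol (fun y => β i (G y)) p := fun i =>
    hol_comp (f := fun j y => G y j) (G := β i) (fun j => hg.holo p hpV j)
      (hβ1 i _ (hg.maps p hpV))
  have hhol : ∀ i, X.Hol (fun y => a i y - β i (G y)) p := fun i => hol_sub (ha i p hpV) (hGan i)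
  have hred : ∀ i, ∃ C : ℝ, ∀ᶠ y in 𝓝 p, ‖a i y - β i (G y)‖ ≤ C * (‖G y 0‖ + ‖G y 1‖) := by
    intro i
    refine hg.red p hpV hpS _ (hhol i) ?_
    filter_upwards [hg.isOpen.mem_nhds hpV] with y hy hyS
    rw [hβ2 i y hy hyS, sub_self]
  have hgi : ∀ i, ∃ g : Cm 4 → ℂ, AnalyticAt ℂ g w₁ ∧
      ∀ᶠ w in 𝓝 w₁, a i (φ k₀ w) - β i (G (φ k₀ w)) = w 0 ^ d * g w := by
    intro i
    refine exists_pow_div (f := fun w => a i (φ k₀ w) - β i (G (φ k₀ w)))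
      (hpH.analyticAt (hhol i)) h0 d ?_
    obtain ⟨C, hC⟩ := hred i
    have c2 : ∀ᶠ w in 𝓝 w₁, ‖w 1‖ < ‖w₁ 1‖ + 1 :=
      ((continuous_apply (1 : Fin 4)).norm.continuousAt (x := w₁)).eventually_lt_const
        (show ‖w₁ 1‖ < ‖w₁ 1‖ + 1 by linarith)
    refine ⟨|C| * (‖w₁ 1‖ + 2), ?_⟩
    filter_upwards [hpH.1.eventually hC, hφ k₀, c2] with w h1 h2 h3
    refine h1.trans ?_
    rw [h2.2.2]
    change C * (‖w 0 ^ d‖ + ‖w 1 * w 0 ^ d‖) ≤ _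
    rw [norm_mul, norm_pow]
    have h4 : 0 ≤ ‖w 0‖ ^ d := by positivity
    calc C * (‖w 0‖ ^ d + ‖w 1‖ * ‖w 0‖ ^ d) ≤ |C| * (‖w 0‖ ^ d + ‖w 1‖ * ‖w 0‖ ^ d) :=
          mul_le_mul_of_nonneg_right (le_abs_self C) (by positivity)
      _ ≤ |C| * ((‖w₁ 1‖ + 2) * ‖w 0‖ ^ d) := by
          refine mul_le_mul_of_nonneg_left ?_ (abs_nonneg C)
          nlinarith
      _ = _ := by ring
  choose g hga hge using hgi
  choose Cl hCl0 hCl using fun i => lip_zero (hga i) h0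
  set B : ℝ := ∑ i, Cl i with hB
  have hBB : ∀ i, Cl i ≤ B := fun i =>
    Finset.single_le_sum (f := Cl) (fun j _ => (hCl0 j).le) (Finset.mem_univ i)
  have hB0 : 0 < B := lt_of_lt_of_le (hCl0 ⟨0, hd1⟩) (hBB _)
  set A : ℝ := ∑ i, (‖a i p‖ + 1) with hA
  have hAA : ∀ i, ‖a i p‖ + 1 ≤ A := fun i =>
    Finset.single_le_sum (f := fun i => ‖a i p‖ + 1) (fun _ _ => by positivity) (Finset.mem_univ i)
  have hA0 : 0 < A := lt_of_lt_of_le (by positivity) (hAA ⟨0, hd1⟩)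
  have hap : ∀ i, ∀ᶠ w in 𝓝 w₁, ‖a i (φ k₀ w)‖ < ‖a i p‖ + 1 := fun i =>
    ((hol_continuousAt (ha i p hpV)).comp hpH.1).norm.eventually_lt_const
      (show ‖a i p‖ < ‖a i p‖ + 1 by linarith)
  -- conditions at the points `rot (η k) u`
  have hQ : ∀ᶠ u in 𝓝 w₁, ∀ k, (u 0 ≠ 0 → φ k u = φ k₀ (rot (η k) u)) ∧
      ∀ i, a i (φ k₀ (rot (η k) u)) - β i (G (φ k₀ (rot (η k) u))) =
        rot (η k) u 0 ^ d * g i (rot (η k) u) ∧
        ‖g i (rot (η k) u) - g i (rot 0 (rot (η k) u))‖ ≤ Cl i * ‖rot (η k) u 0‖ ∧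
        ‖a i (φ k₀ (rot (η k) u))‖ < ‖a i p‖ + 1 := by
    rw [eventually_all]
    intro k
    refine (hrot k).and ?_
    rw [eventually_all]
    intro i
    exact eventually_rot (η k) h0 ((hge i).and ((hCl i).and (hap i)))
  have e1 := eventually_root (s := d) (N := N) h0 hd1 hdN hQ
  have e2 := eventually_root (s := N) (N := N) h0 hN dvd_rfl hE
  have hblw : ∀ᶠ w in 𝓝 w₁, bl w ∈ ball c r :=
    continuous_bl.continuousAt.eventually (isOpen_ball.mem_nhds hw₁)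
  refine ⟨((d.factorial : ℝ) * (A * (2 * B) ^ (d - 1))) ^ 2, by positivity, ?_⟩
  filter_upwards [e1, e2, hblw] with w d1 d2 d3 hw hθ
  obtain ⟨t, ht⟩ := IsAlgClosed.exists_pow_nat_eq (w 0) hN
  have ht0 : t ≠ 0 := by
    rintro rfl
    rw [zero_pow (by omega)] at ht
    exact hw ht.symm
  have h1 := d2 t ht
  rw [Nat.div_self (by omega), pow_one] at h1
  have h2 := h1 ht0
  have h4 : (![(![t, w 1, w 2, w 3] : Cm 4) 0 ^ N,
      (![t, w 1, w 2, w 3] : Cm 4) 1 * (![t, w 1, w 2, w 3] : Cm 4) 0 ^ N,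
      (![t, w 1, w 2, w 3] : Cm 4) 2, (![t, w 1, w 2, w 3] : Cm 4) 3] : Cm 4) = bl w := by
    change (![t ^ N, w 1 * t ^ N, w 2, w 3] : Cm 4) = bl w
    rw [ht, mul_comm]; rfl
  rw [h4] at h2
  -- the point `u`
  set u : Cm 4 := ![t ^ (N / d), w 1, w 2, w 3] with hu
  have hen : Enum V G (bl w) (fun k => φ k u) := h2
  have hu0 : u 0 = t ^ (N / d) := rfl
  have hu0' : u 0 ≠ 0 := pow_ne_zero _ ht0
  have hud : u 0 ^ d = w 0 := by rw [hu0, ← pow_mul, Nat.div_mul_cancel hdN, ht]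
  have h5 := d1 t ht
  have hηn : ∀ k, ‖η k‖ = 1 := fun k => by
    have h6 : ‖η k‖ ^ d = 1 := by rw [← norm_pow, hη k, norm_one]
    exact (pow_eq_one_iff_of_nonneg (norm_nonneg _) (by omega)).1 h6
  have hval : ∀ k i, a i (φ k u) = β i (bl w) + w 0 * g i (rot (η k) u) := by
    intro k i
    obtain ⟨g1, g2⟩ := h5 k
    have h6 := (g2 i).1
    rw [← g1 hu0', ((hen.2 (φ k u)).1 ⟨k, rfl⟩).2] at h6
    have h7 : rot (η k) u 0 ^ d = w 0 := by
      change (η k * u 0) ^ d = w 0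
      rw [mul_pow, hη, one_mul, hud]
    rw [h7] at h6
    linear_combination h6
  have hlip : ∀ k i, ‖g i (rot (η k) u) - g i (rot 0 u)‖ ≤ B * ‖u 0‖ := by
    intro k i
    have h6 := ((h5 k).2 i).2.1
    have h7 : rot 0 (rot (η k) u) = rot 0 u := by
      ext i
      fin_cases i
      · change 0 * (η k * u 0) = 0 * u 0
        rw [zero_mul, zero_mul]
      · rfl
      · rfl
      · rfl
    have h8 : ‖rot (η k) u 0‖ = ‖u 0‖ := by
      change ‖η k * u 0‖ = _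
      rw [norm_mul, hηn, one_mul]
    rw [h7, h8] at h6
    exact h6.trans (mul_le_mul_of_nonneg_right (hBB i) (norm_nonneg _))
  rw [hκ _ d3 hθ _ hen, norm_pow, ← Matrix.det_transpose]
  have h6 := norm_det_le_of_near (Matrix.transpose (Matrix.of fun i k => a i (φ k u))) k₀
    (C := A) (ε := 2 * B * (‖w 0‖ * ‖u 0‖)) ?_ ?_
  · have hpos : 0 < ‖w 0‖ := norm_pos_iff.2 hw
    have hdr : (d : ℝ) ≠ 0 := by exact_mod_cast (Nat.one_le_iff_ne_zero.1 hd1)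
    have hu0n : ‖u 0‖ = ‖w 0‖ ^ (1 / (d : ℝ)) := by
      rw [← hud, norm_pow, ← Real.rpow_natCast, ← Real.rpow_mul (norm_nonneg _)]
      rw [mul_one_div_cancel hdr, Real.rpow_one]
    have hprod : ‖w 0‖ * ‖u 0‖ = ‖w 0‖ ^ (1 + 1 / (d : ℝ)) := by
      rw [hu0n, Real.rpow_add hpos, Real.rpow_one]
    calc ‖(Matrix.transpose (Matrix.of fun i k => a i (φ k u))).det‖ ^ 2 ≤
          ((d.factorial : ℝ) * (A * (2 * B * (‖w 0‖ * ‖u 0‖)) ^ (d - 1))) ^ 2 := by gcongr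
      _ = ((d.factorial : ℝ) * (A * (2 * B) ^ (d - 1))) ^ 2 *
          ((‖w 0‖ ^ (1 + 1 / (d : ℝ))) ^ (2 * (d - 1))) := by
          rw [hprod, mul_pow (2 * B), pow_mul']
          ring
      _ = _ := by
          congr 1
          rw [← Real.rpow_natCast, ← Real.rpow_mul hpos.le]
          congr 1
          rw [Nat.cast_mul, Nat.cast_sub hd1]
          push_cast
          ring
  · intro i
    have h7 := ((h5 k₀).2 i).2.2
    change ‖a i (φ k₀ u)‖ ≤ A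
    rw [← (h5 k₀).1 hu0'] at h7
    exact h7.le.trans (hAA i)
  · intro k i
    change ‖a i (φ k u) - a i (φ k₀ u)‖ ≤ _
    rw [hval, hval]
    have h7 : β i (bl w) + w 0 * g i (rot (η k) u) - (β i (bl w) + w 0 * g i (rot (η k₀) u)) =
        w 0 * ((g i (rot (η k) u) - g i (rot 0 u)) - (g i (rot (η k₀) u) - g i (rot 0 u))) := by
      ring
    rw [h7, norm_mul]
    have h8 := (norm_sub_le (g i (rot (η k) u) - g i (rot 0 u))
      (g i (rot (η k₀) u) - g i (rot 0 u))).trans (add_le_add (hlip k i) (hlip k₀ i))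
    calc ‖w 0‖ * ‖(g i (rot (η k) u) - g i (rot 0 u)) - (g i (rot (η k₀) u) - g i (rot 0 u))‖ ≤
          ‖w 0‖ * (B * ‖u 0‖ + B * ‖u 0‖) := by gcongr
      _ = _ := by ring

end Vale.Agent.P277.H371
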