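import Vale.Agent.P277.H371.Ram

/-!
# P277: if all wedges centred in `S` lift with positive order of the frame, then good coverings have
one sheet
-/

open scoped Manifold ContDiff ComplexOrder Topology
open Vale.Agent.P272.K Vale.Agent.P285.H281.FD Vale.Agent.P267.H175 Set Metric Filter

noncomputable section

namespace Vale.Agent.P277.H371

open Vale.Agent.P277.TX Vale.Agent.P277.H19

section
variable {Y : Type} [TopologicalSpace Y] [ChartedSpace (Cm 4) Y] {X : CSp} {O : Set Y}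
  {v : Y → X.pt} {L : Bd X.pt} {M : Bd Y} {m Q : ℕ}
  {T : L.ι → ((((Bd.can 4 Y).pow m).mul M).pow Q).ι → Y → ℂ}

/-- the wedge `φ` has a lift at `w₁` along which the frame vanishes -/
def HasLiftF (O : Set Y) (v : Y → X.pt) (L : Bd X.pt) (M : Bd Y) (m Q : ℕ)
    (T : L.ι → ((((Bd.can 4 Y).pow m).mul M).pow Q).ι → Y → ℂ) (φ : Cm 4 → X.pt)
    (w₁ : Cm 4) : Prop :=
  ∃ (γ : Cm 4 → Y) (e : Chart 4 Y) (μ : M.ι) (i : L.ι) (F : Cm 4 → ℂ) (K : ℕ), 1 ≤ K ∧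
    ContinuousAt γ w₁ ∧ At e (γ w₁) ∧ γ w₁ ∈ M.U μ ∧ AnalyticAt ℂ (fun w => e (γ w)) w₁ ∧
    (∀ᶠ w in 𝓝 w₁, φ w ∈ v '' O → γ w ∈ O ∧ v (γ w) = φ w) ∧ φ w₁ ∈ L.U i ∧
    AnalyticAt ℂ F w₁ ∧ (∀ᶠ w in 𝓝 w₁, γ w ∈ O → F w = T i (e, μ) (γ w) ^ K) ∧
    ∀ᶠ w in 𝓝 w₁, w 0 = 0 → F w = 0

theorem HasLiftF.eventually (hM : IsLB 4 M) (hL : IsLBx X L) {φ : Cm 4 → X.pt} {w₁ : Cm 4}
    (hφ : ContinuousAt φ w₁) (h : HasLiftF O v L M m Q T φ w₁) :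
    ∀ᶠ w in 𝓝 w₁, HasLiftF O v L M m Q T φ w := by
  obtain ⟨γ, e, μ, i, F, K, hK, h1, h2, h3, h4, h5, h6, h7, h8, h9⟩ := h
  have c1 : ∀ᶠ w in 𝓝 w₁, At e (γ w) := by
    filter_upwards [h1.eventually_mem (e.open_source.mem_nhds h2.2)] with w hw
    exact ⟨h2.1, hw⟩
  filter_upwards [c1.eventually_nhds, h1.eventually_mem ((hM.isOpen μ).mem_nhds h3),
    h4.eventually_analyticAt, h5.eventually_nhds, hφ.eventually_mem ((hL.isOpen i).mem_nhds h6),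
    h7.eventually_analyticAt, h8.eventually_nhds, h9.eventually_nhds]
    with w d1 d2 d3 d4 d5 d6 d7 d8
  exact ⟨γ, e, μ, i, F, K, hK, continuousAt_of_chart d1 d3.continuousAt, d1.self_of_nhds, d2, d3,
    d4, d5, d6, d7, d8⟩

theorem HasLiftF.nlift (hM : IsLB 4 M) (hL : IsLBx X L)
    (hT : IsIsoY O v L ((((Bd.can 4 Y).pow m).mul M).pow Q) T) {φ : Cm 4 → X.pt} {w₁ : Cm 4}
    (hφ : HolAt X φ w₁) (h : HasLiftF O v L M m Q T φ w₁) {i₀ : L.ι} (hi₀ : φ w₁ ∈ L.U i₀) :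
    ∃ K₀ : ℕ, 1 ≤ K₀ ∧ ∀ K : ℕ, 1 ≤ K → K₀ ∣ K → ∃ (γ : Cm 4 → Y) (e : Chart 4 Y) (μ : M.ι)
      (F : Cm 4 → ℂ), NLift O v L M m Q T i₀ K φ w₁ γ e μ F ∧
        ∀ᶠ w in 𝓝 w₁, w 0 = 0 → F w = 0 := by
  obtain ⟨γ, e, μ, i, F, K₀, hK₀, h1, h2, h3, h4, h5, h6, h7, h8, h9⟩ := h
  refine ⟨K₀, hK₀, ?_⟩
  rintro K hK ⟨a, rfl⟩
  have ha : a ≠ 0 := by
    rintro rfl
    omega
  refine ⟨γ, e, μ, fun w => L.g i i₀ (φ w) ^ (K₀ * a) * F w ^ a,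
    ⟨h1, h2, h3, h4, h5, ?_, ?_⟩, ?_⟩
  · exact ((hφ.analyticAt (hL.holo i i₀ _ h6 hi₀)).pow _).mul (h7.pow a)
  · have c1 : ∀ᶠ w in 𝓝 w₁, At e (γ w) := by
      filter_upwards [h1.eventually_mem (e.open_source.mem_nhds h2.2)] with w hw
      exact ⟨h2.1, hw⟩
    filter_upwards [c1, h1.eventually_mem ((hM.isOpen μ).mem_nhds h3), h5, h8,
      hφ.1.eventually_mem ((hL.isOpen i).mem_nhds h6),
      hφ.1.eventually_mem ((hL.isOpen i₀).mem_nhds hi₀)] with w d1 d2 d3 d4 d5 d6 hw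
    obtain ⟨g1, g2⟩ := d3 hw
    have h11 := isoY_frame hL hT g1 (i := i) (i₀ := i₀) (by rw [g2]; exact d5)
      (by rw [g2]; exact d6) d1 d2
    rw [d4 g1, h11, g2, mul_pow, ← pow_mul]
  · filter_upwards [h9] with w hw h0
    rw [hw h0, zero_pow ha, mul_zero]

end

section
variable {Y : Type} [TopologicalSpace Y] [T2Space Y] [CompactSpace Y] [ChartedSpace (Cm 4) Y]
  [IsManifold 𝓘(ℂ, Cm 4) ω Y] {X : CSp} {S V : Set X.pt} {G : X.pt → Cm 4} {c : Cm 4} {r : ℝ}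
  {d : ℕ} {lam : X.pt → ℂ} {θ : Cm 4 → ℂ} {O : Set Y}
  {v : Y → X.pt} {L : Bd X.pt} {M : Bd Y} {m Q : ℕ}
  {T : L.ι → ((((Bd.can 4 Y).pow m).mul M).pow Q).ι → Y → ℂ}
  {χ : Chart 4 Y → Cm 4 → Matrix (Fin 4) (Fin 4) ℂ}

theorem sharp (hALG : StAlg) (hRES : StCovRes) (hDET : StDet)
    (hTHIN : StThin) (hBR : StBr) (hPUSH : StPush) (hCORE : StCoreX) (hX : IsNormal 4 X)
    (hχ : IsKahler χ) (hM : IsLB 4 M) (hNef : Nef χ M) (hm : 1 ≤ m) (hv : IsOpenEmb X O v)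
    (hO : DimLe X 2 (v '' O)ᶜ) (hSan : IsAn X univ S) (hS2 : DimLe X 2 S)
    (hL : IsLBx X L) (hQ : 1 ≤ Q)
    (hT : IsIsoY O v L ((((Bd.can 4 Y).pow m).mul M).pow Q) T)
    (hg : IsGood X S V G c r d lam θ) {n : ℕ} {ζ : Fin n → X.pt → ℂ} (hζ : IsCoord X V ζ)
    (hlifts : ∀ (W : Set (Cm 4)) (w₀ : Cm 4) (φ : Cm 4 → X.pt), IsOpen W → w₀ ∈ W → w₀ 0 = 0 →
      (∀ w ∈ W, HolAt X φ w) → (∀ w ∈ W, w 0 = 0 → φ w ∈ S) →
      W ⊆ closure {w | w ∈ W ∧ φ w ∈ v '' O} → (∀ w ∈ W, φ w ∈ V) →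
      ∃ w₁ ∈ W, w₁ 0 = 0 ∧ HasLiftF O v L M m Q T φ w₁) : d = 1 := by
  obtain ⟨r₁, a, b, hr₁, hr₁r, ha, hb, hbne, hgen⟩ :=
    hALG X hX S hSan hS2 V G c r d lam θ hg n ζ hζ
  -- a common radius
  let fam : (Σ l : Fin d, (Fin (l : ℕ) → Fin n)) ⊕ Fin d → X.pt → ℂ := fun i =>
    i.elim (fun p x => ∏ t, ζ (p.2 t) x) (fun l x => lam x ^ (l : ℕ))
  have hfam : ∀ i, ∀ x ∈ V, X.Hol (fam i) x := by
    rintro (p | l) x hx
    · exact hol_prod _ fun t _ => hζ.hol _ x hx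
    · exact hol_pow (hg.lamHol x hx) _
  obtain ⟨r₂, hr₂, hr₂₁, hgen₂⟩ := exists_radius (p := fun i ρ =>
      Gen {x | x ∈ V ∧ G x ∈ ball c ρ} G c ρ a b (fam i)) (fun i => by
        obtain ⟨ρ, hρ, -, f, hf1, hf2⟩ := hgen (fam i) (hfam i)
        exact ⟨ρ, hρ, f, hf1, fun x hx => hf2 x hx.1 hx.2⟩)
    (fun i ρ ρ' _ hρ' h => h.mono (fun x hx => ⟨hx.1, ball_subset_ball hρ' hx.2⟩)
      (ball_subset_ball hρ')) hr₁
  have hsub₂ : ball c r₂ ⊆ ball c r := ball_subset_ball (hr₂₁.trans hr₁r)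
  set V₂ : Set X.pt := {x | x ∈ V ∧ G x ∈ ball c r₂} with hV₂
  have hg₂ : IsGood X S V₂ G c r₂ d lam θ := IsGood.restrict hRES hg hr₂ hsub₂ hg.c0 hg.c1
  have hthin := hTHIN Y X O v hv hO V₂ G c r₂ d lam θ hg₂.toIsCov
  obtain ⟨z, hz, hz0, hz1, hbz⟩ := hbne r₂ hr₂
  obtain ⟨w₀, m', Φ, hw₀0, hw₀, hbw₀, hbaw₀, hΦ, hΦ0, hΦe⟩ :=
    exists_base hg₂.toIsCov hz hz0 hz1 (hb z (ball_subset_ball hr₂₁ hz)) hbz
  obtain ⟨N, s, ε, φ, hN, hε, hε1, hs, hφ, hE, hcases⟩ :=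
    stPuiS X V₂ G c r₂ d lam θ hg₂.toIsCov w₀ hw₀0 hw₀ m' Φ hΦ hΦ0 hΦe
  have hφ' : ∀ k, ∀ w ∈ ball w₀ ε, HolAt X (φ k) w ∧ φ k w ∈ V₂ ∧ G (φ k w) = pw (s k) w := hφ
  -- the set `W₀`
  have hW₀ : ∀ᶠ w in 𝓝 w₀, w ∈ ball w₀ ε ∧ bl w ∈ ball c r₂ ∧ b (bl w) ≠ 0 ∧ Φ w ≠ 0 ∧
      θ (bl w) = w 0 ^ m' * Φ w := by
    filter_upwards [ball_mem_nhds w₀ hε, continuous_bl.continuousAt.eventually
      (isOpen_ball.mem_nhds hw₀), continuous_bl.continuousAt.eventually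
      (hbaw₀.continuousAt.eventually_ne hbw₀), hΦ.continuousAt.eventually_ne hΦ0, hΦe]
      with w h1 h2 h3 h4 h5
    exact ⟨h1, h2, h3, h4, h5⟩
  obtain ⟨W₀, hW₀s, hW₀o, hw₀W₀⟩ := _root_.mem_nhds_iff.1 hW₀
  have hex : ∀ k, ∀ W' ⊆ W₀, IsOpen W' → ∀ w' ∈ W', w' 0 = 0 →
      ∃ w₁ ∈ W', w₁ 0 = 0 ∧ HasLiftF O v L M m Q T (φ k) w₁ := by
    intro k W' hW' hW'o w' hw' hw'0
    have hb' : ∀ w ∈ W', w ∈ ball w₀ ε := fun w hw => (hW₀s (hW' hw)).1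
    refine hlifts W' w' (φ k) hW'o hw' hw'0 (fun w hw => (hφ' k w (hb' w hw)).1)
      (fun w hw h0 => ?_) ?_ (fun w hw => (hφ' k w (hb' w hw)).2.1.1)
    · obtain ⟨-, g2, g3⟩ := hφ' k w (hb' w hw)
      rw [hg₂.memS _ g2, g3, pw_zero (hs k).1 h0]
      exact bl_zero h0
    · exact wedge_closure hg₂.maps hthin hW'o (hs k).1 fun w hw => (hφ' k w (hb' w hw)).2
  obtain ⟨w₁, hw₁W, hw₁0, hw₁L⟩ := exists_common (P := fun k w => HasLiftF O v L M m Q T (φ k) w)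
    (fun k w hw h => h.eventually hM hL (hφ' k w (hW₀s hw).1).1.1) hex Finset.univ W₀ Subset.rfl
    hW₀o w₀ hw₀W₀ hw₀0
  have hw₁b := (hW₀s hw₁W).1
  have hbl₁ := (hW₀s hw₁W).2.1
  -- the point of `S` over `bl w₁`
  set k₀ : Fin d := ⟨0, hg.dpos⟩ with hk₀
  have hφG : ∀ k, G (φ k w₁) = bl w₁ := fun k => by
    rw [(hφ' k w₁ hw₁b).2.2, pw_zero (hs k).1 hw₁0]
  have hφV : ∀ k, φ k w₁ ∈ V₂ := fun k => (hφ' k w₁ hw₁b).2.1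
  have hpS : φ k₀ w₁ ∈ S := by
    rw [hg₂.memS _ (hφV k₀), hφG]
    exact bl_zero hw₁0
  have huniq : ∀ y ∈ V₂, G y = bl w₁ → y = φ k₀ w₁ := fun y hy hyG =>
    hg₂.uniq _ (hφV k₀) hpS y hy (by rw [hyG, hφG])
  obtain ⟨i₀, hi₀⟩ := hL.cover (φ k₀ w₁)
  have hi₀' : ∀ k, φ k w₁ ∈ L.U i₀ := fun k => by
    rw [huniq _ (hφV k) (hφG k)]; exact hi₀
  choose K₀ hK₀ hK₀' using fun k => (hw₁L k (Finset.mem_univ k)).nlift hM hL hT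
    (hφ' k w₁ hw₁b).1 (hi₀' k)
  set K : ℕ := ∏ k, K₀ k with hK
  have hK1 : 1 ≤ K := Finset.one_le_prod' fun k _ => hK₀ k
  choose γ e μ F hlift hzF using fun k => hK₀' k K hK1
    (Finset.dvd_prod_of_mem K₀ (Finset.mem_univ k))
  -- the small ball
  have hsmall : ∀ᶠ z in 𝓝 (bl w₁), z ∈ ball c r₂ ∧ b z ≠ 0 ∧ ∀ x ∈ V₂, G x = z → x ∈ L.U i₀ := by
    filter_upwards [isOpen_ball.mem_nhds hbl₁,
      (hb _ (ball_subset_ball hr₂₁ hbl₁)).continuousAt.eventually_ne (hW₀s hw₁W).2.2.1,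
      cov_eventually hg₂.toIsCov hbl₁ (W := L.U i₀) fun x hx hxG => by
        rw [huniq x hx hxG]; exact (hL.isOpen i₀).mem_nhds hi₀] with z h1 h2 h3
    exact ⟨h1, h2, h3⟩
  obtain ⟨r₃, hr₃, hball₃⟩ := Metric.eventually_nhds_iff_ball.1 hsmall
  have hsub₃ : ball (bl w₁) r₃ ⊆ ball c r₂ := fun z hz => (hball₃ z hz).1
  have hg₃ : IsGood X S {x | x ∈ V₂ ∧ G x ∈ ball (bl w₁) r₃} G (bl w₁) r₃ d lam θ :=
    IsGood.restrict hRES hg₂ hr₃ hsub₃ (bl_zero hw₁0).1 (bl_zero hw₁0).2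
  set V₃ : Set X.pt := {x | x ∈ V₂ ∧ G x ∈ ball (bl w₁) r₃} with hV₃
  have hVL : V₃ ⊆ L.U i₀ := fun x hx => (hball₃ _ hx.2).2.2 x hx.1 rfl
  have ha₃ : ∀ i, ∀ x ∈ V₃, X.Hol (a i) x := fun i x hx =>
    ha i x hx.1.1 (ball_subset_ball hr₂₁ hx.1.2)
  obtain ⟨κ, hκa, hκ⟩ := hDET X V₃ G (bl w₁) r₃ d lam θ hg₃.toIsCov a ha₃
  have hζ₃ : IsCoord X V₃ ζ := hζ.mono hg₃.isOpen fun x hx => hx.1.1
  have hgen₃ : ∀ i, Gen V₃ G (bl w₁) r₃ a b (fam i) := fun i =>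
    (hgen₂ i).mono (fun x hx => hx.1) hsub₃
  have hpwc : ∀ s : ℕ, 1 ≤ s → ∀ᶠ w in 𝓝 w₁, pw s w ∈ ball (bl w₁) r₃ := by
    intro s hs
    refine (analyticAt_pw s w₁).continuousAt.eventually_mem ?_
    rw [pw_zero hs hw₁0]
    exact ball_mem_nhds _ hr₃
  have hballw : ∀ᶠ w in 𝓝 w₁, w ∈ ball w₀ ε := isOpen_ball.mem_nhds hw₁b
  have hE₃ : ∀ᶠ w in 𝓝 w₁, w 0 ≠ 0 → Enum V₃ G ![w 0 ^ N, w 1 * w 0 ^ N, w 2, w 3]
      (fun k => φ k ![w 0 ^ (N / s k), w 1, w 2, w 3]) := by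
    filter_upwards [hballw, hpwc N hN] with w h1 h2 hw0
    exact Enum.restrict (hE w h1 hw0) h2
  have hφ₃ : ∀ k, ∀ᶠ w in 𝓝 w₁, HolAt X (φ k) w ∧ φ k w ∈ V₃ ∧ G (φ k w) = pw (s k) w := by
    intro k
    filter_upwards [hballw, hpwc (s k) (hs k).1] with w h1 h2
    obtain ⟨g1, g2, g3⟩ := hφ' k w h1
    exact ⟨g1, ⟨g2, by rw [g3]; exact h2⟩, g3⟩
  set A : ℝ := ((m * Q * K : ℕ) : ℝ) with hAdef
  have hA1 : 1 ≤ m * Q * K := Nat.one_le_iff_ne_zero.2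
    (by positivity)
  have hA0 : 0 ≤ A := Nat.cast_nonneg _
  have hd : (1 : ℝ) ≤ d := by exact_mod_cast hg.dpos
  have key : ∀ p : ℝ, (∃ C : ℝ, 0 < C ∧ ∀ᶠ w in 𝓝 w₁, w 0 ≠ 0 → θ (bl w) ≠ 0 →
      ‖κ (bl w)‖ ≤ C * ‖w 0‖ ^ p) →
      (2 + 2 * A) * (∑ k, 1 / (s k : ℝ)) - 4 * A * d + 2 * A * p ≤ 0 := by
    intro p hp
    have key := contra (r := r₃) (c := bl w₁) (V := V₃) (G := G) (lam := lam) (θ := θ) (b := b)
      (κ := κ) (a := a) (ζ := ζ) (χ := χ) (N := N) (s := s) (φ := φ) (w₁ := w₁) (γ := γ) (e := e)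
      (μ := μ) (F := F) (α := fun _ => 1) (j := fun _ => 0) (K := K) (p := p)
      hTHIN hBR hPUSH hCORE hχ hM hNef hv hO hg₃.toIsCov hζ₃
      (fun z hz => ⟨(hb z (ball_subset_ball hr₂₁ (hsub₃ hz))).continuousAt, (hball₃ z hz).2.1⟩)
      (fun l => hgen₃ (Sum.inr l)) (fun l f => hgen₃ (Sum.inl ⟨l, f⟩)) hκa hκ hL hT hVL hA1 hw₁0
      (mem_ball_self hr₃) ?_ hN (fun k => ⟨(hs k).1, (hs k).2.2⟩)
      (fun k => (hφ₃ k).mono fun w hw => ⟨hw.1.1, hw.2⟩) hE₃ hlift ?_ ?_ hp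
    · refine le_trans (le_of_eq ?_) key
      have h1 : ∀ k : Fin d,
          (2 * ((1 : ℕ) : ℝ) + 2 * A * (((0 : ℕ) : ℝ) + 1 - 2 * s k)) / s k =
          (2 + 2 * A) * (1 / (s k : ℝ)) - 4 * A := by
        intro k
        have hsk : (s k : ℝ) ≠ 0 := by exact_mod_cast (Nat.one_le_iff_ne_zero.1 (hs k).1)
        field_simp
        push_cast
        ring
      rw [Finset.sum_congr rfl fun k _ => h1 k, Finset.sum_sub_distrib, ← Finset.mul_sum,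
        Finset.sum_const, Finset.card_univ, Fintype.card_fin, nsmul_eq_mul]
      ring
    · filter_upwards [hW₀o.mem_nhds hw₁W] with w hw hw0
      rw [(hW₀s hw).2.2.2.2]
      exact mul_ne_zero (pow_ne_zero _ hw0) (hW₀s hw).2.2.2.1
    · intro k
      obtain ⟨F₁, hF₁, hFF₁⟩ := exists_div (hlift k).anF hw₁0 (hzF k)
      refine ⟨‖F₁ w₁‖ + 1, ?_⟩
      filter_upwards [hFF₁, hF₁.continuousAt.norm.eventually_lt_const (lt_add_one _)] with w h1 h2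
      rw [h1, norm_mul, pow_one, mul_comm]
      exact mul_le_mul_of_nonneg_right h2.le (norm_nonneg _)
    · intro k
      refine ⟨‖(fderiv ℂ (fun w => e k (γ k w)) w₁).det‖ + 1, ?_⟩
      filter_upwards [(analyticAt_det (hlift k).an).continuousAt.norm.eventually_lt_const
        (lt_add_one _)] with w h1
      rw [pow_zero, mul_one]
      exact h1.le
  by_contra hd1
  have hd2 : (2 : ℝ) ≤ d := by
    have h1 := hg.dpos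
    exact_mod_cast (by omega : 2 ≤ d)
  rcases hcases with h2 | hrot
  · -- at least two cycles
    obtain ⟨Cκ, hCκ0, hCκ⟩ := kappa_le hg₃ ha₃ hκ hw₁0 (mem_ball_self hr₃)
    have h3 := key ((2 * (d - 1) : ℕ) : ℝ) ⟨Cκ, hCκ0, by
      filter_upwards [hCκ] with w h1 _ h3
      rw [Real.rpow_natCast]
      exact h1 h3⟩
    have h4 : ((2 * (d - 1) : ℕ) : ℝ) = 2 * ((d : ℝ) - 1) := by
      rw [Nat.cast_mul, Nat.cast_sub hg.dpos]; push_cast; ring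
    rw [h4] at h3
    have h5 : (2 + 2 * A) * 2 ≤ (2 + 2 * A) * ∑ k, 1 / (s k : ℝ) :=
      mul_le_mul_of_nonneg_left h2 (by positivity)
    nlinarith
  · -- all sheets are rotations of each other
    have hsd : ∀ k, s k = d := fun k => (hrot k k).1
    choose η hη1 hη2 using fun k => (hrot k k₀).2
    have hram := kappa_le_ram (φ := φ) (η := η) (k₀ := k₀) (N := N) hg₃ ha₃ hκ hw₁0
      (mem_ball_self hr₃) hN (by rw [← hsd k₀]; exact (hs k₀).2.2)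
      (fun k => (hφ₃ k).mono fun w hw => by rw [hsd] at hw; exact hw)
      (by simp only [hsd] at hE₃; exact hE₃) hη1
      (fun k => hballw.mono fun w hw hw0 => hη2 k w hw hw0)
    have h3 := key _ hram
    have h4 : ∑ k, 1 / (s k : ℝ) = 1 := by
      rw [Finset.sum_congr rfl (g := fun _ => 1 / (d : ℝ)) fun k _ => by rw [hsd k],
        Finset.sum_const, Finset.card_univ, Fintype.card_fin, nsmul_eq_mul]
      field_simp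
    have h5 : 2 * A * (2 * ((d : ℝ) - 1) * (1 + 1 / d)) = 4 * A * d - 4 * A * (1 / d) := by
      field_simp
      ring
    rw [h4, h5] at h3
    have h6 : 1 / (d : ℝ) ≤ 1 / 2 := one_div_le_one_div_of_le (by norm_num) hd2
    have h7 : 4 * A * (1 / d) ≤ 4 * A * (1 / 2) :=
      mul_le_mul_of_nonneg_left h6 (by positivity)
    linarith

end

end Vale.Agent.P277.H371
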