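import Vale.Agent.P277.H335.COV5

/-!
# P277, REG: regular points of a branched covering
-/

open scoped Manifold ContDiff Topology
open Vale.Agent.P272.K Vale.Agent.P285.H281.FD Set Metric Filter

noncomputable section

namespace Vale.Agent.P277.H371

open Vale.Agent.P277.TX Vale.Agent.P277.H335

/-- a point near which `G` is a local isomorphism with an open subset of `ℂ⁴` is regular -/
theorem isReg_of_sec {X : CSp} {V : Set X.pt} {G : X.pt → Cm 4}
    (hG : ∀ x ∈ V, ∀ i, X.Hol (fun y => G y i) x) {x : X.pt} (h : Sec X V G x) : IsReg 4 X x := by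
  obtain ⟨N, s, hN, hxN, hNV, hGN, hs⟩ := h
  refine ⟨N, G '' N, Fin.elim0, G, hxN, ⟨hN, hGN, fun i => i.elim0, ?_, ?_, ?_⟩⟩
  · ext z
    constructor
    · exact fun hz => ⟨hz, fun i => i.elim0⟩
    · exact fun hz => hz.1
  · have hcont : ContinuousOn G N := fun y hy =>
      (continuousAt_pi.2 fun i => hol_continuousAt (hG y (hNV hy) i)).continuousWithinAt
    refine ⟨?_, injOn_iff_injective.1 (Sec.injOn hs)⟩
    refine Topology.isInducing_iff_nhds.2 fun y => ?_
    refine le_antisymm ?_ ?_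
    · exact (continuousOn_iff_continuous_domRestrict.1 hcont).continuousAt.le_comap
    · intro t ht
      rw [nhds_subtype, mem_comap] at ht
      obtain ⟨W, hW, hWt⟩ := ht
      obtain ⟨W', hW'W, hW', hyW'⟩ := _root_.mem_nhds_iff.1 hW
      rw [mem_comap]
      refine ⟨G '' (W' ∩ N), (Sec.image_open hGN hs (hW'.inter hN) inter_subset_right).mem_nhds
        ⟨y, ⟨hyW', y.2⟩, rfl⟩, ?_⟩
      rintro ⟨y', hy'⟩ ⟨y'', hy'', he⟩
      have h1 : y'' = y' := Sec.injOn hs hy''.2 hy' he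
      exact hWt (hW'W (h1 ▸ hy''.1))
  · intro y hy f
    exact Sec.hol_iff hG hN hNV hs hy f

/-- the derivative of the characteristic polynomial `P` of `h`, at `h` -/
def dP {X : CSp} (P : Cm 4 → Polynomial ℂ) (G : X.pt → Cm 4) (h : X.pt → ℂ) (x : X.pt) : ℂ :=
  (Polynomial.derivative (P (G x))).eval (h x)

section
variable {X : CSp} {V : Set X.pt} {G : X.pt → Cm 4} {c : Cm 4} {r : ℝ} {d : ℕ} {lam : X.pt → ℂ}
  {θ : Cm 4 → ℂ} {P : Cm 4 → Polynomial ℂ} {h : X.pt → ℂ}

theorem dP_hol (hc : IsCov X V G c r d lam θ) (hh : ∀ x ∈ V, X.Hol h x)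
    (hP : ∀ z ∈ ball c r, (P z).Monic ∧ (P z).natDegree = d ∧
      ∀ i, AnalyticAt ℂ (fun w => (P w).coeff i) z) {x : X.pt} (hx : x ∈ V) :
    X.Hol (dP P G h) x := by
  have h1 : X.Hol (fun y => ∑ i : Fin (d + 1), (P (G y)).coeff ((i : ℕ) + 1) * (((i : ℕ) : ℂ) + 1) *
      h y ^ (i : ℕ)) x := by
    refine hol_sum _ fun i _ => hol_mul (hol_mul ?_ (hol_const _ _)) (hol_pow (hh x hx) _)
    have h2 := hol_comp (ι := Fin 4) (f := fun i y => G y i)
      (G := fun w => (P w).coeff ((i : ℕ) + 1)) (fun i => hc.holo x hx i)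
      ((hP _ (hc.maps x hx)).2.2 _)
    exact h2
  refine hol_congr h1 ?_
  filter_upwards [hc.isOpen.mem_nhds hx] with y hy
  have h3 : (Polynomial.derivative (P (G y))).natDegree < d + 1 := by
    have := Polynomial.natDegree_derivative_le (P (G y))
    have h4 := (hP _ (hc.maps y hy)).2.1
    omega
  rw [dP, Polynomial.eval_eq_sum_range' h3, ← Fin.sum_univ_eq_sum_range (fun i =>
    (Polynomial.derivative (P (G y))).coeff i * h y ^ i) (d + 1)]
  refine Finset.sum_congr rfl fun i _ => ?_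
  rw [Polynomial.coeff_derivative]

theorem dP_prod (hPe : ∀ z ∈ ball c r, θ z ≠ 0 → ∀ x : Fin d → X.pt, Enum V G z x →
      P z = ∏ k, (Polynomial.X - Polynomial.C (h (x k)))) {z : Cm 4} (hz : z ∈ ball c r)
    (hz0 : θ z ≠ 0) {x : Fin d → X.pt} (hx : Enum V G z x) (k : Fin d) :
    dP P G h (x k) = ∏ l ∈ Finset.univ.erase k, (h (x k) - h (x l)) := by
  have h1 := ((hx.2 (x k)).1 ⟨k, rfl⟩).2
  rw [dP, h1, hPe z hz hz0 x hx, Polynomial.derivative_prod_finset, Polynomial.eval_finsetSum,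
    Finset.sum_eq_single k]
  · simp [Polynomial.eval_mul, Polynomial.eval_prod]
  · intro b _ hb
    rw [Polynomial.eval_mul, Polynomial.eval_prod]
    have h2 : k ∈ Finset.univ.erase b := Finset.mem_erase.2 ⟨hb.symm, Finset.mem_univ _⟩
    rw [Finset.prod_eq_zero h2 (by simp), zero_mul]
  · intro hk
    exact absurd (Finset.mem_univ k) hk

/-- a point of the covering where the derivative of the characteristic polynomial does not vanish
is regular -/
theorem isReg_of_dP (hc : IsCov X V G c r d lam θ) {n : ℕ} {ζ : Fin n → X.pt → ℂ}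
    (hζ : IsCoord X V ζ) (hh : ∀ x ∈ V, X.Hol h x)
    (hP : ∀ z ∈ ball c r, (P z).Monic ∧ (P z).natDegree = d ∧
      ∀ i, AnalyticAt ℂ (fun w => (P w).coeff i) z)
    (hPe : ∀ z ∈ ball c r, θ z ≠ 0 → ∀ x : Fin d → X.pt, Enum V G z x →
      P z = ∏ k, (Polynomial.X - Polynomial.C (h (x k)))) {x : X.pt} (hx : x ∈ V)
    (hD : dP P G h x ≠ 0) : IsReg 4 X x := by
  have hB := IsCov.toBase hc
  have hz := hc.maps x hx
  -- a bound for `h`
  obtain ⟨ρ, hρ, hρb⟩ : ∃ ρ > 0, closedBall (G x) ρ ⊆ ball c r := by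
    obtain ⟨ρ, hρ, h1⟩ := Metric.isOpen_iff.1 isOpen_ball _ hz
    exact ⟨ρ / 2, by positivity, (closedBall_subset_ball (by linarith)).trans h1⟩
  have hK : IsCompact {y | y ∈ V ∧ G y ∈ closedBall (G x) ρ} :=
    hB.compact (isCompact_closedBall _ ρ) hρb
  obtain ⟨C, hC⟩ := hK.exists_bound_of_continuousOn (f := h) fun y hy =>
    (hol_continuousAt (hh y hy.1)).continuousWithinAt
  set B : ℝ := max 1 (2 * C) with hB'
  have hB1 : 1 ≤ B := le_max_left _ _
  have hBpos : 0 < B := by linarith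
  set ε : ℝ := ‖dP P G h x‖ / 2 with hε
  have hε0 : 0 < ε := by
    have := norm_pos_iff.2 hD
    positivity
  -- the neighbourhood
  have hA : ∀ᶠ y in 𝓝 x, y ∈ V ∧ G y ∈ ball (G x) ρ ∧ ε < ‖dP P G h y‖ ∧
      ‖h y - h x‖ < ε / (2 * B ^ d) := by
    have hpos : 0 < ε / (2 * B ^ d) := by positivity
    have h1 : ∀ᶠ y in 𝓝 x, ε < ‖dP P G h y‖ :=
      (hol_continuousAt (dP_hol hc hh hP hx)).norm.eventually_const_lt (by
        show ‖dP P G h x‖ / 2 < ‖dP P G h x‖
        have := norm_pos_iff.2 hD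
        linarith)
    have h2 : ∀ᶠ y in 𝓝 x, ‖h y - h x‖ < ε / (2 * B ^ d) := by
      have h3 := (hol_continuousAt (hh x hx)).eventually (ball_mem_nhds (h x) hpos)
      filter_upwards [h3] with y hy
      rwa [dist_eq_norm] at hy
    filter_upwards [hc.isOpen.mem_nhds hx,
      (hB.contAt hx).eventually (ball_mem_nhds (G x) hρ), h1, h2] with y a b c' d'
    exact ⟨a, b, c', d'⟩
  obtain ⟨A, hAs, hAo, hxA⟩ := _root_.mem_nhds_iff.1 hA
  -- injectivity over the unbranched part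
  have hinj : ∀ y ∈ A, ∀ y' ∈ A, G y = G y' → θ (G y) ≠ 0 → y = y' := by
    intro y hy y' hy' hyy hθ
    by_contra hne
    have hyV := (hAs hy).1
    obtain ⟨x', hx'⟩ := hc.enum (G y) (hc.maps y hyV) hθ
    obtain ⟨k, hk⟩ := (hx'.2 y).2 ⟨hyV, rfl⟩
    obtain ⟨l, hl⟩ := (hx'.2 y').2 ⟨(hAs hy').1, hyy.symm⟩
    have hkl : l ≠ k := by
      rintro rfl
      exact hne (hk.symm.trans hl)
    have h1 := dP_prod hPe (hc.maps y hyV) hθ hx' k
    have hbd : ∀ l, ‖h (x' l)‖ ≤ C := fun l => by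
      have h2 := (hx'.2 (x' l)).1 ⟨l, rfl⟩
      exact hC _ ⟨h2.1, by rw [h2.2]; exact ball_subset_closedBall (hAs hy).2.1⟩
    have h3 : ‖h (x' k) - h (x' l)‖ ≤ ε / B ^ d := by
      rw [hk, hl]
      have e1 : h y - h y' = (h y - h x) - (h y' - h x) := by ring
      rw [e1]
      refine (norm_sub_le _ _).trans ?_
      have e2 := (hAs hy).2.2.2
      have e3 := (hAs hy').2.2.2
      have e4 : ε / B ^ d = ε / (2 * B ^ d) + ε / (2 * B ^ d) := by
        field_simp
        ring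
      rw [e4]
      linarith
    have h4 : ‖dP P G h (x' k)‖ ≤ ε := by
      rw [h1, norm_prod, ← Finset.mul_prod_erase (Finset.univ.erase k)
        (fun l => ‖h (x' k) - h (x' l)‖) (Finset.mem_erase.2 ⟨hkl, Finset.mem_univ _⟩)]
      have h5 : ∏ j ∈ (Finset.univ.erase k).erase l, ‖h (x' k) - h (x' j)‖ ≤ B ^ d := by
        have h6 : ∏ j ∈ (Finset.univ.erase k).erase l, ‖h (x' k) - h (x' j)‖ ≤
            ∏ _j ∈ (Finset.univ.erase k).erase l, B := by
          refine Finset.prod_le_prod (fun _ _ => norm_nonneg _) fun j _ => ?_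
          refine (norm_sub_le _ _).trans (le_trans ?_ (le_max_right _ _))
          have := hbd k
          have := hbd j
          linarith
        refine h6.trans ?_
        rw [Finset.prod_const]
        refine pow_le_pow_right₀ hB1 ?_
        refine (Finset.card_le_univ _).trans ?_
        simp
      calc ‖h (x' k) - h (x' l)‖ * ∏ j ∈ (Finset.univ.erase k).erase l, ‖h (x' k) - h (x' j)‖
          ≤ ε / B ^ d * B ^ d := by
            refine mul_le_mul h3 h5 (Finset.prod_nonneg fun _ _ => norm_nonneg _) (by positivity)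
        _ = ε := div_mul_cancel₀ _ (by positivity)
    have h7 := (hAs hy).2.2.1
    rw [hk] at h4
    linarith
  -- localisation
  obtain ⟨m, p, hpi, hp⟩ := exists_enum (hc.finite (G x) hz).1
  obtain ⟨k₀, hk₀⟩ := (hp x).2 ⟨hx, rfl⟩
  obtain ⟨r', V', d', hr', hb', hV', -, -, -⟩ := stCovLoc X V G c r d lam θ hc (G x) hz m p hpi hp
    (fun k => if k = k₀ then A else univ) (fun k => by
      split_ifs with hk
      · rw [hk, hk₀]
        exact hAo.mem_nhds hxA
      · exact univ_mem)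
  obtain ⟨hc', hpV', hsub, -⟩ := hV' k₀
  rw [if_pos rfl] at hsub
  rw [hk₀] at hpV'
  have hpre := IsCov.toPre hc'
  obtain ⟨s, hs1, hs2⟩ := hpre.sec_of_one (fun a ha b hb hab hθ =>
      hinj a (hsub ha).1 b (hsub hb).1 hab hθ) ⟨x, hpV'⟩
    (hζ.mono hc'.isOpen fun y hy => (hsub hy).2)
  refine isReg_of_sec hc'.holo (x := x) ⟨V' k₀, s, hc'.isOpen, hpV', Subset.rfl, ?_, fun y hy =>
    ⟨hs2 y hy, (hs1 _ (hc'.maps y hy)).2.2⟩⟩
  exact hc'.openMap _ Subset.rfl hc'.isOpen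

/-- at a point where `G` is a local isomorphism, and which is separated by `h` from the other points
of the fibre, the derivative of the characteristic polynomial of `h` does not vanish -/
theorem dP_ne_zero (hc : IsCov X V G c r d lam θ) (hh : ∀ x ∈ V, X.Hol h x)
    (hP : ∀ z ∈ ball c r, (P z).Monic ∧ (P z).natDegree = d ∧
      ∀ i, AnalyticAt ℂ (fun w => (P w).coeff i) z)
    (hPe : ∀ z ∈ ball c r, θ z ≠ 0 → ∀ x : Fin d → X.pt, Enum V G z x →
      P z = ∏ k, (Polynomial.X - Polynomial.C (h (x k)))) {x : X.pt} (hx : x ∈ V)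
    (hsec : Sec X V G x) (hsep : ∀ y ∈ V, G y = G x → y ≠ x → h y ≠ h x) : dP P G h x ≠ 0 := by
  have hB := IsCov.toBase hc
  have hz := hc.maps x hx
  obtain ⟨N, s, hN, hxN, hNV, hGN, hs⟩ := hsec
  obtain ⟨m, p, hpi, hp⟩ := exists_enum (hc.finite (G x) hz).1
  obtain ⟨k₀, hk₀⟩ := (hp x).2 ⟨hx, rfl⟩
  have hpV : ∀ k, p k ∈ V ∧ G (p k) = G x := fun k => (hp (p k)).1 ⟨k, rfl⟩
  -- the distance
  obtain ⟨δ, hδ, hδk⟩ : ∃ δ > 0, ∀ k, k ≠ k₀ → 3 * δ ≤ ‖h x - h (p k)‖ := by
    have h1 : ∀ k, ∃ δ > 0, k ≠ k₀ → 3 * δ ≤ ‖h x - h (p k)‖ := by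
      intro k
      by_cases hk : k = k₀
      · exact ⟨1, one_pos, fun h => (h hk).elim⟩
      · have h2 : h (p k) ≠ h x := hsep _ (hpV k).1 (hpV k).2 fun h3 => hk (hpi (h3.trans hk₀.symm))
        have h3 : 0 < ‖h x - h (p k)‖ := norm_pos_iff.2 (sub_ne_zero.2 h2.symm)
        exact ⟨‖h x - h (p k)‖ / 3, by positivity, fun _ => by linarith⟩
    choose δ hδ hδk using h1
    have hne : (Finset.univ : Finset (Fin m)).Nonempty := ⟨k₀, Finset.mem_univ _⟩
    refine ⟨Finset.univ.inf' hne δ, (Finset.lt_inf'_iff hne).2 fun k _ => hδ k, fun k hk => ?_⟩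
    have h2 := hδk k hk
    have h3 := Finset.inf'_le δ (Finset.mem_univ k)
    linarith
  obtain ⟨r', V', d', hr', hb', hV', -, hcov, -⟩ := stCovLoc X V G c r d lam θ hc (G x) hz m p hpi hp
    (fun k => if k = k₀ then N ∩ {y | ‖h y - h (p k)‖ < δ} else {y | ‖h y - h (p k)‖ < δ})
    (fun k => by
      have h1 : {y | ‖h y - h (p k)‖ < δ} ∈ 𝓝 (p k) := by
        have h3 := (hol_continuousAt (hh _ (hpV k).1)).eventually (ball_mem_nhds (h (p k)) hδ)
        filter_upwards [h3] with y hy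
        rwa [dist_eq_norm] at hy
      split_ifs with hk
      · refine inter_mem ?_ h1
        rw [hk, hk₀]
        exact hN.mem_nhds hxN
      · exact h1)
  obtain ⟨hc', hpV', hsub, -⟩ := hV' k₀
  rw [if_pos rfl] at hsub
  rw [hk₀] at hpV' hsub
  set μ : ℝ := min 1 δ with hμ
  have hμ0 : 0 < μ := lt_min one_pos hδ
  have hμ1 : μ ≤ 1 := min_le_left _ _
  -- the lower bound
  have hlow : ∀ y ∈ V' k₀, θ (G y) ≠ 0 → μ ^ d ≤ ‖dP P G h y‖ := by
    intro y hy hθ
    have hyV := (hsub hy).2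
    obtain ⟨x', hx'⟩ := hc.enum (G y) (hc.maps y hyV) hθ
    obtain ⟨k, hk⟩ := (hx'.2 y).2 ⟨hyV, rfl⟩
    have h1 := dP_prod hPe (hc.maps y hyV) hθ hx' k
    rw [hk] at h1
    rw [h1, norm_prod]
    have h2 : ∏ _l ∈ Finset.univ.erase k, μ ≤ ∏ l ∈ Finset.univ.erase k, ‖h y - h (x' l)‖ := by
      refine Finset.prod_le_prod (fun _ _ => hμ0.le) fun l hl => ?_
      have hl' := Finset.ne_of_mem_erase hl
      obtain ⟨hlV, hlG⟩ := (hx'.2 (x' l)).1 ⟨l, rfl⟩
      obtain ⟨j, hj⟩ := hcov (x' l) hlV (by rw [hlG]; exact hc'.maps y hy)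
      have hjk : j ≠ k₀ := by
        rintro rfl
        have h3 := (hsub hj).1.1
        have h4 : x' l = y := Sec.injOn hs h3 (hsub hy).1.1 hlG
        exact hl' (hx'.1 (h4.trans hk.symm))
      have h5 := ((hV' j).2.2.1 hj).1
      rw [if_neg hjk] at h5
      have h5' : ‖h (x' l) - h (p j)‖ < δ := h5
      have h6 : ‖h y - h x‖ < δ := (hsub hy).1.2
      have h7 := hδk j hjk
      refine (min_le_right _ _).trans ?_
      have e1 : h x - h (p j) = (h y - h (x' l)) + ((h (x' l) - h (p j)) - (h y - h x)) := by ring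
      rw [e1] at h7
      have h8 := norm_add_le (h y - h (x' l)) ((h (x' l) - h (p j)) - (h y - h x))
      have h9 := norm_sub_le (h (x' l) - h (p j)) (h y - h x)
      linarith
    refine le_trans ?_ h2
    rw [Finset.prod_const]
    refine pow_le_pow_of_le_one hμ0.le hμ1 ?_
    refine (Finset.card_le_univ _).trans ?_
    simp
  have hcl : x ∈ closure {y | y ∈ V' k₀ ∧ θ (G y) ≠ 0} := by
    rw [_root_.mem_closure_iff]
    intro W hW hxW
    obtain ⟨y, hy, hyθ⟩ := (IsCov.toPre hc').dense (W ∩ V' k₀) inter_subset_right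
      (hW.inter hc'.isOpen) ⟨x, hxW, hpV'⟩
    exact ⟨y, hy.1, hy.2, hyθ⟩
  have hcont := (hol_continuousAt (dP_hol hc hh hP hx)).norm
  have h1 : μ ^ d ≤ ‖dP P G h x‖ := by
    have h2 : (𝓝[{y | y ∈ V' k₀ ∧ θ (G y) ≠ 0}] x).NeBot := mem_closure_iff_nhdsWithin_neBot.1 hcl
    refine ge_of_tendsto (hcont.mono_left (nhdsWithin_le_nhds
      (s := {y | y ∈ V' k₀ ∧ θ (G y) ≠ 0}))) ?_
    filter_upwards [self_mem_nhdsWithin] with y hy
    exact hlow y hy.1 hy.2
  intro h0
  rw [h0, norm_zero] at h1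
  exact absurd h1 (not_le.2 (by positivity))

end

end Vale.Agent.P277.H371
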