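import Vale.Agent.P277.H371.Sing1
import Vale.Agent.P277.H884.Min5
import Vale.Agent.P277.H619.Reg

/-!
# P277, REG: generic projections
-/

open scoped Manifold ContDiff Topology
open Vale.Agent.P272.K Vale.Agent.P285.H281.FD Set Metric Filter

noncomputable section

namespace Vale.Agent.P277.H371

open Vale.Agent.P277.TX Vale.Agent.P277.H335
open Vale.Agent.P277.H619 (dfr)

/-- generic linear combinations of the coordinates: countable fibre through `p`, and independent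
differentials at countably many points -/
theorem exists_generic {X : CSp} {U : Set X.pt} {N : ℕ} {ζ : Fin N → X.pt → ℂ}
    (hζ : IsCoord X U ζ) {p : X.pt} (hp : p ∈ U) (hU4 : DimLe X 4 U) (hN : N ≠ 0) {ι : Type}
    [Countable ι] (Λ : ι → Fin N → (Cm 4 →L[ℂ] ℂ))
    (hΛ : ∀ i, Submodule.span ℂ (range (Λ i)) = ⊤) :
    ∃ w : Fin 4 → Fin N → ℂ,
      {x | x ∈ U ∧ ∀ j, ∑ a, w j a * (ζ a x - ζ a p) = 0}.Countable ∧
      ∀ i, LinearIndependent ℂ fun j => Fintype.linearCombination ℂ (Λ i) (w j) := by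
  classical
  set Z : Fin N → X.pt → ℂ := fun a y => ζ a y - ζ a p with hZ
  have hZh : ∀ a, ∀ y ∈ U, X.Hol (Z a) y := fun a y hy => hol_sub (hζ.hol a y hy) (hol_const _ _)
  have hZp : ∀ x ∈ U, x ≠ p → ∃ a, Z a x ≠ 0 := by
    intro x hx hxp
    by_contra hcon
    push Not at hcon
    exact hxp (hζ.injOn hx hp (funext fun a => sub_eq_zero.1 (hcon a)))
  have hbot : (⊥ : Submodule ℂ (Cm 4 →L[ℂ] ℂ)) ≠ ⊤ := by
    intro h
    have h1 : Module.finrank ℂ (⊥ : Submodule ℂ (Cm 4 →L[ℂ] ℂ)) = 4 := by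
      rw [h, finrank_top, finrank_dual]
    rw [finrank_bot] at h1
    exact absurd h1 (by norm_num)
  -- the first function
  obtain ⟨w₁, hw11, -, hw13⟩ := choose_step (X := X) hζ.isOpen hN hZh (T₁ := U) (T₂ := U)
    (d₁ := 3) (d₂ := 3) Subset.rfl hU4 Subset.rfl hU4 (p := p) hZp hZp
    (fun i => (⊥ : Submodule ℂ (Cm 4 →L[ℂ] ℂ)).comap (Fintype.linearCombination ℂ (Λ i)))
    (fun i => H619.comap_ne_top (hΛ i) hbot)
  obtain ⟨w₂, hw21, -, hw23⟩ := choose_step (X := X) hζ.isOpen hN hZh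
    (d₁ := 2) (d₂ := 2) (fun x hx => hx.1) hw11 (fun x hx => hx.1) hw11 (p := p)
    (fun x hx => hZp x hx.1) (fun x hx => hZp x hx.1)
    (fun i => (Submodule.span ℂ (range ![Fintype.linearCombination ℂ (Λ i) w₁])).comap
      (Fintype.linearCombination ℂ (Λ i)))
    (fun i => H619.comap_ne_top (hΛ i) (span_ne_top_of_lt _ (by rw [finrank_dual]; norm_num)))
  obtain ⟨w₃, hw31, -, hw33⟩ := choose_step (X := X) hζ.isOpen hN hZh
    (d₁ := 1) (d₂ := 1) (fun x hx => hx.1.1) hw21 (fun x hx => hx.1.1) hw21 (p := p)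
    (fun x hx => hZp x hx.1.1) (fun x hx => hZp x hx.1.1)
    (fun i => (Submodule.span ℂ (range ![Fintype.linearCombination ℂ (Λ i) w₂,
      Fintype.linearCombination ℂ (Λ i) w₁])).comap (Fintype.linearCombination ℂ (Λ i)))
    (fun i => H619.comap_ne_top (hΛ i) (span_ne_top_of_lt _ (by rw [finrank_dual]; norm_num)))
  obtain ⟨w₄, hw41, -, hw43⟩ := choose_step (X := X) hζ.isOpen hN hZh
    (d₁ := 0) (d₂ := 0) (fun x hx => hx.1.1.1) hw31 (fun x hx => hx.1.1.1) hw31 (p := p)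
    (fun x hx => hZp x hx.1.1.1) (fun x hx => hZp x hx.1.1.1)
    (fun i => (Submodule.span ℂ (range ![Fintype.linearCombination ℂ (Λ i) w₃,
      Fintype.linearCombination ℂ (Λ i) w₂, Fintype.linearCombination ℂ (Λ i) w₁])).comap
        (Fintype.linearCombination ℂ (Λ i)))
    (fun i => H619.comap_ne_top (hΛ i) (span_ne_top_of_lt _ (by rw [finrank_dual]; norm_num)))
  refine ⟨![w₄, w₃, w₂, w₁], ?_, fun i => ?_⟩
  · refine hw41.countable.mono ?_
    rintro x ⟨hxU, hx⟩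
    exact ⟨⟨⟨⟨hxU, hx 3⟩, hx 2⟩, hx 1⟩, hx 0⟩
  · have e2 : (fun j => Fintype.linearCombination ℂ (Λ i)
        ((![w₄, w₃, w₂, w₁] : Fin 4 → Fin N → ℂ) j)) =
        Fin.cons (Fintype.linearCombination ℂ (Λ i) w₄)
          (Fin.cons (Fintype.linearCombination ℂ (Λ i) w₃)
          (Fin.cons (Fintype.linearCombination ℂ (Λ i) w₂)
            ![Fintype.linearCombination ℂ (Λ i) w₁])) := by
      ext1 j
      fin_cases j <;> rfl
    rw [e2, linearIndependent_finCons]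
    refine ⟨?_, hw43 i⟩
    rw [linearIndependent_finCons]
    refine ⟨?_, hw33 i⟩
    rw [linearIndependent_finCons]
    refine ⟨?_, hw23 i⟩
    rw [linearIndependent_unique_iff]
    exact hw13 i

/-- The local statement. -/
theorem sing_local {Y : Type} [TopologicalSpace Y] [T2Space Y] [CompactSpace Y]
    [ChartedSpace (Cm 4) Y] [IsManifold 𝓘(ℂ, Cm 4) ω Y] {X : CSp}
    (hX : IsNormal 4 X) {O : Set Y} {v : Y → X.pt} (hv : IsOpenEmb X O v)
    (hdim : DimLe X 2 (v '' O)ᶜ) {g : Cm 2 → X.pt} {p₀ : Cm 2} {ρ : ℝ} (hρ : 0 < ρ)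
    (hg : ∀ p ∈ ball p₀ ρ, HolAt X g p)
    (hdense : ∀ W ⊆ ball p₀ ρ, IsOpen W → W.Nonempty → ∃ p ∈ W, IsReg 4 X (g p)) :
    ∃ ρ' > 0, ρ' ≤ ρ ∧ DimLe X 1 {x | x ∈ g '' ball p₀ ρ' ∧ ¬ IsReg 4 X x} := by
  classical
  have hne : Nonempty X.pt := ⟨g p₀⟩
  obtain ⟨N, U, ζ, hpU, hζ⟩ := exists_isCoord X (g p₀)
  have hp₀ : p₀ ∈ ball p₀ ρ := mem_ball_self hρ
  have hd : Dense (v '' O) := by
    have h1 := dense_compl_of_dimLe (d := 2) (n := 4) (by norm_num) hX.dense hdim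
    rwa [compl_compl] at h1
  have hU4 : DimLe X 4 U := ((dimLe_four hv).union (hdim.le (by norm_num : 2 ≤ 4))).mono
    fun x _ => em (x ∈ v '' O)
  -- the two countable dense families
  obtain ⟨I, hI, D, hD, hDd⟩ := exists_denseFamily hζ.isOpen hd
  obtain ⟨i₀, hi₀⟩ := hDd U hζ.isOpen Subset.rfl ⟨g p₀, hpU⟩
  set e : I → Chart 4 Y := fun i => chartAt (Cm 4) (D i) with he
  have heD : ∀ i, At (e i) (D i) := fun i => ⟨chart_mem_atlas _ _, mem_chart_source _ _⟩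
  set R : Set (Cm 2) := {p | p ∈ ball p₀ ρ ∧ g p ∈ U ∧ IsReg 4 X (g p)} with hR
  obtain ⟨J, hJR, hJc, hJd⟩ : ∃ J ⊆ R, J.Countable ∧ R ⊆ closure J :=
    (TopologicalSpace.IsSeparable.of_separableSpace R).exists_countable_dense_subset
  have : Countable J := hJc.to_subtype
  have hvR := RegT.isOpenEmb_val X
  set q : J → RegT X := fun j => ⟨g j.1, (hJR j.2).2.2⟩ with hq
  set e' : J → Chart 4 (RegT X) := fun j => chartAt (Cm 4) (q j) with he'
  have heq : ∀ j, At (e' j) (q j) := fun j => ⟨chart_mem_atlas _ _, mem_chart_source _ _⟩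
  have hspan : ∀ (Y' : Type) [TopologicalSpace Y'] [ChartedSpace (Cm 4) Y'] (O' : Set Y')
      (v' : Y' → X.pt) (_ : IsOpenEmb X O' v') (y : Y') (_ : y ∈ O') (e : Chart 4 Y')
      (_ : At e y) (_ : v' y ∈ U), Submodule.span ℂ (range fun a => dfr v' e y (ζ a)) = ⊤ := by
    intro Y' _ _ O' v' hv' y hy e he hyU
    rw [eq_top_iff]
    rintro ℓ -
    obtain ⟨w, rfl⟩ := H29.exists_dfr_eq hv' hy he hζ hyU ℓ
    exact Submodule.sum_mem _ fun a _ => Submodule.smul_mem _ _ (Submodule.subset_span ⟨a, rfl⟩)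
  have hN : N ≠ 0 := by
    rintro rfl
    have h1 := span_ne_top_of_lt (E := Cm 4 →L[ℂ] ℂ) (k := 0)
      (fun a => dfr v (e i₀) (D i₀) (ζ a)) (by rw [finrank_dual]; norm_num)
    exact h1 (hspan Y O v hv (D i₀) (hD i₀).1 (e i₀) (heD i₀) (hD i₀).2)
  obtain ⟨w, hwc, hwi⟩ := exists_generic hζ hpU hU4 hN (ι := I ⊕ J)
    (Sum.elim (fun i a => dfr v (e i) (D i) (ζ a)) (fun j a => dfr RegT.val (e' j) (q j) (ζ a)))
    (by
      rintro (i | j)
      · exact hspan Y O v hv (D i) (hD i).1 (e i) (heD i) (hD i).2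
      · exact hspan (RegT X) univ RegT.val hvR (q j) (mem_univ _) (e' j) (heq j) (hJR j.2).2.1)
  set G : X.pt → Cm 4 := fun x j => ∑ a, w j a * (ζ a x - ζ a (g p₀)) with hG
  have hGp : G (g p₀) = 0 := by
    ext j
    exact Finset.sum_eq_zero fun a _ => by rw [sub_self, mul_zero]
  have hGh : ∀ x ∈ U, ∀ i, X.Hol (fun y => G y i) x := fun x hx i =>
    hol_sum _ fun a _ => hol_mul (hol_const _ _) (hol_sub (hζ.hol a x hx) (hol_const _ _))
  have hGd : ∀ (Y' : Type) [TopologicalSpace Y'] [ChartedSpace (Cm 4) Y'] (O' : Set Y')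
      (v' : Y' → X.pt) (_ : IsOpenEmb X O' v') (y : Y') (_ : y ∈ O') (e : Chart 4 Y')
      (_ : At e y) (_ : v' y ∈ U) (j : Fin 4), dfr v' e y (fun x => G x j) =
        Fintype.linearCombination ℂ (fun a => dfr v' e y (ζ a)) (w j) := by
    intro Y' _ _ O' v' hv' y hy e he hyU j
    have h1 := H619.dfr_sum hv' hy he (w j) (u := fun a x => ζ a x - ζ a (g p₀))
      (fun a => hol_sub (hζ.hol a _ hyU) (hol_const _ _))
    rw [Fintype.linearCombination_apply]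
    refine h1.trans (Finset.sum_congr rfl fun a _ => ?_)
    rw [H619.dfr_sub_const]
  have hnd : ∀ W : Set X.pt, IsOpen W → W ⊆ U → W.Nonempty → ∃ y ∈ O, v y ∈ W ∧
      ∀ e : Chart 4 Y, At e y → Jac v (fun i x => G x i) e (e y) ≠ 0 := by
    intro W hW hWU hWn
    obtain ⟨i, hi⟩ := hDd W hW hWU hWn
    refine ⟨D i, (hD i).1, hi, fun e₁ he₁ => ?_⟩
    rw [← Jac_ne_zero_iff hv (hD i).1 (heD i) he₁ fun j => hGh _ (hD i).2 j]
    refine H29.jac_ne_zero v _ (e i) (D i) ?_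
    have h1 := hwi (Sum.inl i)
    refine (Eq.mpr ?_ h1)
    congr 1
    funext j
    exact hGd Y O v hv (D i) (hD i).1 (e i) (heD i) (hD i).2 j
  have hcount : {x | x ∈ U ∧ G x = G (g p₀)}.Countable := by
    rw [hGp]
    refine hwc.mono ?_
    rintro x ⟨hxU, hx⟩
    exact ⟨hxU, fun j => congrFun hx j⟩
  obtain ⟨V, r, d, lam, θ, hc, hpV, hVU, -⟩ := stCov Y X hX O v hv hdim G (g p₀) U hζ.isOpen hpU
    hGh hnd hcount univ univ_mem
  have hζV : IsCoord X V ζ := hζ.mono hc.isOpen fun x hx => (hVU hx).2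
  -- a ball mapped to `V`
  obtain ⟨ρ', hρ', hρ'ρ, hρ'V⟩ : ∃ ρ' > 0, ρ' ≤ ρ ∧ ∀ p ∈ ball p₀ ρ', g p ∈ V := by
    have h1 := (hg p₀ hp₀).1.eventually_mem (hc.isOpen.mem_nhds hpV)
    obtain ⟨ρ₁, hρ₁, h2⟩ := Metric.eventually_nhds_iff_ball.1 h1
    exact ⟨min ρ ρ₁, lt_min hρ hρ₁, min_le_left _ _, fun p hp =>
      h2 p (ball_subset_ball (min_le_right _ _) hp)⟩
  have hsub' : ball p₀ ρ' ⊆ ball p₀ ρ := ball_subset_ball hρ'ρ
  refine ⟨ρ', hρ', hρ'ρ, ?_⟩
  -- a regular point where `G` is a local isomorphism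
  obtain ⟨j, hj⟩ : ∃ j : J, j.1 ∈ ball p₀ ρ' := by
    obtain ⟨p, hp, hpr⟩ := hdense (ball p₀ ρ') hsub' isOpen_ball ⟨p₀, mem_ball_self hρ'⟩
    have h1 : p ∈ closure J := hJd ⟨hsub' hp, (hVU (hρ'V p hp)).2, hpr⟩
    obtain ⟨b, hb, hbJ⟩ := _root_.mem_closure_iff.1 h1 _ isOpen_ball hp
    exact ⟨⟨b, hbJ⟩, hb⟩
  have hxV : g j.1 ∈ V := hρ'V _ hj
  have hsec : Sec X V G (g j.1) := by
    have h1 := sec_of_jac hvR hc.isOpen hc.holo (y := q j) (mem_univ _) (show (q j).val ∈ V from hxV)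
      (heq j) (by
        refine H29.jac_ne_zero RegT.val _ (e' j) (q j) ?_
        have h1 := hwi (Sum.inr j)
        refine (Eq.mpr ?_ h1)
        congr 1
        funext l
        exact hGd (RegT X) univ RegT.val hvR (q j) (mem_univ _) (e' j) (heq j)
          (hJR j.2).2.1 l)
    exact h1
  -- a separating function
  obtain ⟨m, x, hxi, hx⟩ := exists_enum (hc.finite (G (g j.1)) (hc.maps _ hxV)).1
  obtain ⟨u, hu⟩ := exists_sep hζV x hxi fun k => ((hx (x k)).1 ⟨k, rfl⟩).1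
  set h : X.pt → ℂ := fun y => ∑ a, u a * ζ a y with hh'
  have hh : ∀ y ∈ V, X.Hol h y := fun y hy =>
    hol_sum _ fun a _ => hol_mul (hol_const _ _) (hζV.hol a y hy)
  obtain ⟨P, hP, -, hPe⟩ := hc.sym h hh
  have hD0 : dP P G h (g j.1) ≠ 0 := by
    refine dP_ne_zero hc hh hP hPe hxV hsec fun y hy hyG hne' => ?_
    obtain ⟨k, rfl⟩ := (hx y).2 ⟨hy, hyG⟩
    obtain ⟨l, hl⟩ := (hx (g j.1)).2 ⟨hxV, rfl⟩
    intro heq'
    apply hne'
    rw [← hl] at heq' ⊢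
    rw [hu heq']
  have h1 := H73.dimLe_image_zeros H622.stB1 (c := p₀) (r := ρ') (g := g)
    (fun p hp => hg p (hsub' hp)) (F := fun p => dP P G h (g p))
    (fun p hp => (hg p (hsub' hp)).analyticAt (dP_hol hc hh hP (hρ'V p hp))) ⟨j.1, hj, hD0⟩
  refine h1.mono ?_
  rintro _ ⟨⟨p, hp, rfl⟩, hns⟩
  refine ⟨p, ⟨hp, ?_⟩, rfl⟩
  by_contra h0
  exact hns (isReg_of_dP hc hζV hh hP hPe (hρ'V p hp) h0)

end Vale.Agent.P277.H371
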