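import Vale.Agent.P277.H371.Contra

/-!
# P277, TX: `StTX False`
-/

open scoped Manifold ContDiff ComplexOrder Topology
open Vale.Agent.P272.K Vale.Agent.P285.H281.FD Vale.Agent.P267.H175 Set Metric Filter

noncomputable section

namespace Vale.Agent.P277.H371

open Vale.Agent.P277.TX Vale.Agent.P277.H19

variable {X : CSp} {S V : Set X.pt} {G : X.pt → Cm 4} {c : Cm 4} {r : ℝ} {d : ℕ} {lam : X.pt → ℂ}
  {θ : Cm 4 → ℂ}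

theorem IsGood.restrict (hRES : StCovRes) (hg : IsGood X S V G c r d lam θ) {c' : Cm 4} {r' : ℝ}
    (hr' : 0 < r') (hsub : ball c' r' ⊆ ball c r) (h0 : c' 0 = 0) (h1 : c' 1 = 0) :
    IsGood X S {x | x ∈ V ∧ G x ∈ ball c' r'} G c' r' d lam θ where
  toIsCov := hRES X V G c r d lam θ hg.toIsCov c' r' hr' hsub
  c0 := h0
  c1 := h1
  memS x hx := hg.memS x hx.1
  uniq x hx hxS y hy hyx := hg.uniq x hx.1 hxS y hy.1 hyx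
  red x hx hxS := hg.red x hx.1 hxS

theorem Enum.restrict {z : Cm 4} {x : Fin d → X.pt} (h : Enum V G z x) {D : Set (Cm 4)}
    (hz : z ∈ D) : Enum {x | x ∈ V ∧ G x ∈ D} G z x := by
  refine ⟨h.1, fun y => ?_⟩
  rw [h.2 y]
  constructor
  · rintro ⟨h1, h2⟩
    exact ⟨⟨h1, by rw [h2]; exact hz⟩, h2⟩
  · rintro ⟨h1, h2⟩
    exact ⟨h1.1, h2⟩

theorem pw_zero {s : ℕ} (hs : 1 ≤ s) {w : Cm 4} (h0 : w 0 = 0) : pw s w = bl w := by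
  have h1 : w 0 ^ s = 0 := by rw [h0, zero_pow (by omega)]
  ext i
  fin_cases i
  · change w 0 ^ s = w 0
    rw [h1, h0]
  · change w 1 * w 0 ^ s = w 0 * w 1
    rw [h1, h0]; ring
  · rfl
  · rfl

/-- a base point where `θ ∘ bl` is a power of `w 0` -/
theorem exists_base (hc : IsCov X V G c r d lam θ) {b : Cm 4 → ℂ} {z : Cm 4} (hz : z ∈ ball c r)
    (h0 : z 0 = 0) (h1 : z 1 = 0) (hba : AnalyticAt ℂ b z) (hbz : b z ≠ 0) :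
    ∃ (w₀ : Cm 4) (m : ℕ) (Φ : Cm 4 → ℂ), w₀ 0 = 0 ∧ bl w₀ ∈ ball c r ∧ b (bl w₀) ≠ 0 ∧
      AnalyticAt ℂ b (bl w₀) ∧ AnalyticAt ℂ Φ w₀ ∧ Φ w₀ ≠ 0 ∧
      ∀ᶠ w in 𝓝 w₀, θ (bl w) = w 0 ^ m * Φ w := by
  set wa : Cm 4 := ![0, 0, z 2, z 3] with hwa
  have hbl : bl wa = z := by
    ext i
    fin_cases i
    · exact h0.symm
    · change (0 : ℂ) * 0 = z 1
      rw [h1, mul_zero]
    · rfl
    · rfl
  have hf : AnalyticAt ℂ (fun w => θ (bl w)) wa :=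
    AnalyticAt.comp (g := θ) (f := bl) (by rw [hbl]; exact hc.an z hz) (analyticAt_bl wa)
  have hfz : ¬ ∀ᶠ w in 𝓝 wa, θ (bl w) = 0 := by
    intro hcon
    have h2 : ∀ᶠ w in 𝓝 wa, θ (bl w) = 0 ∧ bl w ∈ ball c r := by
      refine hcon.and (continuous_bl.continuousAt.eventually ?_)
      rw [hbl]
      exact isOpen_ball.mem_nhds hz
    obtain ⟨N', hN', hN'o, hwN'⟩ := _root_.mem_nhds_iff.1 h2
    obtain ⟨w', hw', hw'0⟩ := exists_ne_zero (hN'o.mem_nhds hwN')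
    have h3 : IsOpen (N' ∩ {w : Cm 4 | w 0 ≠ 0}) :=
      hN'o.inter (isOpen_ne_fun (continuous_apply 0) continuous_const)
    have h4 := isOpen_image_bl h3 fun w hw => hw.2
    refine hc.ne (bl w') (hN' hw').2 ?_
    filter_upwards [h4.mem_nhds ⟨w', ⟨hw', hw'0⟩, rfl⟩] with z' hz'
    obtain ⟨w'', hw'', rfl⟩ := hz'
    exact (hN' hw''.1).1
  obtain ⟨m, Φ, hΦ, hΦe, hΦne⟩ := exists_max_pow hf rfl hfz
  rw [Filter.not_eventually] at hΦne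
  have h2 : ∃ᶠ w in 𝓝 wa, w 0 = 0 ∧ Φ w ≠ 0 := by
    refine hΦne.mono fun w hw => ?_
    push Not at hw
    exact hw
  have h3 : ∀ᶠ w in 𝓝 wa, bl w ∈ ball c r := by
    refine continuous_bl.continuousAt.eventually ?_
    rw [hbl]
    exact isOpen_ball.mem_nhds hz
  have h4 : ∀ᶠ w in 𝓝 wa, b (bl w) ≠ 0 ∧ AnalyticAt ℂ b (bl w) := by
    have h5 : ∀ᶠ z' in 𝓝 (bl wa), b z' ≠ 0 ∧ AnalyticAt ℂ b z' := by
      rw [hbl]
      exact (hba.continuousAt.eventually_ne hbz).and hba.eventually_analyticAt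
    exact continuous_bl.continuousAt.eventually h5
  obtain ⟨w₀, ⟨g1, g2⟩, g3, g4, g5, g6⟩ := (h2.and_eventually (h3.and (h4.and
    (hΦe.eventually_nhds.and hΦ.eventually_analyticAt)))).exists
  exact ⟨w₀, m, Φ, g1, g3, g4.1, g4.2, g6, g2, g5⟩

/-- a common radius -/
theorem exists_radius {ι : Type} [Finite ι] {p : ι → ℝ → Prop} (hp : ∀ i, ∃ r > 0, p i r)
    (hmono : ∀ i r r', 0 < r' → r' ≤ r → p i r → p i r') {R : ℝ} (hR : 0 < R) :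
    ∃ r > 0, r ≤ R ∧ ∀ i, p i r := by
  choose ρ hρ hρp using hp
  have h1 : ∀ᶠ r in 𝓝[>] (0 : ℝ), ∀ i, r ≤ ρ i := by
    rw [eventually_all]
    intro i
    exact nhdsWithin_le_nhds (Iic_mem_nhds (hρ i))
  have h2 : ∀ᶠ r in 𝓝[>] (0 : ℝ), r ≤ R := nhdsWithin_le_nhds (Iic_mem_nhds hR)
  obtain ⟨r, ⟨g1, g2⟩, g3⟩ := ((h1.and h2).and self_mem_nhdsWithin).exists
  exact ⟨r, g3, g2, fun i => hmono i (ρ i) r g3 (g1 i) (hρp i)⟩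

section
variable {Y : Type} [TopologicalSpace Y] [T2Space Y] [CompactSpace Y] [ChartedSpace (Cm 4) Y]
  [IsManifold 𝓘(ℂ, Cm 4) ω Y] {O : Set Y}
  {v : Y → X.pt} {L : Bd X.pt} {M : Bd Y} {m Q : ℕ}
  {T : L.ι → ((((Bd.can 4 Y).pow m).mul M).pow Q).ι → Y → ℂ}
  {χ : Chart 4 Y → Cm 4 → Matrix (Fin 4) (Fin 4) ℂ}

/-- the last clause of `StTX` -/
def NoLift (O : Set Y) (v : Y → X.pt) (L : Bd X.pt) (M : Bd Y) (m Q : ℕ)
    (T : L.ι → ((((Bd.can 4 Y).pow m).mul M).pow Q).ι → Y → ℂ) (φ : Cm 4 → X.pt)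
    (W : Set (Cm 4)) : Prop :=
  ∀ w₁ ∈ W, w₁ 0 = 0 → ∀ (γ₀ : Cm 4 → Y) (e : Chart 4 Y) (F : Cm 4 → ℂ) (i : L.ι)
    (j : ((((Bd.can 4 Y).pow m).mul M).pow Q).ι), ContinuousAt γ₀ w₁ → At e (γ₀ w₁) →
    AnalyticAt ℂ (fun w => e (γ₀ w)) w₁ →
    (∀ᶠ w in 𝓝 w₁, φ w ∈ v '' O → γ₀ w ∈ O ∧ v (γ₀ w) = φ w) →
    φ w₁ ∈ L.U i → γ₀ w₁ ∈ ((((Bd.can 4 Y).pow m).mul M).pow Q).U j → AnalyticAt ℂ F w₁ →
    ∀ K : ℕ, 1 ≤ K → (∀ᶠ w in 𝓝 w₁, γ₀ w ∈ O → F w = T i j (γ₀ w) ^ K) →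
    (∀ᶠ w in 𝓝 w₁, w 0 = 0 → F w = 0) →
    (∀ᶠ w in 𝓝 w₁, w 0 = 0 → (fderiv ℂ (fun w => e (γ₀ w)) w).det = 0) → False

omit [T2Space Y] [CompactSpace Y] in
theorem noLift_of {φ : Cm 4 → X.pt} {W : Set (Cm 4)}
    (h : ∀ w₁ ∈ W, w₁ 0 = 0 → ¬ HasLift O v L M m Q T φ w₁) : NoLift O v L M m Q T φ W := by
  intro w₁ hw₁ hw₁0 γ₀ e F i j hγc he hγa hlift hi hj hF K hK hFT hF0 hJ0
  obtain ⟨e₁, a, rfl⟩ : ∃ (e₁ : Chart 4 Y) (a : M.ι), j = (e₁, a) := ⟨j.1, j.2, rfl⟩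
  obtain ⟨he₁, ha⟩ : At e₁ (γ₀ w₁) ∧ γ₀ w₁ ∈ M.U a := hj
  have hγa₁ : AnalyticAt ℂ (fun w => e₁ (γ₀ w)) w₁ := analyticAt_change hγc he he₁ hγa
  refine h w₁ hw₁ hw₁0 ⟨γ₀, e₁, a, i, F, K, hK, hγc, he₁, ha, hγa₁, hlift, hi, hF, hFT, hF0, ?_⟩
  have c4 : ∀ᶠ w in 𝓝 w₁, At e₁ (γ₀ w) := by
    filter_upwards [hγc.eventually_mem (e₁.open_source.mem_nhds he₁.2)] with w hw
    exact ⟨he₁.1, hw⟩
  have c4' : ∀ᶠ w in 𝓝 w₁, At e (γ₀ w) := by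
    filter_upwards [hγc.eventually_mem (e.open_source.mem_nhds he.2)] with w hw
    exact ⟨he.1, hw⟩
  filter_upwards [hJ0, c4, c4'.eventually_nhds, hγa.eventually_analyticAt] with w h1 h2 h3 h5 h6
  rw [det_change (continuousAt_of_chart h3 h5.continuousAt) h3.self_of_nhds h2 h5, h1 h6, mul_zero]

theorem wedge_of_good (hALG : StAlg) (hRES : StCovRes) (hDET : StDet) (hPUI : StPui)
    (hTHIN : StThin) (hBR : StBr) (hPUSH : StPush) (hCORE : StCoreX) (hX : IsNormal 4 X)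
    (hχ : IsKahler χ) (hM : IsLB 4 M) (hNef : Nef χ M) (hm : 1 ≤ m) (hv : IsOpenEmb X O v)
    (hO : DimLe X 2 (v '' O)ᶜ) (hSan : IsAn X univ S) (hS2 : DimLe X 2 S)
    (hL : IsLBx X L) (hQ : 1 ≤ Q)
    (hT : IsIsoY O v L ((((Bd.can 4 Y).pow m).mul M).pow Q) T)
    (hg : IsGood X S V G c r d lam θ) {n : ℕ} {ζ : Fin n → X.pt → ℂ} (hζ : IsCoord X V ζ) :
    ∃ (W : Set (Cm 4)) (w₀ : Cm 4) (φ : Cm 4 → X.pt), IsOpen W ∧ w₀ ∈ W ∧ w₀ 0 = 0 ∧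
      (∀ w ∈ W, HolAt X φ w) ∧ (∀ w ∈ W, w 0 = 0 → φ w ∈ S) ∧
      W ⊆ closure {w | w ∈ W ∧ φ w ∈ v '' O} ∧ (∀ w ∈ W, φ w ∈ V) ∧
      NoLift O v L M m Q T φ W := by
  obtain ⟨r₁, a, b, hr₁, hr₁r, ha, hb, hbne, hgen⟩ :=
    hALG X hX S hSan hS2 V G c r d lam θ hg n ζ hζ
  -- a common radius
  let fam : (Σ l : Fin d, (Fin (l : ℕ) → Fin n)) ⊕ Fin d → X.pt → ℂ := fun i =>
    i.elim (fun p x => ∏ t, ζ (p.2 t) x) (fun l x => lam x ^ (l : ℕ))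
  have hfam : ∀ i, ∀ x ∈ V, X.Hol (fam i) x := by
    rintro (p | l) x hx
    · exact hol_prod _ fun t _ => hζ.hol _ x hx
    · exact hol_pow (hg.lamHol x hx) _
  obtain ⟨r₂, hr₂, hr₂₁, hgen₂⟩ := exists_radius (p := fun i ρ =>
      Gen {x | x ∈ V ∧ G x ∈ ball c ρ} G c ρ a b (fam i)) (fun i => by
        obtain ⟨ρ, hρ, -, f, hf1, hf2⟩ := hgen (fam i) (hfam i)
        exact ⟨ρ, hρ, f, hf1, fun x hx => hf2 x hx.1 hx.2⟩)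
    (fun i ρ ρ' _ hρ' h => h.mono (fun x hx => ⟨hx.1, ball_subset_ball hρ' hx.2⟩)
      (ball_subset_ball hρ')) hr₁
  have hsub₂ : ball c r₂ ⊆ ball c r := ball_subset_ball (hr₂₁.trans hr₁r)
  set V₂ : Set X.pt := {x | x ∈ V ∧ G x ∈ ball c r₂} with hV₂
  have hg₂ : IsGood X S V₂ G c r₂ d lam θ := IsGood.restrict hRES hg hr₂ hsub₂ hg.c0 hg.c1
  have hthin := hTHIN Y X O v hv hO V₂ G c r₂ d lam θ hg₂.toIsCov
  obtain ⟨z, hz, hz0, hz1, hbz⟩ := hbne r₂ hr₂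
  obtain ⟨w₀, m', Φ, hw₀0, hw₀, hbw₀, hbaw₀, hΦ, hΦ0, hΦe⟩ :=
    exists_base hg₂.toIsCov hz hz0 hz1 (hb z (ball_subset_ball hr₂₁ hz)) hbz
  obtain ⟨N, s, ε, φ, hN, hε, hε1, hs, hφ, hE⟩ :=
    hPUI X V₂ G c r₂ d lam θ hg₂.toIsCov w₀ hw₀0 hw₀ m' Φ hΦ hΦ0 hΦe
  have hφ' : ∀ k, ∀ w ∈ ball w₀ ε, HolAt X (φ k) w ∧ φ k w ∈ V₂ ∧ G (φ k w) = pw (s k) w := hφ
  -- the set `W₀`
  have hW₀ : ∀ᶠ w in 𝓝 w₀, w ∈ ball w₀ ε ∧ bl w ∈ ball c r₂ ∧ b (bl w) ≠ 0 ∧ Φ w ≠ 0 ∧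
      θ (bl w) = w 0 ^ m' * Φ w := by
    filter_upwards [ball_mem_nhds w₀ hε, continuous_bl.continuousAt.eventually
      (isOpen_ball.mem_nhds hw₀), continuous_bl.continuousAt.eventually
      (hbaw₀.continuousAt.eventually_ne hbw₀), hΦ.continuousAt.eventually_ne hΦ0, hΦe]
      with w h1 h2 h3 h4 h5
    exact ⟨h1, h2, h3, h4, h5⟩
  obtain ⟨W₀, hW₀s, hW₀o, hw₀W₀⟩ := _root_.mem_nhds_iff.1 hW₀
  by_contra hcon
  have hex : ∀ k, ∀ W' ⊆ W₀, IsOpen W' → ∀ w' ∈ W', w' 0 = 0 →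
      ∃ w₁ ∈ W', w₁ 0 = 0 ∧ HasLift O v L M m Q T (φ k) w₁ := by
    intro k W' hW' hW'o w' hw' hw'0
    by_contra hno
    push Not at hno
    have hb' : ∀ w ∈ W', w ∈ ball w₀ ε := fun w hw => (hW₀s (hW' hw)).1
    refine hcon ⟨W', w', φ k, hW'o, hw', hw'0, fun w hw => (hφ' k w (hb' w hw)).1,
      fun w hw h0 => ?_, ?_, fun w hw => (hφ' k w (hb' w hw)).2.1.1, noLift_of hno⟩
    · obtain ⟨-, g2, g3⟩ := hφ' k w (hb' w hw)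
      rw [hg₂.memS _ g2, g3, pw_zero (hs k).1 h0]
      exact bl_zero h0
    · exact wedge_closure hg₂.maps hthin hW'o (hs k).1 fun w hw => (hφ' k w (hb' w hw)).2
  obtain ⟨w₁, hw₁W, hw₁0, hw₁L⟩ := exists_common (P := fun k w => HasLift O v L M m Q T (φ k) w)
    (fun k w hw h => h.eventually hM hL (hφ' k w (hW₀s hw).1).1.1) hex Finset.univ W₀ Subset.rfl
    hW₀o w₀ hw₀W₀ hw₀0
  have hw₁b := (hW₀s hw₁W).1
  have hbl₁ := (hW₀s hw₁W).2.1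
  -- the point of `S` over `bl w₁`
  set k₀ : Fin d := ⟨0, hg.dpos⟩ with hk₀
  have hφG : ∀ k, G (φ k w₁) = bl w₁ := fun k => by
    rw [(hφ' k w₁ hw₁b).2.2, pw_zero (hs k).1 hw₁0]
  have hφV : ∀ k, φ k w₁ ∈ V₂ := fun k => (hφ' k w₁ hw₁b).2.1
  have hpS : φ k₀ w₁ ∈ S := by
    rw [hg₂.memS _ (hφV k₀), hφG]
    exact bl_zero hw₁0
  have huniq : ∀ y ∈ V₂, G y = bl w₁ → y = φ k₀ w₁ := fun y hy hyG =>
    hg₂.uniq _ (hφV k₀) hpS y hy (by rw [hyG, hφG])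
  obtain ⟨i₀, hi₀⟩ := hL.cover (φ k₀ w₁)
  have hi₀' : ∀ k, φ k w₁ ∈ L.U i₀ := fun k => by
    rw [huniq _ (hφV k) (hφG k)]; exact hi₀
  choose K₀ hK₀ hK₀' using fun k => (hw₁L k (Finset.mem_univ k)).nlift hM hL hT
    (hφ' k w₁ hw₁b).1 (hi₀' k)
  set K : ℕ := ∏ k, K₀ k with hK
  have hK1 : 1 ≤ K := Finset.one_le_prod' fun k _ => hK₀ k
  choose γ e μ F hlift hzF hzJ using fun k => hK₀' k K hK1
    (Finset.dvd_prod_of_mem K₀ (Finset.mem_univ k))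
  -- the small ball
  have hsmall : ∀ᶠ z in 𝓝 (bl w₁), z ∈ ball c r₂ ∧ b z ≠ 0 ∧ ∀ x ∈ V₂, G x = z → x ∈ L.U i₀ := by
    filter_upwards [isOpen_ball.mem_nhds hbl₁,
      (hb _ (ball_subset_ball hr₂₁ hbl₁)).continuousAt.eventually_ne (hW₀s hw₁W).2.2.1,
      cov_eventually hg₂.toIsCov hbl₁ (W := L.U i₀) fun x hx hxG => by
        rw [huniq x hx hxG]; exact (hL.isOpen i₀).mem_nhds hi₀] with z h1 h2 h3
    exact ⟨h1, h2, h3⟩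
  obtain ⟨r₃, hr₃, hball₃⟩ := Metric.eventually_nhds_iff_ball.1 hsmall
  have hsub₃ : ball (bl w₁) r₃ ⊆ ball c r₂ := fun z hz => (hball₃ z hz).1
  have hg₃ : IsGood X S {x | x ∈ V₂ ∧ G x ∈ ball (bl w₁) r₃} G (bl w₁) r₃ d lam θ :=
    IsGood.restrict hRES hg₂ hr₃ hsub₃ (bl_zero hw₁0).1 (bl_zero hw₁0).2
  set V₃ : Set X.pt := {x | x ∈ V₂ ∧ G x ∈ ball (bl w₁) r₃} with hV₃
  have hVL : V₃ ⊆ L.U i₀ := fun x hx => (hball₃ _ hx.2).2.2 x hx.1 rfl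
  have ha₃ : ∀ i, ∀ x ∈ V₃, X.Hol (a i) x := fun i x hx =>
    ha i x hx.1.1 (ball_subset_ball hr₂₁ hx.1.2)
  obtain ⟨κ, hκa, hκ⟩ := hDET X V₃ G (bl w₁) r₃ d lam θ hg₃.toIsCov a ha₃
  have hζ₃ : IsCoord X V₃ ζ := hζ.mono hg₃.isOpen fun x hx => hx.1.1
  have hgen₃ : ∀ i, Gen V₃ G (bl w₁) r₃ a b (fam i) := fun i =>
    (hgen₂ i).mono (fun x hx => hx.1) hsub₃
  obtain ⟨Cκ, hCκ0, hCκ⟩ := kappa_le hg₃ ha₃ hκ hw₁0 (mem_ball_self hr₃)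
  have hpwc : ∀ s : ℕ, 1 ≤ s → ∀ᶠ w in 𝓝 w₁, pw s w ∈ ball (bl w₁) r₃ := by
    intro s hs
    refine (analyticAt_pw s w₁).continuousAt.eventually_mem ?_
    rw [pw_zero hs hw₁0]
    exact ball_mem_nhds _ hr₃
  have hballw : ∀ᶠ w in 𝓝 w₁, w ∈ ball w₀ ε := isOpen_ball.mem_nhds hw₁b
  set A : ℝ := ((m * Q * K : ℕ) : ℝ) with hAdef
  have hA1 : 1 ≤ m * Q * K := Nat.one_le_iff_ne_zero.2
    (by positivity)
  have key := contra (r := r₃) (c := bl w₁) (V := V₃) (G := G) (lam := lam) (θ := θ) (b := b)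
    (κ := κ) (a := a) (ζ := ζ) (χ := χ) (N := N) (s := s) (φ := φ) (w₁ := w₁) (γ := γ) (e := e)
    (μ := μ) (F := F) (α := fun _ => 1) (j := fun _ => 1) (K := K) (p := ((2 * (d - 1) : ℕ) : ℝ))
    hTHIN hBR hPUSH hCORE hχ hM hNef hv hO hg₃.toIsCov hζ₃
    (fun z hz => ⟨(hb z (ball_subset_ball hr₂₁ (hsub₃ hz))).continuousAt, (hball₃ z hz).2.1⟩)
    (fun l => hgen₃ (Sum.inr l)) (fun l f => hgen₃ (Sum.inl ⟨l, f⟩)) hκa hκ hL hT hVL hA1 hw₁0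
    (mem_ball_self hr₃) ?_ hN (fun k => ⟨(hs k).1, (hs k).2.2⟩) ?_ ?_ hlift ?_ ?_ ?_
  · -- the final inequality
    have hd : (1 : ℝ) ≤ d := by exact_mod_cast hg.dpos
    have hA0 : 0 ≤ A := Nat.cast_nonneg _
    have h1 : ∀ k : Fin d, (2 + 4 * A) / d - 4 * A ≤
        (2 * ((1 : ℕ) : ℝ) + 2 * A * (((1 : ℕ) : ℝ) + 1 - 2 * s k)) / s k := by
      intro k
      have hsk : (1 : ℝ) ≤ s k := by exact_mod_cast (hs k).1
      have hskd : (s k : ℝ) ≤ d := by exact_mod_cast (hs k).2.1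
      have h2 : (2 * ((1 : ℕ) : ℝ) + 2 * A * (((1 : ℕ) : ℝ) + 1 - 2 * s k)) / s k =
          (2 + 4 * A) / s k - 4 * A := by
        field_simp
        push_cast
        ring
      rw [h2]
      have h3 : (2 + 4 * A) / d ≤ (2 + 4 * A) / s k :=
        div_le_div_of_nonneg_left (by positivity) (by positivity) hskd
      linarith
    have h2 := Finset.sum_le_sum (s := Finset.univ) fun k _ => h1 k
    rw [Finset.sum_const, Finset.card_univ, Fintype.card_fin, nsmul_eq_mul] at h2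
    have h3 : (d : ℝ) * ((2 + 4 * A) / d - 4 * A) = 2 + 4 * A - 4 * A * d := by
      field_simp
    have h4 : ((2 * (d - 1) : ℕ) : ℝ) = 2 * ((d : ℝ) - 1) := by
      rw [Nat.cast_mul, Nat.cast_sub hg.dpos]; push_cast; ring
    rw [h3] at h2
    rw [h4] at key
    nlinarith
  · -- `θ`
    filter_upwards [hW₀o.mem_nhds hw₁W] with w hw hw0
    rw [(hW₀s hw).2.2.2.2]
    exact mul_ne_zero (pow_ne_zero _ hw0) (hW₀s hw).2.2.2.1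
  · intro k
    filter_upwards [hballw, hpwc (s k) (hs k).1] with w h1 h2
    obtain ⟨g1, g2, g3⟩ := hφ' k w h1
    exact ⟨g1.1, ⟨g2, by rw [g3]; exact h2⟩, g3⟩
  · filter_upwards [hballw, hpwc N hN] with w h1 h2 hw0
    exact Enum.restrict (hE w h1 hw0) h2
  · intro k
    obtain ⟨F₁, hF₁, hFF₁⟩ := exists_div (hlift k).anF hw₁0 (hzF k)
    refine ⟨‖F₁ w₁‖ + 1, ?_⟩
    filter_upwards [hFF₁, hF₁.continuousAt.norm.eventually_lt_const (lt_add_one _)] with w h1 h2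
    rw [h1, norm_mul, pow_one, mul_comm]
    exact mul_le_mul_of_nonneg_right h2.le (norm_nonneg _)
  · intro k
    obtain ⟨J₁, hJ₁, hJJ₁⟩ := exists_div (analyticAt_det (hlift k).an) hw₁0 (hzJ k)
    refine ⟨‖J₁ w₁‖ + 1, ?_⟩
    filter_upwards [hJJ₁, hJ₁.continuousAt.norm.eventually_lt_const (lt_add_one _)] with w h1 h2
    rw [h1, norm_mul, pow_one, mul_comm]
    exact mul_le_mul_of_nonneg_right h2.le (norm_nonneg _)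
  · refine ⟨Cκ, hCκ0, ?_⟩
    filter_upwards [hCκ] with w h1 _ h3
    rw [Real.rpow_natCast]
    exact h1 h3

end

/-- Task TX-FIN. -/
theorem stTX_false_of (hMIN : StMin) (hALG : StAlg) (hRES : StCovRes) (hDET : StDet) (hPUI : StPui)
    (hTHIN : StThin) (hBR : StBr) (hPUSH : StPush) (hCORE : StCoreX) : StTX False := by
  intro Y _ _ _ _ _ χ hχ M hM hNef m hm X hX _ O v hv hO S hSan hSO hS1 L hL Q hQ T hT
  obtain ⟨V, G, c, r, d, lam, θ, n, ζ, hg, hζ⟩ := hMIN Y X hX O v hv hO S hSan hSO hS1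
  obtain ⟨W, w₀, φ, h1, h2, h3, h4, h5, h6, -, h7⟩ := wedge_of_good hALG hRES hDET hPUI hTHIN hBR
    hPUSH hCORE hX hχ hM hNef hm hv hO hSan (hO.mono hSO) hL hQ hT hg hζ
  exact ⟨W, w₀, φ, h1, h2, h3, h4, h5, h6, h7⟩

end Vale.Agent.P277.H371
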