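import Vale.Agent.P277.H371.Fun
import Vale.Agent.P277.H335.RE

/-!
# P277, TX: wedges and their lifts
-/

open scoped Manifold ContDiff ComplexOrder Topology
open Vale.Agent.P272.K Vale.Agent.P285.H281.FD Vale.Agent.P267.H175 Set Metric Filter

noncomputable section

namespace Vale.Agent.P277.H371

open Vale.Agent.P277.TX Vale.Agent.P277.H19

/-! ### the map `pw s` -/

/-- `(w₀, w₁, w₂, w₃) ↦ (w₀ˢ, w₁ w₀ˢ, w₂, w₃)` -/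
def pw (s : ℕ) (w : Cm 4) : Cm 4 := ![w 0 ^ s, w 1 * w 0 ^ s, w 2, w 3]

theorem analyticAt_pw (s : ℕ) (w : Cm 4) : AnalyticAt ℂ (pw s) w := by
  have h : ∀ i : Fin 4, AnalyticAt ℂ (fun z : Cm 4 => z i) w := fun i =>
    (ContinuousLinearMap.proj (R := ℂ) (φ := fun _ : Fin 4 => ℂ) i).analyticAt _
  rw [analyticAt_pi_iff]
  intro i
  fin_cases i
  · exact (h 0).pow s
  · exact (h 1).mul ((h 0).pow s)
  · exact h 2
  · exact h 3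

theorem jmat_pw (s : ℕ) (w : Cm 4) : jmat (pw s) w =
    !![s * w 0 ^ (s - 1), 0, 0, 0; w 1 * (s * w 0 ^ (s - 1)), w 0 ^ s, 0, 0; 0, 0, 1, 0;
      0, 0, 0, 1] := by
  have h : ∀ j : Fin 4, HasFDerivAt (fun w : Cm 4 => w j)
      (ContinuousLinearMap.proj (R := ℂ) (φ := fun _ : Fin 4 => ℂ) j) w := fun j =>
    (ContinuousLinearMap.proj (R := ℂ) (φ := fun _ : Fin 4 => ℂ) j).hasFDerivAt
  have hd := (analyticAt_pw s w).differentiableAt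
  have hp : HasFDerivAt (fun w : Cm 4 => w 0 ^ s)
      ((s * w 0 ^ (s - 1)) • ContinuousLinearMap.proj (R := ℂ) (φ := fun _ : Fin 4 => ℂ) 0) w :=
    (hasDerivAt_pow s (w 0)).comp_hasFDerivAt w (h 0)
  have h0 : fderiv ℂ (fun w => pw s w 0) w =
      (s * w 0 ^ (s - 1)) • ContinuousLinearMap.proj (R := ℂ) (φ := fun _ : Fin 4 => ℂ) 0 := hp.fderiv
  have h1 : fderiv ℂ (fun w => pw s w 1) w =
      w 1 • ((s * w 0 ^ (s - 1)) • ContinuousLinearMap.proj (R := ℂ) (φ := fun _ : Fin 4 => ℂ) 0) +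
        (w 0 ^ s) • ContinuousLinearMap.proj (R := ℂ) (φ := fun _ : Fin 4 => ℂ) 1 :=
    ((h 1).mul hp).fderiv
  have h2 : fderiv ℂ (fun w => pw s w 2) w =
      ContinuousLinearMap.proj (R := ℂ) (φ := fun _ : Fin 4 => ℂ) 2 := (h 2).fderiv
  have h3 : fderiv ℂ (fun w => pw s w 3) w =
      ContinuousLinearMap.proj (R := ℂ) (φ := fun _ : Fin 4 => ℂ) 3 := (h 3).fderiv
  ext i j
  have h4 : jmat (pw s) w i j = fderiv ℂ (fun w => pw s w i) w (Pi.single j 1) := by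
    rw [jmat_apply hd, fderiv_apply hd]; rfl
  rw [h4]
  fin_cases i
  · simp only [Fin.zero_eta, Fin.isValue, h0]
    fin_cases j <;> simp
  · simp only [Fin.mk_one, Fin.isValue, h1]
    fin_cases j <;> simp
  · simp only [Fin.reduceFinMk, Fin.isValue, h2]
    fin_cases j <;> simp
  · simp only [Fin.reduceFinMk, Fin.isValue, h3]
    fin_cases j <;> simp

/-- the inverse of the Jacobian matrix of `pw s` -/
def ipw (s : ℕ) (w : Cm 4) : Matrix (Fin 4) (Fin 4) ℂ :=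
  !![(s * w 0 ^ (s - 1))⁻¹, 0, 0, 0; -w 1 * (w 0 ^ s)⁻¹, (w 0 ^ s)⁻¹, 0, 0; 0, 0, 1, 0; 0, 0, 0, 1]

theorem jmat_pw_mul {s : ℕ} (hs : 1 ≤ s) {w : Cm 4} (hw : w 0 ≠ 0) :
    jmat (pw s) w * ipw s w = 1 := by
  rw [jmat_pw, ipw]
  have h1 : (s : ℂ) ≠ 0 := by exact_mod_cast (Nat.one_le_iff_ne_zero.1 hs)
  have h2 : w 0 ^ (s - 1) ≠ 0 := pow_ne_zero _ hw
  have h3 : w 0 ^ s ≠ 0 := pow_ne_zero _ hw
  ext i j
  rw [Matrix.mul_apply]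
  fin_cases i <;> fin_cases j <;> simp [Fin.sum_univ_succ] <;> field_simp <;> ring

theorem det_jmat_pw {s : ℕ} (hs : 1 ≤ s) (w : Cm 4) :
    (jmat (pw s) w).det = s * w 0 ^ (2 * s - 1) := by
  rw [jmat_pw]
  have h1 : w 0 ^ (2 * s - 1) = w 0 ^ (s - 1) * w 0 ^ s := by
    rw [← pow_add]; congr 1; omega
  rw [h1]
  simp [Matrix.det_succ_row_zero, Fin.sum_univ_succ, Fin.succAbove]
  ring

theorem det_jmat_pw_ne {s : ℕ} (hs : 1 ≤ s) {w : Cm 4} (hw : w 0 ≠ 0) :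
    (jmat (pw s) w).det ≠ 0 := by
  rw [det_jmat_pw hs]
  exact mul_ne_zero (by exact_mod_cast (Nat.one_le_iff_ne_zero.1 hs)) (pow_ne_zero _ hw)

theorem norm_ipw_le {s : ℕ} (hs : 1 ≤ s) {w : Cm 4} (hw : w 0 ≠ 0) (h1 : ‖w 0‖ ≤ 1)
    (i j : Fin 4) : ‖ipw s w i j‖ ≤ (‖w 1‖ + 1) / ‖w 0‖ ^ s := by
  have h0 : 0 < ‖w 0‖ := norm_pos_iff.2 hw
  have hp : 0 < ‖w 0‖ ^ s := pow_pos h0 s
  have hp1 : ‖w 0‖ ^ s ≤ 1 := pow_le_one₀ h0.le h1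
  have hB : 0 ≤ (‖w 1‖ + 1) / ‖w 0‖ ^ s := by positivity
  have hs' : (1 : ℝ) ≤ s := by exact_mod_cast hs
  have hone : 1 ≤ (‖w 1‖ + 1) / ‖w 0‖ ^ s := by
    rw [le_div_iff₀ hp]
    nlinarith [norm_nonneg (w 1)]
  have h00 : ‖((s : ℂ) * w 0 ^ (s - 1))⁻¹‖ ≤ (‖w 1‖ + 1) / ‖w 0‖ ^ s := by
    rw [norm_inv, norm_mul, norm_pow, Complex.norm_natCast, inv_eq_one_div,
      div_le_div_iff₀ (by positivity) hp]
    have h2 : ‖w 0‖ ^ s ≤ ‖w 0‖ ^ (s - 1) := pow_le_pow_of_le_one h0.le h1 (Nat.sub_le s 1)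
    have h3 : 0 < ‖w 0‖ ^ (s - 1) := pow_pos h0 _
    calc 1 * ‖w 0‖ ^ s ≤ 1 * (1 * ‖w 0‖ ^ (s - 1)) := by linarith
      _ ≤ (‖w 1‖ + 1) * (s * ‖w 0‖ ^ (s - 1)) := by
        gcongr
        linarith [norm_nonneg (w 1)]
  have h11 : ‖(w 0 ^ s)⁻¹‖ ≤ (‖w 1‖ + 1) / ‖w 0‖ ^ s := by
    rw [norm_inv, norm_pow, inv_eq_one_div]
    gcongr
    linarith [norm_nonneg (w 1)]
  have h10 : ‖-w 1 * (w 0 ^ s)⁻¹‖ ≤ (‖w 1‖ + 1) / ‖w 0‖ ^ s := by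
    rw [norm_mul, norm_neg, norm_inv, norm_pow, ← div_eq_mul_inv]
    gcongr
    linarith [norm_nonneg (w 1)]
  fin_cases i <;> fin_cases j
  · exact h00
  · change ‖(0 : ℂ)‖ ≤ _; rw [norm_zero]; exact hB
  · change ‖(0 : ℂ)‖ ≤ _; rw [norm_zero]; exact hB
  · change ‖(0 : ℂ)‖ ≤ _; rw [norm_zero]; exact hB
  · exact h10
  · exact h11
  · change ‖(0 : ℂ)‖ ≤ _; rw [norm_zero]; exact hB
  · change ‖(0 : ℂ)‖ ≤ _; rw [norm_zero]; exact hB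
  · change ‖(0 : ℂ)‖ ≤ _; rw [norm_zero]; exact hB
  · change ‖(0 : ℂ)‖ ≤ _; rw [norm_zero]; exact hB
  · change ‖(1 : ℂ)‖ ≤ _; rw [norm_one]; exact hone
  · change ‖(0 : ℂ)‖ ≤ _; rw [norm_zero]; exact hB
  · change ‖(0 : ℂ)‖ ≤ _; rw [norm_zero]; exact hB
  · change ‖(0 : ℂ)‖ ≤ _; rw [norm_zero]; exact hB
  · change ‖(0 : ℂ)‖ ≤ _; rw [norm_zero]; exact hB
  · change ‖(1 : ℂ)‖ ≤ _; rw [norm_one]; exact hone

/-- `pw s` is a local homeomorphism where `w 0 ≠ 0` -/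
theorem map_nhds_pw {s : ℕ} (hs : 1 ≤ s) {w : Cm 4} (hw : w 0 ≠ 0) :
    map (pw s) (𝓝 w) = 𝓝 (pw s w) := by
  have hd : (fderiv ℂ (pw s) w).det ≠ 0 := by
    rw [← det_jmat (analyticAt_pw s w).differentiableAt]
    exact det_jmat_pw_ne hs hw
  let L : Cm 4 ≃L[ℂ] Cm 4 :=
    (LinearMap.equivOfDetNeZero (fderiv ℂ (pw s) w : Cm 4 →ₗ[ℂ] Cm 4) hd).toContinuousLinearEquiv
  have hL : (L : Cm 4 →L[ℂ] Cm 4) = fderiv ℂ (pw s) w := by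
    ext v : 1
    rfl
  have hstrict : HasStrictFDerivAt (pw s) (L : Cm 4 →L[ℂ] Cm 4) w := by
    rw [hL]
    exact (analyticAt_pw s w).hasStrictFDerivAt
  exact hstrict.map_nhds_eq_of_equiv

/-! ### thin sets -/

theorem thin_frequently {D E : Set (Cm 4)} (hE : Thin 2 D E) (hD : IsOpen D) {z : Cm 4}
    (hz : z ∈ D) : ∃ᶠ w in 𝓝 z, w ∉ E := by
  obtain ⟨-, Ω, g, hΩ, hg, hcov⟩ := hE
  have h1 : MeasureTheory.volume (⋃ l, (fun x : Cm 3 => g l (H335.ini 2 x)) ''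
      {x | H335.ini 2 x ∈ Ω l}) = 0 := by
    refine H335.volume_thin (n := 3) (W := fun l => {x | H335.ini 2 x ∈ Ω l})
      (g := fun l (x : Cm 3) => g l (H335.ini 2 x)) ?_
    intro k q hq
    exact (hg k _ hq).comp_of_eq ((H335.ini 2).analyticAt q) rfl
  have h2 := H335.dense_compl_of_null h1
  rw [Filter.frequently_iff]
  intro U hU
  obtain ⟨U', hU', hU'o, hzU'⟩ := _root_.mem_nhds_iff.1 (inter_mem hU (hD.mem_nhds hz))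
  obtain ⟨w, hw1, hw2⟩ := h2.inter_open_nonempty _ hU'o ⟨z, hzU'⟩
  refine ⟨w, (hU' hw1).1, fun hwE => hw2 ?_⟩
  obtain ⟨l, q, hq, hqw⟩ := mem_iUnion.1 (hcov ⟨(hU' hw1).2, hwE⟩)
  refine mem_iUnion.2 ⟨l, Fin.snoc q 0, ?_, ?_⟩
  · change H335.ini 2 _ ∈ Ω l
    rw [H335.ini_snoc]; exact hq
  · change g l (H335.ini 2 _) = w
    rw [H335.ini_snoc]; exact hqw

/-- the wedge is mapped generically to `v '' O` -/
theorem wedge_closure {Y : Type} [TopologicalSpace Y] [ChartedSpace (Cm 4) Y] {X : CSp}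
    {O : Set Y} {v : Y → X.pt} {V : Set X.pt} {G : X.pt → Cm 4} {c : Cm 4} {r : ℝ}
    (hmaps : ∀ x ∈ V, G x ∈ ball c r)
    (hE : Thin 2 (ball c r) (G '' {x | x ∈ V ∧ ¬ ∃ y ∈ O, v y = x ∧ RankGe3 v G y}))
    {W : Set (Cm 4)} (hW : IsOpen W) {φ : Cm 4 → X.pt} {s : ℕ} (hs : 1 ≤ s)
    (hφ : ∀ w ∈ W, φ w ∈ V ∧ G (φ w) = pw s w) :
    W ⊆ closure {w | w ∈ W ∧ φ w ∈ v '' O} := by
  intro w hw
  rw [mem_closure_iff_nhds]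
  intro N hN
  obtain ⟨N', hN'N, hN'o, hwN'⟩ := _root_.mem_nhds_iff.1 (inter_mem hN (hW.mem_nhds hw))
  obtain ⟨w', hw', hw'0⟩ := exists_ne_zero (hN'o.mem_nhds hwN')
  have h1 : pw s w' ∈ ball c r := by
    rw [← (hφ w' (hN'N hw').2).2]
    exact hmaps _ (hφ w' (hN'N hw').2).1
  have h2 := thin_frequently hE isOpen_ball h1
  rw [← map_nhds_pw hs hw'0, frequently_map] at h2
  obtain ⟨w'', hw'', hw''N⟩ := (h2.and_eventually (hN'o.mem_nhds hw')).exists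
  obtain ⟨h3, h4⟩ := hφ w'' (hN'N hw''N).2
  refine ⟨w'', (hN'N hw''N).1, (hN'N hw''N).2, ?_⟩
  by_contra hnot
  refine hw'' ⟨φ w'', ⟨h3, ?_⟩, h4⟩
  rintro ⟨y, hy, hyw, -⟩
  exact hnot ⟨y, hy, hyw⟩

/-! ### lifts -/

section lifts
variable {Y : Type} [TopologicalSpace Y] [ChartedSpace (Cm 4) Y] {X : CSp} {O : Set Y}
  {v : Y → X.pt} {L : Bd X.pt} {M : Bd Y} {m Q : ℕ}
  {T : L.ι → ((((Bd.can 4 Y).pow m).mul M).pow Q).ι → Y → ℂ}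

/-- the wedge `φ` has a lift at `w₁` along which the Jacobian and the frame vanish -/
def HasLift (O : Set Y) (v : Y → X.pt) (L : Bd X.pt) (M : Bd Y) (m Q : ℕ)
    (T : L.ι → ((((Bd.can 4 Y).pow m).mul M).pow Q).ι → Y → ℂ) (φ : Cm 4 → X.pt)
    (w₁ : Cm 4) : Prop :=
  ∃ (γ : Cm 4 → Y) (e : Chart 4 Y) (μ : M.ι) (i : L.ι) (F : Cm 4 → ℂ) (K : ℕ), 1 ≤ K ∧
    ContinuousAt γ w₁ ∧ At e (γ w₁) ∧ γ w₁ ∈ M.U μ ∧ AnalyticAt ℂ (fun w => e (γ w)) w₁ ∧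
    (∀ᶠ w in 𝓝 w₁, φ w ∈ v '' O → γ w ∈ O ∧ v (γ w) = φ w) ∧ φ w₁ ∈ L.U i ∧
    AnalyticAt ℂ F w₁ ∧ (∀ᶠ w in 𝓝 w₁, γ w ∈ O → F w = T i (e, μ) (γ w) ^ K) ∧
    (∀ᶠ w in 𝓝 w₁, w 0 = 0 → F w = 0) ∧
    ∀ᶠ w in 𝓝 w₁, w 0 = 0 → (fderiv ℂ (fun w => e (γ w)) w).det = 0

theorem continuousAt_of_chart {γ : Cm 4 → Y} {w : Cm 4} {e : Chart 4 Y}
    (h1 : ∀ᶠ w' in 𝓝 w, At e (γ w')) (h2 : ContinuousAt (fun w => e (γ w)) w) :
    ContinuousAt γ w := by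
  have h3 : ContinuousAt (fun w => e.symm (e (γ w))) w :=
    ContinuousAt.comp (g := e.symm) (f := fun w => e (γ w))
      (e.continuousAt_symm (e.map_source h1.self_of_nhds.2)) h2
  refine h3.congr ?_
  filter_upwards [h1] with w' hw'
  exact e.left_inv hw'.2

theorem HasLift.eventually (hM : IsLB 4 M) (hL : IsLBx X L) {φ : Cm 4 → X.pt} {w₁ : Cm 4}
    (hφ : ContinuousAt φ w₁) (h : HasLift O v L M m Q T φ w₁) :
    ∀ᶠ w in 𝓝 w₁, HasLift O v L M m Q T φ w := by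
  obtain ⟨γ, e, μ, i, F, K, hK, h1, h2, h3, h4, h5, h6, h7, h8, h9, h10⟩ := h
  have c1 : ∀ᶠ w in 𝓝 w₁, At e (γ w) := by
    filter_upwards [h1.eventually_mem (e.open_source.mem_nhds h2.2)] with w hw
    exact ⟨h2.1, hw⟩
  filter_upwards [c1.eventually_nhds, h1.eventually_mem ((hM.isOpen μ).mem_nhds h3),
    h4.eventually_analyticAt, h5.eventually_nhds, hφ.eventually_mem ((hL.isOpen i).mem_nhds h6),
    h7.eventually_analyticAt, h8.eventually_nhds, h9.eventually_nhds, h10.eventually_nhds]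
    with w d1 d2 d3 d4 d5 d6 d7 d8 d9
  exact ⟨γ, e, μ, i, F, K, hK, continuousAt_of_chart d1 d3.continuousAt, d1.self_of_nhds, d2, d3,
    d4, d5, d6, d7, d8, d9⟩

/-- a common point for finitely many properties -/
theorem exists_common {d : ℕ} {W : Set (Cm 4)} {P : Fin d → Cm 4 → Prop}
    (hP : ∀ k, ∀ w ∈ W, P k w → ∀ᶠ w' in 𝓝 w, P k w')
    (hex : ∀ k, ∀ W' ⊆ W, IsOpen W' → ∀ w' ∈ W', w' 0 = 0 → ∃ w₁ ∈ W', w₁ 0 = 0 ∧ P k w₁)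
    (s : Finset (Fin d)) : ∀ W' ⊆ W, IsOpen W' → ∀ w' ∈ W', w' 0 = 0 →
      ∃ w₁ ∈ W', w₁ 0 = 0 ∧ ∀ k ∈ s, P k w₁ := by
  classical
  induction s using Finset.induction_on with
  | empty => intro W' _ _ w' hw' h0; exact ⟨w', hw', h0, by simp⟩
  | insert a s ha ih =>
    intro W' hW' hW'o w' hw' h0
    obtain ⟨w₂, hw₂, hw₂0, hw₂s⟩ := ih W' hW' hW'o w' hw' h0
    have h1 : ∀ᶠ w in 𝓝 w₂, ∀ k ∈ s, P k w := by
      rw [Filter.eventually_all_finset]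
      exact fun k hk => hP k w₂ (hW' hw₂) (hw₂s k hk)
    obtain ⟨W'', hW'', hW''o, hw₂''⟩ := _root_.mem_nhds_iff.1 (inter_mem h1 (hW'o.mem_nhds hw₂))
    obtain ⟨w₁, hw₁, hw₁0, hw₁P⟩ := hex a W'' (fun w hw => hW' (hW'' hw).2) hW''o w₂ hw₂'' hw₂0
    refine ⟨w₁, (hW'' hw₁).2, hw₁0, fun k hk => ?_⟩
    rcases Finset.mem_insert.1 hk with rfl | hk
    · exact hw₁P
    · exact (hW'' hw₁).1 k hk

/-- normalised lifts: with a given frame `i₀` of `L` and a given power `K` -/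
structure NLift (O : Set Y) (v : Y → X.pt) (L : Bd X.pt) (M : Bd Y) (m Q : ℕ)
    (T : L.ι → ((((Bd.can 4 Y).pow m).mul M).pow Q).ι → Y → ℂ) (i₀ : L.ι) (K : ℕ)
    (φ : Cm 4 → X.pt) (w₁ : Cm 4) (γ : Cm 4 → Y) (e : Chart 4 Y) (μ : M.ι)
    (F : Cm 4 → ℂ) : Prop where
  cont : ContinuousAt γ w₁
  at' : At e (γ w₁)
  mem : γ w₁ ∈ M.U μ
  an : AnalyticAt ℂ (fun w => e (γ w)) w₁
  lift : ∀ᶠ w in 𝓝 w₁, φ w ∈ v '' O → γ w ∈ O ∧ v (γ w) = φ w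
  anF : AnalyticAt ℂ F w₁
  eqF : ∀ᶠ w in 𝓝 w₁, φ w ∈ v '' O → F w = T i₀ (e, μ) (γ w) ^ K

theorem isoY_frame (hL : IsLBx X L)
    (hT : IsIsoY O v L ((((Bd.can 4 Y).pow m).mul M).pow Q) T) {y : Y} (hy : y ∈ O)
    {i i₀ : L.ι} (hi : v y ∈ L.U i) (hi₀ : v y ∈ L.U i₀) {e : Chart 4 Y} (he : At e y) {μ : M.ι}
    (hμ : y ∈ M.U μ) : T i₀ (e, μ) y = L.g i i₀ (v y) * T i (e, μ) y := by
  have h1 := hT.change y hy i i (e, μ) (e, μ) hi hi ⟨he, hμ⟩ ⟨he, hμ⟩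
  have h2 : L.g i i (v y) = 1 :=
    (mul_eq_left₀ (hL.ne_zero i i (v y) hi hi)).1 (hL.cocycle i i i (v y) hi hi hi)
  have h3 : T i (e, μ) y ≠ 0 := (hT.holo y hy i (e, μ) e he hi ⟨he, hμ⟩).2
  rw [h2, one_mul] at h1
  have h4 : ((((Bd.can 4 Y).pow m).mul M).pow Q).g (e, μ) (e, μ) y = 1 :=
    (mul_eq_left₀ h3).1 h1.symm
  have h5 := hT.change y hy i i₀ (e, μ) (e, μ) hi hi₀ ⟨he, hμ⟩ ⟨he, hμ⟩
  rw [h4, mul_one] at h5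
  exact h5

theorem HasLift.nlift (hM : IsLB 4 M) (hL : IsLBx X L)
    (hT : IsIsoY O v L ((((Bd.can 4 Y).pow m).mul M).pow Q) T) {φ : Cm 4 → X.pt} {w₁ : Cm 4}
    (hφ : HolAt X φ w₁) (h : HasLift O v L M m Q T φ w₁) {i₀ : L.ι} (hi₀ : φ w₁ ∈ L.U i₀) :
    ∃ K₀ : ℕ, 1 ≤ K₀ ∧ ∀ K : ℕ, 1 ≤ K → K₀ ∣ K → ∃ (γ : Cm 4 → Y) (e : Chart 4 Y) (μ : M.ι)
      (F : Cm 4 → ℂ), NLift O v L M m Q T i₀ K φ w₁ γ e μ F ∧
        (∀ᶠ w in 𝓝 w₁, w 0 = 0 → F w = 0) ∧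
        ∀ᶠ w in 𝓝 w₁, w 0 = 0 → (fderiv ℂ (fun w => e (γ w)) w).det = 0 := by
  obtain ⟨γ, e, μ, i, F, K₀, hK₀, h1, h2, h3, h4, h5, h6, h7, h8, h9, h10⟩ := h
  refine ⟨K₀, hK₀, ?_⟩
  rintro K hK ⟨a, rfl⟩
  have ha : a ≠ 0 := by
    rintro rfl
    omega
  refine ⟨γ, e, μ, fun w => L.g i i₀ (φ w) ^ (K₀ * a) * F w ^ a,
    ⟨h1, h2, h3, h4, h5, ?_, ?_⟩, ?_, h10⟩
  · exact ((hφ.analyticAt (hL.holo i i₀ _ h6 hi₀)).pow _).mul (h7.pow a)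
  · have c1 : ∀ᶠ w in 𝓝 w₁, At e (γ w) := by
      filter_upwards [h1.eventually_mem (e.open_source.mem_nhds h2.2)] with w hw
      exact ⟨h2.1, hw⟩
    filter_upwards [c1, h1.eventually_mem ((hM.isOpen μ).mem_nhds h3), h5, h8,
      hφ.1.eventually_mem ((hL.isOpen i).mem_nhds h6),
      hφ.1.eventually_mem ((hL.isOpen i₀).mem_nhds hi₀)] with w d1 d2 d3 d4 d5 d6 hw
    obtain ⟨g1, g2⟩ := d3 hw
    have h11 := isoY_frame hL hT g1 (i := i) (i₀ := i₀) (by rw [g2]; exact d5)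
      (by rw [g2]; exact d6) d1 d2
    rw [d4 g1, h11, g2, mul_pow, ← pow_mul]
  · filter_upwards [h9] with w hw h0
    rw [hw h0, zero_pow ha, mul_zero]

end lifts

end Vale.Agent.P277.H371
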